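import Vale.Agent.P318.E.Stmt
import Vale.Agent.P318.C.Block2

/-! The block lemma with two parameters. -/

namespace Vale.Agent.P318.E

open Finset MeasureTheory ProbabilityTheory
open M (ind tm Per BM ip fc gm cube chi kap k0 bb A0 A1 Dual Lat lin Inv U01 Ksh torus_proof)
open M.Block (bm_int bm_const bm_mul bm_add bm_sub bm_sq bm_abs bm_comp bm_sum bm_of_mem bm_ind
  ind_sq tm_mono tm_nonneg tm_add tm_sub tm_cmul tm_const tm_sum abs_tm_le tm_cs tm_sq_le ip_add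
  ip_smul ip_single meas_ip tm_le_sqrt tm_mul_le bm_line bm_corr chi_le bm_chi exists_shift
  meas_lin exp_small)
open C

namespace Blk

theorem fin_ar {r C D φ x1 x2 x3 y ε z sd : ℝ} (rp : 0 < r) (F1 : 1 ≤ φ)
    (sl : 1 ≤ y) (e0 : 0 ≤ ε) (n1 : 0 ≤ x2) (n2 : 0 ≤ x3) (n3 : 0 ≤ z)
    (O2 : r ^ 2 / 12 * D ≤ r ^ 2 / 24 * D + C * (φ * x2 + y * ε * x3 + z))
    (P2 : x1 ≤ 3 * φ * D + sd) (Ks : sd ≤ φ * (ε * x3)) :
    x1 ≤ (72 * C / r ^ 2 + 1) * φ ^ 2 * x2 + (72 * C / r ^ 2 + 1) * φ * y * ε * x3 +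
      (72 * C / r ^ 2 + 1) * φ * z := by
  have D1 : D ≤ 24 * C / r ^ 2 * (φ * x2 + y * ε * x3 + z) := by
    rw [div_mul_eq_mul_div, le_div_iff₀ (by positivity)]
    linarith
  have D2 := mul_le_mul_of_nonneg_left D1 (by linarith : 0 ≤ 3 * φ)
  have φ0 : 0 ≤ φ := by linarith
  have E1 : φ * (ε * x3) ≤ φ * y * ε * x3 := by
    have := mul_le_mul_of_nonneg_right sl (mul_nonneg φ0 (mul_nonneg e0 n2))
    linarith
  have E3 : 0 ≤ φ ^ 2 * x2 := by positivity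
  have E4 : 0 ≤ φ * z := by positivity
  rw [show 3 * φ * (24 * C / r ^ 2 * (φ * x2 + y * ε * x3 + z)) =
    72 * C / r ^ 2 * φ ^ 2 * x2 + 72 * C / r ^ 2 * φ * y * ε * x3 +
      72 * C / r ^ 2 * φ * z by ring] at D2
  linarith

end Blk

open C.Block2 in
theorem blockE_proof (hW : WinStmt) (hL : LineStmt) (hD : DerivStmt) (hN : Near2Stmt) :
    BlockEStmt := by
  intro c0 hc
  obtain ⟨r0, p0, p1, hp⟩ := params hc
  refine ⟨r0 ^ 16, by positivity, fun ω C1 h0 h1 hC => ?_⟩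
  obtain ⟨r, rp, rfl⟩ : ∃ r : ℝ, 0 < r ∧ r ^ 16 = ω :=
    ⟨ω ^ (((16 : ℕ) : ℝ)⁻¹), by positivity, Real.rpow_inv_natCast_pow h0.le (by norm_num)⟩
  have hp' := hp r rp (le_of_pow_le_pow_left₀ (by norm_num) p0.le h1)
  obtain ⟨C, C0, hC⟩ := hN (r ^ 16) (2 / r) (r ^ 2 / 24) C1 (64 / (r ^ 16) ^ 2) h0 (by positivity)
    (by positivity) hC (by positivity)
  have Cp : 0 < 72 * C / r ^ 2 := by positivity
  refine ⟨72 * C / r ^ 2 + 1, by linarith, ?_⟩
  intro w hw hom ι κ _ _ _ _ Γ J s ε l l' hLat hd ht3 hn hJ hZ hS hK e0 hl hl' t h hU hi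
  have R := hW w hw
  have cp : (0 : ℝ) < Fintype.card κ := Nat.cast_pos.2 Fintype.card_pos
  obtain ⟨σ, hσd⟩ : ∃ σ : ℝ, σ = 2 / r / Real.sqrt (Fintype.card κ) := ⟨_, rfl⟩
  have σ0 : 0 < σ := by rw [hσd]; positivity
  have hσ : (2 / r) ^ 2 = σ ^ 2 * Fintype.card κ := by
    rw [hσd, div_pow (2 / r), Real.sq_sqrt cp.le, div_mul_cancel₀ _ cp.ne']
  have bc := bm_c1 hD hw hU s t
  have bP : ∀ j, BM fun η => psi w (t j + ip (s j) η) := fun j => bm_line (bm_psi R) _ _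
  have bq : ∀ j, BM fun η => pq w (t j + ip (s j) η) := fun j => bm_line (bm_pq R) _ _
  have bd : ∀ j, BM fun η => dpr w (t j + ip (s j) η) := fun j => bm_line (bm_dpr R) _ _
  obtain ⟨-, cb, -, wb, -⟩ := hD ι w h hw hU
  have c1le : ∀ j y, |c1 w h j y| ≤ 1 := fun j y => ((cb j).2.2 y).1.trans ((cb j).2.2 y).2
  obtain ⟨m, hm⟩ : ∃ m : ι → ℝ, ∀ j, m j =
      tm (fun η => psi w (t j + ip (s j) η) * c1 w h j (t + lin s η)) /
        tm fun η => psi w (t j + ip (s j) η) := ⟨_, fun _ => rfl⟩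
  have m1 : ∀ j, |m j| ≤ 1 := fun j => by
    rw [hm, abs_div, abs_of_nonneg (tm_nonneg fun η => R.psi_nonneg (t j + ip (s j) η))]
    refine div_le_one_of_le₀ ((abs_tm_le _).trans (tm_mono (bm_abs (bm_mul (bP j) (bc j))) (bP j)
      fun η => ?_)) (tm_nonneg fun η => R.psi_nonneg _)
    rw [abs_mul, abs_of_nonneg (R.psi_nonneg _)]
    exact mul_le_of_le_one_right (R.psi_nonneg _) (c1le _ _)
  have unit : ∀ j ∈ J, ∃ k, s j k = 1 ∨ s j k = -1 := fun j hj => by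
    by_contra hne
    push Not at hne
    have : ∀ k, s j k = 0 := fun k => by
      rcases ht3 j k with a | a | a
      exacts [a, absurd a (hne k).1, absurd a (hne k).2]
    have := hn j hj
    simp only [‹∀ k, s j k = 0›, Int.cast_zero] at this
    simp at this
    linarith
  have H0 : ∀ j ∈ J, Hyp w Γ (s j) fun η => c1 w h j (t + lin s η) := fun j hj =>
    ⟨R, hw.1, hLat.1, ht3 j, unit j hj, hd j, bc j, fun ρ hρ β => inv_c1 hD hw hU hd hi t j hρ β⟩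
  have H1 : ∀ j ∈ J, Hyp w Γ (s j) fun η => c1 w h j (t + lin s η) - m j := fun j hj =>
    ⟨R, hw.1, hLat.1, ht3 j, unit j hj, hd j, bm_sub (bc j) (bm_const _), fun ρ hρ β => by
      rw [inv_c1 hD hw hU hd hi t j hρ β]⟩
  have b2 : tm (fun η => W1 w J h (t + lin s η)) =
      ∑ j ∈ J, tm fun η => pq w (t j + ip (s j) η) * c1 w h j (t + lin s η) ^ 2 :=
    tm_sum J fun j _ => bm_mul (bq j) (bm_sq (bc j))
  have b1 : tm (fun η => W1 w J h (t + lin s η)) ≤ 1 :=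
    (tm_mono (bm_comp (wb J).1 (meas_lin s t)) (bm_const 1)
      fun η => ((wb J).2.2.2 _).2.1).trans (tm_const 1).le
  have m2 : ∑ j ∈ J, m j ^ 2 ≤ 64 / (r ^ 16) ^ 2 := by
    have : ∀ j ∈ J, m j ^ 2 ≤ 64 / (r ^ 16) ^ 2 *
        tm fun η => pq w (t j + ip (s j) η) * c1 w h j (t + lin s η) ^ 2 := fun j hj => by
      have a1 := (H0 j hj).psi_lo (t j)
      have a2 := (tm_sq_le ((H0 j hj).bm2 (t j))).trans ((tm_mono (bm_sq ((H0 j hj).bm2 (t j)))
        (bm_mul (bm_const _) ((H0 j hj).bm0 (t j))) ((H0 j hj).sq2 (t j))).trans (tm_cmul _ _).le)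
      rw [hom] at a2
      rw [hm, div_pow, div_le_iff₀ (by positivity)]
      have a3 := (H0 j hj).w_nonneg (t j)
      have a4 : 1 / 4 ≤ tm (fun η => psi w (t j + ip (s j) η)) ^ 2 := by nlinarith
      have a5 := mul_le_mul_of_nonneg_left a4
        (mul_nonneg (by positivity : 0 ≤ 64 / (r ^ 16) ^ 2) a3)
      refine a2.trans (le_trans (le_of_eq ?_) a5)
      ring
    refine (sum_le_sum this).trans ?_
    rw [← mul_sum, ← b2]
    exact mul_le_of_le_one_right (by positivity) b1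
  obtain ⟨Wj, hWj⟩ : ∃ Wj : ι → ℝ, ∀ j, Wj j = σ * Real.sqrt (∑ k, (s j k : ℝ) ^ 2) :=
    ⟨_, fun _ => rfl⟩
  have Wsq : ∀ j, Wj j ^ 2 = σ ^ 2 * ∑ k, (s j k : ℝ) ^ 2 := fun j => by
    rw [hWj, mul_pow, Real.sq_sqrt (sum_nonneg fun _ _ => sq_nonneg _)]
  have Wn0 : ∀ j, 0 ≤ Wj j := fun j => by rw [hWj]; positivity
  have Wlo : ∀ j ∈ J, 1 / r ≤ Wj j := fun j hj => by
    refine (abs_le_of_sq_le_sq' ?_ (Wn0 j)).2
    rw [Wsq]
    have := mul_le_mul_of_nonneg_left (hn j hj) (sq_nonneg σ)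
    rw [show (1 / r) ^ 2 = (2 / r) ^ 2 / 4 by ring, hσ]
    linarith
  have Whi : ∀ j, Wj j ≤ 2 / r := fun j => by
    refine (abs_le_of_sq_le_sq' ?_ (by positivity)).2
    rw [Wsq, hσ]
    refine mul_le_mul_of_nonneg_left ?_ (sq_nonneg σ)
    refine (sum_le_card_nsmul _ _ 1 fun k _ => ?_).trans (by simp)
    rcases ht3 j k with a | a | a <;> simp [a]
  obtain ⟨q, hq⟩ : ∃ q : ι → ℝ, ∀ j, q j = if j ∈ J then r ^ 2 / 3 / A0 (Wj j) r else 0 :=
    ⟨_, fun _ => rfl⟩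
  have r3 : 0 < r ^ 2 / 3 := by positivity
  have q01 : ∀ j, 0 ≤ q j ∧ q j ≤ 1 := fun j => by
    rw [hq]
    split_ifs with hj
    · have := (hp' _ (Wlo j hj) (Whi j)).2.1
      exact ⟨div_nonneg r3.le (r3.le.trans this), div_le_one_of_le₀ this (r3.le.trans this)⟩
    · exact ⟨le_rfl, zero_le_one⟩
  have N := (abs_le.1 (hC w hw hom ι κ Γ J s t h σ ε l l' (fun j u => q j * chi r u) m hLat.1 hJ
    hU hi σ0 hσ ht3 hZ hS e0 hl hl' (fun j => (bm_chi r).1.const_mul _)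
    (fun j u => by
      rw [abs_mul, abs_of_nonneg (q01 j).1,
        abs_of_nonneg (show 0 ≤ chi r u from (Real.exp_pos _).le)]
      exact mul_le_one₀ (q01 j).2 (Real.exp_pos _).le (chi_le r u)) m1 m2)).2
  have O : ∀ j ∈ J, r ^ 2 / 12 *
      tm (fun η => pq w ((t + lin s η) j) * (c1 w h j (t + lin s η) - m j) ^ 2) ≤
      ∫ ξ, (if |ip (s j) ξ| < 1 / 2 then q j * chi r (ip (s j) ξ) else 0) *
        tm (fun η => pq w ((t + lin s η) j) * (c1 w h j (t + lin s η) - m j) *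
          psi w ((t + lin s (η + ξ)) j) *
          (c1 w h j (t + lin s η) - c1 w h j (t + lin s (η + ξ)))) ∂gm κ σ := fun j hj => by
    obtain ⟨a1, a2, a3, a4, a5⟩ := hp' _ (Wlo j hj) (Whi j)
    have A0p : 0 < A0 (Wj j) r := r3.trans_le a2
    have hz : tm (fun η => psi w (t j + ip (s j) η) * (c1 w h j (t + lin s η) - m j)) = 0 := by
      have := (H0 j hj).psi_lo (t j)
      rw [sub_mean (bP j) (bc j), hm, div_mul_cancel₀ _ (by linarith), sub_self]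
    have := (H1 j hj).one hL (t j) hLat rp (lt_of_lt_of_le (by positivity) (Wlo j hj)) (Wsq j) a1
      A0p.le a3 hz (by rw [hom]; exact a4) (by
        rw [hom, show 2 * Real.pi ^ 2 * σ ^ 2 * (c0 * Fintype.card κ / 4) =
          Real.pi ^ 2 * c0 / 2 * (σ ^ 2 * Fintype.card κ) by ring, ← hσ,
          show Real.pi ^ 2 * c0 / 2 * (2 / r) ^ 2 = 2 * Real.pi ^ 2 * c0 / r ^ 2 by ring]
        exact a5)
    have t2 := mul_le_mul_of_nonneg_left this (q01 j).1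
    rw [← integral_const_mul, ← mul_assoc, show q j * (A0 (Wj j) r / 4) = r ^ 2 / 12 by
      rw [hq, if_pos hj]; field_simp; norm_num] at t2
    refine t2.trans (le_of_eq (congrArg _ (funext fun ξ => ?_)))
    simp only [sub_sub_sub_cancel_right, Pi.add_apply, lin]
    split_ifs <;> ring
  have O2 := (sum_le_sum O).trans N
  rw [← mul_sum] at O2
  obtain ⟨d, hd'⟩ : ∃ d : ι → ℝ, ∀ j, d j =
      tm fun η => dpr w (t j + ip (s j) η) * c1 w h j (t + lin s η) := ⟨_, fun _ => rfl⟩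
  have F1 := R.Fi_ge
  have P : ∀ j ∈ J, tm (fun η => pq w (t j + ip (s j) η) * c1 w h j (t + lin s η) ^ 2) ≤
      3 * Fi w * tm (fun η => pq w ((t + lin s η) j) * (c1 w h j (t + lin s η) - m j) ^ 2) +
        d j ^ 2 := fun j hj => by
    rw [hd']
    exact one_pt (H0 j hj) R (t j) (m j) (H1 j hj)
  have P2 := sum_le_sum P
  rw [← b2, sum_add_distrib, ← mul_sum] at P2
  obtain ⟨n2, Ks⟩ := kashin R hD hw hU hLat.1 hd hi t hJ e0 hK H0 hd'
  have n1 : 0 ≤ tm fun η => W2 w J h (t + lin s η) := tm_nonneg fun η => ((wb J).2.2.2 _).2.2.1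
  have n3 : 0 ≤ ε * (Real.sqrt (J.card / w.et) * Real.exp (-l) + J.card * Real.exp (-l')) := by
    positivity
  have sl : 1 ≤ Real.sqrt l + l' * w.et := by
    have := Real.one_le_sqrt.2 hl
    have := mul_nonneg (zero_le_one.trans hl') hw.2.2.1.le
    linarith
  exact Blk.fin_ar rp F1 sl e0 n1 n2 n3 O2 P2 Ks

end Vale.Agent.P318.E
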