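import Vale.Agent.P318.E.Stmt
import Vale.Agent.P318.B.C1

/-!
Track E: the property `C1n` for independent rows.
-/

namespace Vale.Agent.P318.E

open Finset
open scoped BigOperators
open M (ind ip nsq lin)
open B (nd cd av Kt tc res Pat pS pJ pD pw zone Bk bk sb)
open B.C1p (av_ind lin_sb)
open C

namespace C1r

variable {A : Type} [Fintype A] [DecidableEq A] {Ω : A → Type} [∀ a, Fintype (Ω a)]
  {ι : Type} [Fintype ι] [DecidableEq ι] {m Mf : A → ℕ} {a0 : A}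
  {ρ : ι → ((a : A) → Ω a) → (a : A) → Fin (Mf a) → ℤ}
  {Γ : (a : A) → AddSubgroup (Fin (Mf a) → ℝ)} {τ0 : ℝ}

lemma le_card {π : (a : A) → ι → Fin (m a)} {S : Finset (Bk m)} {N : ℕ} {i : ι}
    (h : i ∈ zn (bk π) S N) : N ≤ (univ.filter fun a => (⟨a, π a i⟩ : Bk m) ∈ S).card := by
  refine (mem_filter.1 h).2.trans ((card_le_card (t := (univ.filter fun a =>
    (⟨a, π a i⟩ : Bk m) ∈ S).image fun a => ⟨a, π a i⟩) fun J hJ => ?_).trans card_image_le)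
  obtain ⟨a, j⟩ := J
  obtain ⟨h1, h2⟩ := mem_filter.1 hJ
  have hj : π a i = j := (mem_filter.1 h2).2
  subst hj
  exact mem_image.2 ⟨a, mem_filter.2 ⟨mem_univ _, h1⟩, rfl⟩

lemma one_pattern (hL : Law a0 ρ Γ τ0) (hM : Msb a0 ρ Γ) (π : (a : A) → ι → Fin (m a))
    (hm : m a0 = 1) (v0 : Fin (m a0)) (Δ : Kt (fun J : Bk m => Mf J.1) → ℝ) (S : Finset (Bk m))
    {η : ℝ} {N : ℕ} (h0 : 0 < η) (hN : 1 ≤ N) (h1 : N * η ^ 2 ≤ 1 / 4)
    (hΓ : ∀ J ∈ S, ∀ γ ∈ Γ J.1, η ^ 2 ≤ nsq (res (M := fun J : Bk m => Mf J.1) Δ J - γ))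
    (hS : (⟨a0, v0⟩ : Bk m) ∉ S)
    (hJ0 : nsq (res (M := fun J : Bk m => Mf J.1) Δ ⟨a0, v0⟩) ≤ 16 * (N * η ^ 2)) :
    R.pr (fun x : ι → (a : A) → Ω a =>
      (((zn (bk π) S N).filter fun i => √N * η / 10 ≤ nd (lin (tc (M := fun J : Bk m => Mf J.1)
        (smp π ρ x)) Δ i)).card : ℝ) ≤ ((zn (bk π) S N).card : ℝ) / 40) ≤
      Real.exp (-(((zn (bk π) S N).card : ℝ) / 160)) := by
  have := hL.ne
  have hv : ∀ v : Fin (m a0), v = v0 := fun v => Fin.ext (by have := v.2; have := v0.2; omega)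
  have h := R.pr_card_le_le (Ω := fun _ : ι => (a : A) → Ω a) (zn (bk π) S N)
    (fun i u => √N * η / 10 ≤ nd (∑ a, ip (ρ i u a)
      (res (M := fun J : Bk m => Mf J.1) Δ ⟨a, π a i⟩))) (q := 1 / 20) fun i hi => by
      obtain ⟨T, hT, rfl⟩ := exists_subset_card_eq (le_card hi)
      rw [← av_ind]
      exact hM i T (fun a => res (M := fun J : Bk m => Mf J.1) Δ ⟨a, π a i⟩) η
        (fun h => hS (hv (π a0 i) ▸ (mem_filter.1 (hT h)).2)) (card_pos.1 hN) h0 h1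
        (fun a ha => hΓ _ (mem_filter.1 (hT ha)).2) (by rw [hv (π a0 i)]; exact hJ0)
  refine le_trans (le_of_eq ?_) (h.trans (le_of_eq ?_))
  · congr 1
    funext x
    have e : smp π ρ x = sb π fun a i => ρ i (x i) a := rfl
    simp only [e, lin_sb]
    congr 1
    ring
  · congr 1
    ring

end C1r

open C1r in
theorem c1n_proof (hP : B.PatStmt) : C1nStmt := by
  intro ι A _ _ _ _ a0 m Mf Ω _ π ρ Γ τ0 Υ v0 wt g hL hM hm hΥ
  rw [av_ind]
  refine le_trans ?_ (mul_le_mul_of_nonneg_left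
    ((hP (Bk m) (fun J => Mf J.1) g).2.2 fun J => wt J / (160 * Υ)) (Nat.cast_nonneg _))
  have hsub := (hP (Bk m) (fun J => Mf J.1) g).1
  let bad : ℕ → Pat (fun J : Bk m => Mf J.1) g → (ι → (a : A) → Ω a) → Prop := fun N P x =>
    ∃ η : ℝ, 0 < η ∧ N * η ^ 2 ≤ 1 / 4 ∧ (⟨a0, v0⟩ : Bk m) ∉ pJ P ∧
      ∑ J ∈ pS P, wt J ≤ Υ * (zn (bk π) (pJ P) N).card ∧
      (∀ J ∈ pJ P, ∀ γ ∈ Γ J.1, η ^ 2 ≤ nsq (res (pD P) J - γ)) ∧
      nsq (res (pD P) ⟨a0, v0⟩) ≤ 16 * (N * η ^ 2) ∧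
      (((zn (bk π) (pJ P) N).filter fun i => √N * η / 10 ≤ nd (pw (smp π ρ x) P i)).card : ℝ) <
          ((zn (bk π) (pJ P) N).card : ℝ) / 40
  have hZ : ∀ N P x, bad N P x → (zn (bk π) (pJ P) N).Nonempty := fun N P x ⟨η, h⟩ => by
    rw [← card_pos, ← Nat.cast_pos (α := ℝ)]
    have : (0 : ℝ) ≤ _ := Nat.cast_nonneg ((zn (bk π) (pJ P) N).filter fun i =>
      √N * η / 10 ≤ nd (pw (smp π ρ x) P i)).card
    linarith [h.2.2.2.2.2.2]
  have key : ∀ N, 1 ≤ N → ∀ P, R.pr (bad N P) ≤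
      if pS P = ∅ then 0 else Real.exp (-∑ J ∈ pS P, wt J / (160 * Υ)) := fun N hN P => by
    by_cases hb : ∃ x, bad N P x
    swap
    · have : R.pr (bad N P) = 0 := by
        unfold R.pr
        exact expect_eq_zero fun x _ => if_neg fun h => hb ⟨x, h⟩
      rw [this]
      split_ifs
      · exact le_rfl
      · positivity
    obtain ⟨x0, hb⟩ := hb
    obtain ⟨i, hi⟩ := hZ N P x0 hb
    obtain ⟨η0, h1, h2, h0, h3, h4, h4', -⟩ := hb
    have hS : pS P ≠ ∅ := by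
      obtain ⟨J, hJ⟩ := card_pos.1 (hN.trans (mem_filter.1 hi).2)
      exact ne_empty_of_mem (hsub P (mem_filter.1 hJ).1)
    rw [if_neg hS]
    have hN' : (0 : ℝ) < N := Nat.cast_pos.2 hN
    let Ad : Set ℝ := {η | 0 < η ∧ N * η ^ 2 ≤ 1 / 4 ∧
      ∀ J ∈ pJ P, ∀ γ ∈ Γ J.1, η ^ 2 ≤ nsq (res (pD P) J - γ)}
    have hne : Ad.Nonempty := ⟨η0, h1, h2, h4⟩
    have hub : ∀ η ∈ Ad, η ≤ √(1 / 4 / N) := fun η hη =>
      Real.le_sqrt_of_sq_le ((le_div_iff₀' hN').2 hη.2.1)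
    have hbd : BddAbove Ad := ⟨_, hub⟩
    have hle : η0 ≤ sSup Ad := le_csSup hbd ⟨h1, h2, h4⟩
    have hpos : 0 < sSup Ad := h1.trans_le hle
    have h6 := one_pattern hL hM π hm v0 (pD P) (pJ P) hpos hN
      ((le_div_iff₀' hN').1 ((Real.le_sqrt hpos.le (by positivity)).1 (csSup_le hne hub)))
      (fun J hJ γ hγ => by
        have h7 : sSup Ad ≤ √(nsq (res (pD P) J - γ)) :=
          csSup_le hne fun η hη => Real.le_sqrt_of_sq_le (hη.2.2 J hJ γ hγ)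
        exact (Real.le_sqrt hpos.le (sum_nonneg fun _ _ => sq_nonneg _)).1 h7)
      h0 (h4'.trans (by gcongr))
    refine le_trans (R.pr_mono fun x hx => ?_) (h6.trans (Real.exp_le_exp.2 ?_))
    · obtain ⟨η, g1, g2, -, -, g4, -, g5⟩ := hx
      refine le_trans ?_ g5.le
      have g6 : η ≤ sSup Ad := le_csSup hbd ⟨g1, g2, g4⟩
      exact_mod_cast card_le_card fun i hi => mem_filter.2 ⟨(mem_filter.1 hi).1,
        le_trans (by gcongr) (mem_filter.1 hi).2⟩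
    · rw [neg_le_neg_iff, ← sum_div, div_le_div_iff₀ (by positivity) (by norm_num)]
      nlinarith
  refine le_trans (R.pr_mono
    (F := fun x => ∃ N : Fin (Fintype.card A), ∃ P, bad (N + 1) P x) fun x hx => ?_)
    ((R.pr_exists_le _).trans ((sum_le_sum fun N _ => (R.pr_exists_le _).trans
      (sum_le_sum fun P _ => key _ (Nat.le_add_left _ _) P)).trans_eq ?_))
  · unfold C1n at hx
    simp only [not_forall, not_le] at hx
    obtain ⟨P, η, N, h1, hN, h2, h0, h3, h4, h5, h6⟩ := hx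
    have hb : bad N P x := ⟨η, h1, h2, h0, h3, h4, h5, h6⟩
    obtain ⟨i, hi⟩ := hZ N P x hb
    have h7 := (le_card hi).trans (card_le_univ _)
    obtain ⟨N, rfl⟩ := Nat.exists_eq_add_of_le' hN
    exact ⟨⟨N, h7⟩, P, hb⟩
  · rw [sum_const, card_univ, Fintype.card_fin, nsmul_eq_mul, cd]

end Vale.Agent.P318.E
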