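import Vale.Agent.P318.E.Stmt
import Vale.Agent.P318.C.Core
import Vale.Agent.P318.C.Sum

/-! Track E: the inequalities in one coordinate for the wide box, and their sum. -/

namespace Vale.Agent.P318.E

open Finset C C.CoreP C.SumL

namespace CoreL

theorem Vt_nonneg (ω η ϑ ϑ' t : ℝ) : 0 ≤ Vt ω η ϑ ϑ' t := by
  unfold Vt
  split_ifs
  exacts [rp_nonneg _ _ _, le_rfl]

theorem rampE {ω η c y' ym yM m M d em eM : ℝ} {km kM : ℤ} (h2 : 0 < η) (h3 : η ≤ 1 / 128)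
    (hc : c = -(1 / 2 + ω) + M - 3 * η) (m0 : 0 < m) (M0 : 0 < M) (M1 : M ≤ 1)
    (hd : |d| ≤ η ^ 2) (he : |eM| ≤ η)
    (e1 : ym - y' = (1 - d) * (km - m) - em) (e2 : yM - y' = (1 - d) * (kM - M) - eM)
    (k1 : kM ≤ km + 1) (k2 : 0 ≤ km * kM) :
    rp c η y' - rp c η (ym + m) - 2 * rp (-(1 / 2 + ω + η)) η yM - (η * m + |em| / η) ≤
      km * kM := by
  have p1 : 0 ≤ η * m + |em| / η := by positivity
  have p2 := rp_nonneg c η (ym + m)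
  have p3 : (0 : ℝ) ≤ km * kM := by exact_mod_cast k2
  have p4 := rp_nonneg (-(1 / 2 + ω + η)) η yM
  rcases le_or_gt c y' with h | h
  · rw [rp_zero h2 h]
    linarith
  rcases le_or_gt yM (-(1 / 2 + ω + 3 / 2 * η)) with hy | hy
  · have : 1 / 2 ≤ rp (-(1 / 2 + ω + η)) η yM :=
      le_max_of_le_left (le_min ((le_div_iff₀ h2).2 (by linarith)) (by norm_num))
    linarith [rp_le c η y']
  rw [abs_le] at he
  have hd' := abs_le.1 hd
  have k3 : 1 ≤ kM := by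
    by_contra h'
    have h4 : (kM : ℝ) ≤ 0 := by exact_mod_cast (by omega : kM ≤ 0)
    have h5 : (1 - d) * kM ≤ 0 := mul_nonpos_of_nonneg_of_nonpos (by nlinarith) h4
    have h6 : d * M ≤ η ^ 2 := by nlinarith [sq_nonneg η]
    nlinarith
  rcases (by omega : km = 0 ∨ 1 ≤ km) with rfl | h'
  · have h4 := rp_lip h2 c y' (ym + m)
    have h5 : |ym + m - y'| ≤ η * (η * m) + |em| := by
      rw [show ym + m - y' = d * m - em by push_cast at e1; linarith]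
      refine (abs_sub _ _).trans (add_le_add_left ?_ _)
      rw [abs_mul, abs_of_pos m0]
      nlinarith
    have h6 : |ym + m - y'| / η ≤ η * m + |em| / η := by
      rw [div_le_iff₀ h2, add_mul, div_mul_cancel₀ _ h2.ne']
      linarith
    linarith
  · have h4 : (1 : ℝ) ≤ km * kM := by exact_mod_cast one_le_mul_of_one_le_of_one_le h' k3
    linarith [rp_le c η y']

theorem far {η t : ℝ} (k : ℤ) (h0 : 0 ≤ η) (h1 : η ≤ |t|) (h2 : |t| ≤ 1 - η) :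
    η ^ 2 ≤ (k - t) ^ 2 := by
  rw [← sq_abs (k - t)]
  refine pow_le_pow_left₀ h0 ?_ 2
  rcases eq_or_ne k 0 with rfl | h
  · simpa using h1
  · have h3 : (1 : ℝ) ≤ |(k : ℝ)| := by exact_mod_cast Int.one_le_abs h
    linarith [abs_sub_abs_le_abs_sub (k : ℝ) t]

section two

variable {ω η y y' y'' ϑ ϑ' d e e' X : ℝ} {k k' : ℤ} (h1 : ω ≤ 1 / 16) (h2 : 0 < η)
  (h3 : η ≤ ω / 8) (hy : |y| ≤ 1 / 2 + ω + ω / 8) (hy' : |y'| ≤ 1 / 2 + ω + ω / 8)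
  (hy'' : |y''| ≤ 1 / 2 + ω + ω / 8) (h5 : |ϑ| ≤ 1 / 2) (h6 : |ϑ' - ϑ| ≤ 1 / 2) (hd : |d| ≤ η ^ 2)
  (e1 : y - y' = (1 - d) * (k - ϑ) - e) (e2 : y'' - y' = (1 - d) * (k' - ϑ') - e')
  (he : |e| ≤ η) (he' : |e'| ≤ η)

include h1 h2 h3 hy hy'' h6 hd e1 e2 he he'

theorem closeE : k ≤ k' + 1 ∧ k' ≤ k + 1 ∧ 0 ≤ k * k' :=
  close (η := ω / 8) h1 (h2.trans_le h3) le_rfl hy hy'' h6
    (hd.trans (pow_le_pow_left₀ h2.le h3 2)) e1 e2 (he.trans h3) (he'.trans h3)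

include h5

theorem rampsE : R1 ω η (za η ϑ ϑ' ϑ) (za η ϑ ϑ' ϑ') y' - R2 ω η (za η ϑ ϑ' ϑ) (za η ϑ ϑ' ϑ') y -
    R3 ω η (za η ϑ ϑ' ϑ) (za η ϑ ϑ' ϑ') y'' - mu ω η (za η ϑ ϑ' ϑ) (za η ϑ ϑ' ϑ') -
    2 * Vt ω η ϑ ϑ' y - 2 * Vt ω η ϑ ϑ' y'' -
    (η + 5 * (η / ω)) * |ϑ| - (|e| + |e'|) / η ≤ k * k' - ϑ * ϑ' := by
  obtain ⟨k1, k2, k3⟩ := closeE h1 h2 h3 hy hy'' h6 hd e1 e2 he he'
  have h0 : 0 < ω := by linarith
  have p0 : (0 : ℝ) ≤ k * k' := by exact_mod_cast k3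
  have p1 : 0 ≤ |e| / η := by positivity
  have p2 : 0 ≤ |e'| / η := by positivity
  have p3 : 0 ≤ η / ω := by positivity
  have p4 : |ϑ'| ≤ 1 := by linarith [abs_sub_abs_le_abs_sub ϑ' ϑ]
  have p5 := Vt_nonneg ω η ϑ ϑ' y
  have p6 := Vt_nonneg ω η ϑ ϑ' y''
  rw [add_div]
  by_cases hact : η ≤ max |ϑ| |ϑ'|
  swap
  · simp only [za, hact, if_false, R1, R2, R3, mu, mul_zero, lt_irrefl, false_and]
    have b1 : |ϑ'| ≤ η := (le_max_right _ _).trans (not_le.1 hact).le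
    have b2 : ϑ * ϑ' ≤ |ϑ| * η := (le_abs_self _).trans ((abs_mul _ _).trans_le
      (mul_le_mul_of_nonneg_left b1 (abs_nonneg _)))
    have b3 : 0 ≤ η / ω * |ϑ| := by positivity
    linarith
  simp only [za, hact, if_true]
  by_cases h : 0 < ϑ * ϑ'
  swap
  · simp only [R1, R2, R3, mu, h, false_and, if_false]
    have : 0 ≤ (η + 5 * (η / ω)) * |ϑ| := by positivity
    linarith [not_lt.1 h]
  have a1 : 0 < |ϑ| := abs_pos.2 (left_ne_zero_of_mul h.ne')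
  have a2 : 0 < |ϑ'| := abs_pos.2 (right_ne_zero_of_mul h.ne')
  have a3 : ϑ * ϑ' = |ϑ| * |ϑ'| := by rw [← abs_mul, abs_of_pos h]
  obtain ⟨s, s1, s2, s3, s4⟩ : ∃ s : ℤ, sg ϑ = s ∧ s * ϑ = |ϑ| ∧ s * ϑ' = |ϑ'| ∧
      (s = 1 ∨ s = -1) := by
    rcases pos_and_pos_or_neg_and_neg_of_mul_pos h with ⟨b1, b2⟩ | ⟨b1, b2⟩
    · exact ⟨1, by simp [sg_pos b1], by simp [abs_of_pos b1], by simp [abs_of_pos b2], Or.inl rfl⟩
    · exact ⟨-1, by simp [sg_neg b1], by simp [abs_of_neg b1], by simp [abs_of_neg b2], Or.inr rfl⟩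
  have s5 : ∀ t : ℝ, |s * t| = |t| := fun t => by rcases s4 with rfl | rfl <;> simp
  have s6 : ((s * k : ℤ) : ℝ) * (s * k' : ℤ) = k * k' := by rcases s4 with rfl | rfl <;> simp
  have s7 : 0 ≤ s * k * (s * k') := by rcases s4 with rfl | rfl <;> simpa using k3
  have f1 : s * y - s * y' = (1 - d) * ((s * k : ℤ) - |ϑ|) - s * e := by
    rw [← s2]; push_cast; linear_combination s * e1
  have f2 : s * y'' - s * y' = (1 - d) * ((s * k' : ℤ) - |ϑ'|) - s * e' := by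
    rw [← s3]; push_cast; linear_combination s * e2
  have v1 : ∀ t, Vt ω η ϑ ϑ' t = rp (-(1 / 2 + ω + η)) η (s * t) := fun t => by
    rw [Vt, if_pos hact, s1]
  rw [a3]
  rcases le_or_gt |ϑ| |ϑ'| with hm | hm
  · have := rampE (c := cc ω η ϑ ϑ') h2 (by linarith) (by rw [cc, max_eq_right hm]) a1 a2 p4
      hd ((s5 e').trans_le he') f1 f2 (by rcases s4 with rfl | rfl <;> omega) s7
    simp only [R1, R2, R3, mu, h, hm, hm.not_gt, true_and, if_true, if_false, s1, min_eq_left hm,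
      max_eq_right hm, mul_div_assoc]
    rw [s5, s6, ← v1] at this
    linarith
  · have := rampE (c := cc ω η ϑ ϑ') h2 (by linarith) (by rw [cc, max_eq_left hm.le]) a2 a1
      (by linarith) hd ((s5 e).trans_le he) f2 f1
      (by rcases s4 with rfl | rfl <;> omega) (mul_comm (s * k) _ ▸ s7)
    simp only [R1, R2, R3, mu, h, hm, hm.not_ge, true_and, if_true, if_false, s1,
      min_eq_right hm.le, max_eq_left hm.le, mul_div_assoc]
    rw [s5, mul_comm ((s * k' : ℤ) : ℝ), s6, ← v1] at this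
    have : (η + 5 * (η / ω)) * |ϑ'| ≤ (η + 5 * (η / ω)) * |ϑ| :=
      mul_le_mul_of_nonneg_left hm.le (by positivity)
    linarith

omit hy he he' in
include hy' in
theorem mainE (q1 : X - (η + 5 * (η / ω)) * |ϑ| - (|e| + |e'|) / η ≤ k * k' - ϑ * ϑ')
    (he' : |e'| ≤ η) : X - ϑ * (y'' - y') -
    ϑ' * (y - y') + 14 * η / ω * (sg ϑ * (y - y')) - 84 * η / ω * (k - ϑ) ^ 2 -
    3 / η * (|e| + |e'|) - |k - ϑ| * |e'| ≤ (k - ϑ) * (y'' - y') := by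
  have h0 : 0 < ω := by linarith
  have p4 : |ϑ'| ≤ 1 := by linarith [abs_sub_abs_le_abs_sub ϑ' ϑ]
  have q2 := abs_k (k := k) h5
  have q3 : |k' - ϑ'| ≤ 2 := by
    have := abs_f (by linarith) h2 hd e2
    linarith [abs_sub y'' y']
  have q4 : |k - ϑ| ≤ 4 * (k - ϑ) ^ 2 + |ϑ| := by linarith [abs_sub (k : ℝ) ϑ]
  obtain ⟨f, hf⟩ : ∃ f, f = k - ϑ := ⟨_, rfl⟩
  obtain ⟨f', hf'⟩ : ∃ f', f' = k' - ϑ' := ⟨_, rfl⟩
  obtain ⟨D, hD⟩ : ∃ D, D = y - y' := ⟨_, rfl⟩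
  obtain ⟨D', hD'⟩ : ∃ D', D' = y'' - y' := ⟨_, rfl⟩
  rw [← hf, ← hD] at e1
  rw [← hf', ← hD'] at e2
  rw [← hf] at q2 q4
  rw [← hf'] at q3
  rw [← hf, ← hD, ← hD', mul_div_assoc, mul_div_assoc, div_mul_eq_mul_div 3, mul_div_assoc]
  have r1 : 16 * η ≤ η / ω := by
    rw [le_div_iff₀ h0]
    nlinarith
  have r2 : η / ω ≤ 1 / 8 := by
    rw [div_le_iff₀ h0]
    linarith
  have r3 : 128 * (|e| + |e'|) ≤ (|e| + |e'|) / η := by
    rw [le_div_iff₀ h2]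
    nlinarith [abs_nonneg e, abs_nonneg e']
  generalize η / ω = r at *
  generalize (|e| + |e'|) / η = E at *
  have η2 : η ^ 2 ≤ η / 128 := by nlinarith
  have ab : ∀ {a b A B : ℝ}, |a| ≤ A → |b| ≤ B → a * b ≤ A * B := fun ha hb =>
    (le_abs_self _).trans ((abs_mul _ _).trans_le
      (mul_le_mul ha hb (abs_nonneg _) ((abs_nonneg _).trans ha)))
  have df : |d * f| ≤ η ^ 2 * |f| := by
    rw [abs_mul]
    exact mul_le_mul_of_nonneg_right hd (abs_nonneg _)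
  have df' : |d * f'| ≤ η ^ 2 * 2 := by
    rw [abs_mul]
    exact mul_le_mul hd q3 (abs_nonneg _) (sq_nonneg _)
  have t1 := ab (le_refl |ϑ|) df'
  have t2 := ab h5 (le_refl |e'|)
  have t3 := ab p4 df
  have t4 := ab p4 (le_refl |e|)
  have t5 := ab df q3
  have t6 := ab (le_refl |f|) (le_refl |e'|)
  have t7 : η ^ 2 * |f| ≤ η ^ 2 * (4 * f ^ 2 + |ϑ|) := mul_le_mul_of_nonneg_left q4 (sq_nonneg _)
  have t8 : η ^ 2 * f ^ 2 ≤ η / 128 * f ^ 2 := mul_le_mul_of_nonneg_right η2 (sq_nonneg _)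
  have t9 : η ^ 2 * |ϑ| ≤ η / 128 * |ϑ| := mul_le_mul_of_nonneg_right η2 (abs_nonneg _)
  have t10 : 16 * η * f ^ 2 ≤ r * f ^ 2 := mul_le_mul_of_nonneg_right r1 (sq_nonneg _)
  have t11 : 16 * η * |ϑ| ≤ r * |ϑ| := mul_le_mul_of_nonneg_right r1 (abs_nonneg _)
  have t12 : η * f ^ 2 ≤ 1 / 128 * f ^ 2 := mul_le_mul_of_nonneg_right (by linarith) (sq_nonneg _)
  have t13 : η * |ϑ| ≤ 1 / 128 * |ϑ| := mul_le_mul_of_nonneg_right (by linarith) (abs_nonneg _)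
  have u1 : |ϑ| ≤ 2 * (5 * f ^ 2 - sg ϑ * D + |e|) := by
    have v1 := sg_mul_self ϑ
    have v2 := sg_mul_le ϑ k
    have v3 := sg_mul_le ϑ (-(d * f))
    have v4 := sg_mul_le ϑ (-e)
    rw [abs_neg] at v3 v4
    have v5 : sg ϑ * ϑ = sg ϑ * k - sg ϑ * D + sg ϑ * -(d * f) + sg ϑ * -e := by
      linear_combination sg ϑ * hf + sg ϑ * e1
    linarith [sq_nonneg f, abs_nonneg ϑ]
  have u2 : r * |ϑ| ≤ r * (2 * (5 * f ^ 2 - sg ϑ * D + |e|)) :=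
    mul_le_mul_of_nonneg_left u1 (by linarith)
  have u3 : r * |e| ≤ 1 / 8 * |e| := mul_le_mul_of_nonneg_right r2 (abs_nonneg _)
  have u4 : f * D' = k * k' - ϑ * ϑ' - ϑ * D' - ϑ' * D - ϑ * (d * f') - ϑ * e' - ϑ' * (d * f) -
      ϑ' * e - d * f * f' - f * e' := by
    rw [e1, e2, hf, hf']
    ring
  have u5 : 0 ≤ η * |ϑ| := by positivity
  have u6 : 0 ≤ η * f ^ 2 := by positivity
  linarith [abs_nonneg e, abs_nonneg e']

end two

end CoreL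

open CoreL

theorem coreE_proof : CoreEStmt := by
  intro ω η y y' y'' ϑ ϑ' d e e' k k' h0 h1 h2 h3 hy hy' hy'' h5 h6 hd e1 e2
  have hQ : 0 ≤ 20 * (e ^ 2 + e' ^ 2) / η ^ 2 := by positivity
  by_cases he : |e| ≤ η ∧ |e'| ≤ η
  · have := mainE h1 h2 h3 hy' hy'' h5 h6 hd e1 e2
      (rampsE h1 h2 h3 hy hy'' h5 h6 hd e1 e2 he.1 he.2) he.2
    refine ⟨by linarith, ?_⟩
    rintro rfl rfl
    have k3 : (0 : ℝ) ≤ k * k' := by
      exact_mod_cast (closeE h1 h2 h3 hy hy'' h6 hd e1 e2 he.1 he.2).2.2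
    have k4 : 0 ≤ (1 - d) * (k * k') := mul_nonneg (by nlinarith [abs_le.1 hd]) k3
    have k5 := le_abs_self (k * e')
    rw [abs_mul] at k5
    rw [e2]
    linarith
  have hD : |y - y'| ≤ 23 / 20 := by linarith [abs_sub y y']
  have hD' : |y'' - y'| ≤ 23 / 20 := by linarith [abs_sub y'' y']
  have hc := crude (D' := y'' - y') (by linarith) h2 hd e1 (by linarith) (by linarith) he
  refine ⟨?_, ?_⟩
  · have p4 : |ϑ'| ≤ 1 := by linarith [abs_sub_abs_le_abs_sub ϑ' ϑ]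
    have p5 : |za η ϑ ϑ' ϑ| ≤ 1 / 2 := by
      unfold za
      split_ifs
      exacts [h5, by simp]
    have p6 := Vt_nonneg ω η ϑ ϑ' y
    have p7 := Vt_nonneg ω η ϑ ϑ' y''
    generalize za η ϑ ϑ' ϑ = z at *
    generalize za η ϑ ϑ' ϑ' = z' at *
    have r0 : 0 ≤ η / ω := by positivity
    have r2 : η / ω ≤ 1 / 8 := by
      rw [div_le_iff₀ h0]
      linarith
    have a1 : R1 ω η z z' y' ≤ 1 := by
      unfold R1
      split_ifs
      exacts [rp_le _ _ _, zero_le_one]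
    have a2 : 0 ≤ R2 ω η z z' y := by
      unfold R2
      split_ifs
      exacts [rp_nonneg _ _ _, le_rfl]
    have a3 : 0 ≤ R3 ω η z z' y'' := by
      unfold R3
      split_ifs
      exacts [rp_nonneg _ _ _, le_rfl]
    have a4 : -(1 / 2) ≤ mu ω η z z' := by
      unfold mu
      split_ifs
      · have b1 : 0 ≤ min |z| |z'| := le_min (abs_nonneg _) (abs_nonneg _)
        have b2 : min |z| |z'| ≤ 1 / 2 := (min_le_left _ _).trans p5
        have b3 : 0 ≤ max |z| |z'| := (abs_nonneg _).trans (le_max_left _ _)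
        rw [mul_div_assoc]
        nlinarith
      · norm_num
    have a5 : |ϑ * (y'' - y')| ≤ 1 / 2 * (23 / 20) :=
      (abs_mul _ _).trans_le (mul_le_mul h5 hD' (abs_nonneg _) (by norm_num))
    have a6 : |ϑ' * (y - y')| ≤ 1 * (23 / 20) :=
      (abs_mul _ _).trans_le (mul_le_mul p4 hD (abs_nonneg _) (by norm_num))
    have a7 : 14 * η / ω * (sg ϑ * (y - y')) ≤ 14 * (1 / 8 * (23 / 20)) := by
      rw [mul_div_assoc]
      nlinarith [sg_mul_le ϑ (y - y')]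
    have a8 : 0 ≤ 84 * η / ω * (k - ϑ) ^ 2 := by positivity
    have a9 : 0 ≤ 3 / η * (|e| + |e'|) := by positivity
    have a10 : 0 ≤ |k - ϑ| * |e'| := by positivity
    linarith [abs_le.1 a5, abs_le.1 a6]
  · rintro rfl rfl
    have a10 : 0 ≤ |(k : ℝ)| * |e'| := by positivity
    rw [sub_zero] at hc
    linarith

theorem sumE_proof (hC : CoreEStmt) : SumEStmt := by
  intro ι _ _ ω η E p u u' u'' ϑ ϑ' d e e' k k' I W m h0 h1 h2 h3 hp hW hu hϑ hW0 hI0 hD hT hm hV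
  set z : ι → ℝ := fun j => za η (ϑ j) (ϑ' j) (ϑ j) with hz
  set z' : ι → ℝ := fun j => za η (ϑ j) (ϑ' j) (ϑ' j) with hz'
  set G : ι → ℝ := fun j => R1 ω η (z j) (z' j) (u' j) - R2 ω η (z j) (z' j) (u j) -
    R3 ω η (z j) (z' j) (u'' j) - mu ω η (z j) (z' j) - ϑ j * (u'' j - u' j) -
    ϑ' j * (u j - u' j) + 14 * η / ω * (sg (ϑ j) * (u j - u' j)) -
    2 * Vt ω η (ϑ j) (ϑ' j) (u j) - 2 * Vt ω η (ϑ j) (ϑ' j) (u'' j) with hG
  have c0 : 0 ≤ 84 * η / ω := by positivity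
  have key : ∀ j, G j - 84 * η / ω * (k j - ϑ j) ^ 2 -
      (if j ∈ W then 3 / η * (|e j| + |e' j|) else 0) -
      (if j ∈ I then |k j - ϑ j| * |e' j| + 20 * (e j ^ 2 + e' j ^ 2) / η ^ 2 else 0) ≤
      (k j - ϑ j) * (u'' j - u' j) := by
    intro j
    have g0 : j ∉ W → G j = 0 := fun h => by
      simp [hG, hz, hz', (hW0 j h).1, (hW0 j h).2, R1, R2, R3, mu, sg, za, Vt, h2.not_ge]
    have c1 := mul_nonneg c0 (sq_nonneg ((k j : ℝ) - ϑ j))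
    by_cases hI : j ∈ I
    · have c := hC ω η (u j) (u' j) (u'' j) (ϑ j) (ϑ' j) (d j) (e j) (e' j) (k j) (k' j) h0 h1 h2
        h3 (hu j).1 (hu j).2.1 (hu j).2.2 (hϑ j).1 (hϑ j).2.1 (hϑ j).2.2 (hD j hI).1 (hD j hI).2
      by_cases hj : j ∈ W
      · rw [if_pos hj, if_pos hI]
        have := c.1
        simp only [hG, hz, hz']
        linarith
      · rw [if_neg hj, if_pos hI, g0 hj]
        have := c.2 (hW0 j hj).1 (hW0 j hj).2
        simp only [(hW0 j hj).1, sub_zero] at c1 ⊢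
        linarith
    · have hj : j ∉ W := fun h => hI (hW h)
      rw [if_neg hj, if_neg hI, g0 hj, (hW0 j hj).1, hI0 j hI]
      simp
  have s1 := sum_le_sum fun j (_ : j ∈ univ) => key j
  rw [sum_sub_distrib, sum_sub_distrib, sum_sub_distrib, sum_ite_mem, sum_ite_mem, univ_inter,
    univ_inter, ← mul_sum, ← mul_sum, sum_add_distrib (s := W), sum_add_distrib (s := I),
    ← sum_div, ← mul_sum, sum_add_distrib (s := I)] at s1
  have s2 : ∑ j, G j = T7 ω η ϑ ϑ' u' 0 - T7 ω η ϑ ϑ' u 1 - T7 ω η ϑ ϑ' u'' 2 -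
      ∑ j, mu ω η (za η (ϑ j) (ϑ' j) (ϑ j)) (za η (ϑ j) (ϑ' j) (ϑ' j)) -
      (T7 ω η ϑ ϑ' u'' 3 - T7 ω η ϑ ϑ' u' 3) - (T7 ω η ϑ ϑ' u 4 - T7 ω η ϑ ϑ' u' 4) +
      14 * η / ω * (T7 ω η ϑ ϑ' u 5 - T7 ω η ϑ ϑ' u' 5) - 2 * T7 ω η ϑ ϑ' u 6 -
      2 * T7 ω η ϑ ϑ' u'' 6 := by
    simp only [T7, ← sum_sub_distrib, mul_sum, ← sum_add_distrib]
    refine sum_congr rfl fun j _ => ?_
    simp only [hG, hz, hz', tg, Matrix.cons_val]
    ring
  have a0 := abs_le.1 (hT 0).2.1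
  have a1 := abs_le.1 (hT 1).1
  have a2 := abs_le.1 (hT 2).2.2
  have a3 := abs_le.1 (hT 3).2.2
  have a3' := abs_le.1 (hT 3).2.1
  have a4 := abs_le.1 (hT 4).1
  have a4' := abs_le.1 (hT 4).2.1
  have a5 := abs_le.1 (hT 5).1
  have a5' := abs_le.1 (hT 5).2.1
  have a6 := abs_le.1 (hT 6).1
  have a6' := abs_le.1 (hT 6).2.2
  have hE : 0 ≤ E := (abs_nonneg _).trans (hT 0).1
  have c1 : 0 ≤ 14 * η / ω := by positivity
  have c2 : 14 * η / ω ≤ 2 := by rw [div_le_iff₀ h0]; linarith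
  have s3 : -(2 * (2 * E)) ≤ 14 * η / ω * (T7 ω η ϑ ϑ' u 5 - T7 ω η ϑ ϑ' u' 5) := by
    have b1 := mul_le_mul_of_nonneg_left
      (show -(2 * E) ≤ T7 ω η ϑ ϑ' u 5 - T7 ω η ϑ ϑ' u' 5 by linarith) c1
    have b2 := mul_le_mul_of_nonneg_right c2 (show 0 ≤ 2 * E by linarith)
    linarith
  have s4 : 3 / η * (∑ j ∈ W, |e j| + ∑ j ∈ W, |e' j|) ≤ 3 / η * Real.sqrt W.card *
      (Real.sqrt (∑ j ∈ W, e j ^ 2) + Real.sqrt (∑ j ∈ W, e' j ^ 2)) := by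
    rw [mul_assoc, mul_add (Real.sqrt _)]
    exact mul_le_mul_of_nonneg_left (add_le_add (cs1 W e) (cs1 W e')) (by positivity)
  have s5 : ∑ j ∈ I, |k j - ϑ j| * |e' j| ≤
      Real.sqrt (∑ j, (k j - ϑ j) ^ 2) * Real.sqrt (∑ j ∈ I, e' j ^ 2) :=
    (cs I (fun j => k j - ϑ j) e').trans (mul_le_mul_of_nonneg_right (Real.sqrt_le_sqrt
      (sum_le_sum_of_subset_of_nonneg (subset_univ I) fun _ _ _ => sq_nonneg _))
      (Real.sqrt_nonneg _))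
  have s6 : ((univ.filter fun j => η ≤ max |ϑ j| |ϑ' j|).card : ℝ) * η ^ 2 ≤
      ∑ j, (k j - ϑ j) ^ 2 + ∑ j, (k' j - ϑ' j) ^ 2 := by
    rw [← sum_add_distrib, ← nsmul_eq_mul, ← sum_const]
    refine (sum_le_sum fun j hj => ?_).trans (sum_le_sum_of_subset_of_nonneg (filter_subset _ _)
      fun _ _ _ => by positivity)
    have b1 := (hϑ j).1
    rcases le_or_gt η |ϑ j| with h | h
    · linarith [far (k j) h2.le h (by linarith), sq_nonneg (k' j - ϑ' j)]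
    · have b2 := (le_max_iff.1 (mem_filter.1 hj).2).resolve_left h.not_ge
      linarith [far (k' j) h2.le b2 (by
        linarith [abs_sub_abs_le_abs_sub (ϑ' j) (ϑ j), (hϑ j).2.1]), sq_nonneg (k j - ϑ j)]
  have s7 : 4 * m 6 ≤ 4 * p / η ^ 2 * (∑ j, (k j - ϑ j) ^ 2 + ∑ j, (k' j - ϑ' j) ^ 2) := by
    refine le_trans ?_ (mul_le_mul_of_nonneg_left s6 (by positivity))
    rw [mul_comm _ (η ^ 2), ← mul_assoc, div_mul_cancel₀ _ (by positivity)]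
    linarith
  linarith

end Vale.Agent.P318.E
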