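import Vale.Agent.P318.E.Stmt
import Vale.Agent.P318.C.Dec

/-!
Track E, geometry: decoding of the drift with the loss `F ^ 2` only.
-/

namespace Vale.Agent.P318.E

open Finset
open M (ip nsq Dual lin)
open B (nd cd Red Kt tc res Pat pS pJ pD pw zone)
open C

namespace DecP

variable {ι B : Type} [Fintype ι] [DecidableEq ι] [Fintype B] [DecidableEq B] {M : B → ℕ}
  {blk : B → Finset ι} {s : (J : B) → ι → Fin (M J) → ℤ}
  {Γ : (J : B) → AddSubgroup (Fin (M J) → ℝ)} {J0 : B} {wt : B → ℝ} {F Lm Cn φ Υ : ℝ} {g : ℕ}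

theorem core2 (hL : LevStmt) (hP : P318.B.PatStmt) (hG : CSys blk s Γ J0 wt F Lm Cn φ)
    (hC : C1n blk s Γ J0 wt g Υ) (Δ : Kt M → ℝ) (hΔ : ∀ y, |Δ y| ≤ 1 / 2)
    {η : ℝ} (hη0 : 0 < η) {N : ℕ} (hN : 1 ≤ N) (hη1 : N * η ^ 2 ≤ 1) (hg0 : (320 : ℝ) ≤ g)
    (hgrid : Cn / g ≤ η / 80) (SS JJ : Finset B) (hsub : JJ ⊆ SS) (hJ0 : J0 ∉ JJ)
    (hw : ∑ J ∈ SS, wt J ≤ Υ * (zn blk JJ N).card)
    (hJJ : ∀ J ∈ JJ, ∀ γ ∈ Γ J, η ^ 2 ≤ nsq (res Δ J - γ))
    (h0 : nsq (res Δ J0) ≤ N * η ^ 2) (x : ι → ℤ) :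
    9 * (N * η ^ 2) * (zn blk JJ N).card / 256000 ≤ 2 * ∑ i, ((x i : ℝ) - lin (tc s) Δ i) ^ 2 +
      2 * ∑ i ∈ zn blk JJ N, (∑ J ∈ SSᶜ, ip (s J i) (res Δ J)) ^ 2 := by
  obtain ⟨-, hp2, -⟩ := hP B M g
  have hCn := hG.one_le_Cn
  have hN1 : (1 : ℝ) ≤ N := by exact_mod_cast hN
  have hg1 : 1 ≤ g := by
    have : (1 : ℝ) ≤ g := by linarith
    exact_mod_cast this
  obtain ⟨π, hπS, hπJ, hπ1, hπ2⟩ :=
    hp2 Δ SS JJ hg1 (fun y => (hΔ y).trans (by norm_num)) hsub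
  have hnear : ∀ J ∈ SS, nsq (res (pD π) J - res Δ J) ≤ Cn * (1 / g) ^ 2 := by
    intro J hJ
    have := sum_le_card_nsmul univ (fun k => (res (pD π) J - res Δ J) k ^ 2) ((1 / g : ℝ) ^ 2)
      (fun k _ => by
        have := hπ1 ⟨J, k⟩ hJ
        exact sq_le_sq' (abs_le.mp this).1 (abs_le.mp this).2)
    rw [card_univ, Fintype.card_fin, nsmul_eq_mul] at this
    exact this.trans (mul_le_mul_of_nonneg_right (hG.dim_le J) (sq_nonneg _))
  have hfar : ∀ J ∈ pJ π, ∀ γ ∈ Γ J, (η / 2) ^ 2 ≤ nsq (res (pD π) J - γ) := by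
    intro J hJ γ hγ
    rw [hπJ] at hJ
    exact P318.B.Gamma.far_num hCn (by linarith) hgrid (hJJ J hJ γ hγ)
      (P318.B.Gamma.nsq_le' (res Δ J) (res (pD π) J) γ) (hnear J (hsub hJ))
  have hNη : η ^ 2 ≤ N * η ^ 2 := le_mul_of_one_le_left (sq_nonneg _) hN1
  have htop : nsq (res (pD π) J0) ≤ 16 * (N * (η / 2) ^ 2) := by
    by_cases hS : J0 ∈ SS
    · have h1 := P318.B.Gamma.nsq_le (res (pD π) J0) (res Δ J0)
      have h2 := hnear J0 hS
      have h3 : nsq (res Δ J0 - res (pD π) J0) = nsq (res (pD π) J0 - res Δ J0) :=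
        sum_congr rfl fun k _ => by simp only [Pi.sub_apply]; ring
      have h4 : Cn * (1 / g) ^ 2 ≤ (Cn / g) ^ 2 := by
        have : (Cn / g) ^ 2 = Cn ^ 2 * (1 / g) ^ 2 := by ring
        rw [this]
        exact mul_le_mul_of_nonneg_right (by nlinarith) (sq_nonneg _)
      have h5 : (Cn / g) ^ 2 ≤ (η / 80) ^ 2 := pow_le_pow_left₀ (by positivity) hgrid 2
      nlinarith [sq_nonneg η]
    · have : nsq (res (pD π) J0) = 0 := sum_eq_zero fun k _ => by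
        have := hπ2 ⟨J0, k⟩ hS
        simp [res, this]
      rw [this]
      positivity
  have hc1 := hC π (η / 2) N (by positivity) hN (by nlinarith) (by rwa [hπJ])
    (by rw [hπS, hπJ]; exact hw) hfar htop
  rw [hπJ] at hc1
  have s1 : 1 ≤ Real.sqrt N := Real.one_le_sqrt.2 hN1
  have s2 : (Real.sqrt N * η) ^ 2 = N * η ^ 2 := by rw [mul_pow, Real.sq_sqrt (by linarith)]
  have hgrid' : Cn / g ≤ Real.sqrt N * η / 80 := hgrid.trans (by nlinarith)
  have h1 := card_nsmul_le_sum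
    ((zn blk JJ N).filter fun i => Real.sqrt N * (η / 2) / 10 ≤ nd (pw s π i)) _ _
    fun i hi => P318.B.Gamma.pt_num (η := Real.sqrt N * η) (by positivity)
      ((le_of_eq (by ring)).trans ((mem_filter.mp hi).2.trans (round_le _ (x i))))
      ((Dec.dec hL hG Δ SS π hπ1 hπ2 i).trans hgrid')
  rw [nsmul_eq_mul, sum_add_distrib, ← mul_sum, ← mul_sum, s2] at h1
  have h2 := sum_le_univ_sum_of_nonneg
    (s := (zn blk JJ N).filter fun i => Real.sqrt N * (η / 2) / 10 ≤ nd (pw s π i))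
    fun i => sq_nonneg ((x i : ℝ) - lin (tc s) Δ i)
  have h3 := sum_le_sum_of_subset_of_nonneg
    (filter_subset (fun i => Real.sqrt N * (η / 2) / 10 ≤ nd (pw s π i)) (zn blk JJ N))
    fun i _ _ => sq_nonneg (∑ J ∈ SSᶜ, ip (s J i) (res Δ J))
  have h7 := mul_le_mul_of_nonneg_right hc1 (by positivity : 0 ≤ 9 * (N * η ^ 2) / 6400)
  linarith

omit [DecidableEq ι] in
/-- Dyadic choice of the multiplicity. -/
theorem dyad (μ : ι → ℕ) {p : ℕ} (hp : 1 ≤ p) (hμ : ∀ j, μ j ≤ 2 ^ p) :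
    ∃ N : ℕ, 1 ≤ N ∧ ∑ j, (μ j : ℝ) ≤ 4 * p * (N * (univ.filter fun j => N ≤ μ j).card) := by
  obtain ⟨i, -, hi⟩ := exists_max_image (range (p + 1))
    (fun i => ((2 ^ i : ℕ) : ℝ) * (univ.filter fun j => 2 ^ i ≤ μ j).card) ⟨0, by simp⟩
  refine ⟨2 ^ i, Nat.one_le_two_pow, ?_⟩
  have h1 : ∀ j, (μ j : ℝ) ≤
      ∑ k ∈ range (p + 1), if 2 ^ k ≤ μ j then 2 * ((2 ^ k : ℕ) : ℝ) else 0 := by
    intro j
    have h0 : ∀ k ∈ range (p + 1),
        0 ≤ if 2 ^ k ≤ μ j then 2 * ((2 ^ k : ℕ) : ℝ) else 0 := fun k _ => by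
      split_ifs <;> positivity
    rcases Nat.eq_zero_or_pos (μ j) with h | h
    · rw [h]
      simp
    · have h2 : Nat.log 2 (μ j) ∈ range (p + 1) := by
        rw [mem_range, Nat.lt_succ_iff]
        have := Nat.log_mono_right (b := 2) (hμ j)
        rwa [Nat.log_pow (by norm_num)] at this
      refine le_trans ?_ (single_le_sum h0 h2)
      rw [if_pos (Nat.pow_log_le_self 2 h.ne')]
      have h3 := (Nat.lt_pow_succ_log_self (b := 2) (by norm_num) (μ j)).le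
      rw [pow_succ'] at h3
      exact_mod_cast h3
  refine (sum_le_sum fun j _ => h1 j).trans ?_
  rw [sum_comm]
  have h2 : ∀ k ∈ range (p + 1), (∑ j, if 2 ^ k ≤ μ j then 2 * ((2 ^ k : ℕ) : ℝ) else 0) ≤
      2 * (((2 ^ i : ℕ) : ℝ) * (univ.filter fun j => 2 ^ i ≤ μ j).card) := by
    intro k hk
    rw [← sum_filter, sum_const, nsmul_eq_mul]
    linarith [hi k hk]
  refine (sum_le_card_nsmul _ _ _ h2).trans ?_
  rw [card_range, nsmul_eq_mul]
  have h3 : (1 : ℝ) ≤ p := by exact_mod_cast hp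
  have h4 : 0 ≤ ((2 ^ i : ℕ) : ℝ) * (univ.filter fun j => 2 ^ i ≤ μ j).card := by positivity
  push_cast at h4 ⊢
  nlinarith

omit [Fintype B] [DecidableEq B] in
theorem sum_card (blk : B → Finset ι) (S : Finset B) :
    ∑ J ∈ S, ((blk J).card : ℝ) = ∑ j, ((S.filter fun J => j ∈ blk J).card : ℝ) := by
  simp only [card_filter, Nat.cast_sum]
  rw [sum_comm]
  refine sum_congr rfl fun J _ => ?_
  simp

/-- The top block. -/
theorem top (hL : LevStmt) (hP : P318.B.PatStmt) {k0 : ℕ}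
    (hG : CSys blk s Γ J0 wt F Lm Cn φ) (hC : C1c blk s Γ J0 wt g Υ)
    (hk : F * cd ι ≤ 2 ^ k0) (hU : F ≤ Υ) (hg : 320 * Cn ^ 2 * 2 ^ k0 ≤ g)
    (τ : Kt M → ℝ) (hτ : ∀ J, Red (Γ J) (res τ J)) (x : ι → ℤ) :
    min (1 / 4) (nsq (res τ J0)) * cd ι ≤
      57000 * (∑ j, ((x j : ℝ) - lin (tc s) τ j) ^ 2 + 1) := by
  have hF := hG.one_le_F
  have hCn := hG.one_le_Cn
  have ha0 : 0 ≤ ∑ j, ((x j : ℝ) - lin (tc s) τ j) ^ 2 := sum_nonneg fun _ _ => sq_nonneg _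
  have hn0 : 0 ≤ cd ι := Nat.cast_nonneg _
  set e := min (1 / 4) (nsq (res τ J0)) with he
  by_cases hlow : 1 / (16 * Cn ^ 2 * 2 ^ k0) ≤ e
  · obtain ⟨hg0, hgrid⟩ := P318.B.Gamma.grid_le hCn hg hlow
    have ht0 : 0 < e := lt_of_lt_of_le (by positivity) hlow
    have hη2 : Real.sqrt e ^ 2 = e := Real.sq_sqrt ht0.le
    have hη1 : Real.sqrt e ≤ 1 / 2 :=
      Real.sqrt_le_iff.mpr ⟨by norm_num, (min_le_left _ _).trans (by norm_num)⟩
    have hZ : zone blk {J0} = univ := by simp [zone, hG.top]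
    have hc := Dec.core hL hP hG hC τ (fun y => (hτ y.1).1 y.2) (Real.sqrt_pos.mpr ht0) hη1 hg0
      hgrid univ {J0} (subset_univ _)
      (by
        rw [hZ]
        exact (hG.wt_sum univ).trans (mul_le_mul hU (by exact_mod_cast card_le_univ _)
          (Nat.cast_nonneg _) (by linarith)))
      (fun J hJ γ hγ => by
        obtain rfl := mem_singleton.1 hJ
        rw [hη2]
        exact (hτ J).2 γ hγ) (Or.inl (mem_singleton_self _)) x
    simp only [hZ, compl_univ, sum_empty, hη2, ne_eq, OfNat.ofNat_ne_zero, not_false_eq_true,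
      zero_pow, sum_const_zero, card_univ] at hc
    unfold cd
    linarith
  · have h1 : cd ι ≤ 2 ^ k0 := le_trans (by nlinarith) hk
    have h2 : e * cd ι ≤ 1 / (16 * Cn ^ 2 * 2 ^ k0) * 2 ^ k0 :=
      mul_le_mul (not_le.1 hlow).le h1 hn0 (by positivity)
    have h3 : 1 / (16 * Cn ^ 2 * 2 ^ k0) * 2 ^ k0 = 1 / (16 * Cn ^ 2) := by field_simp
    have h4 : 1 / (16 * Cn ^ 2) ≤ 1 := by
      rw [div_le_one (by positivity)]
      nlinarith
    linarith

theorem min_lt {c a t : ℝ} (h : min c a < t) (ht : t ≤ c) : min c a = a := by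
  rcases min_cases c a with h1 | h1
  · exfalso
    linarith [h1.1]
  · exact h1.1

/-- The normalized energies of the blocks. -/
noncomputable def ee (J0 : B) (F : ℝ) (τ : Kt M → ℝ) (J : B) : ℝ :=
  if J = J0 then min (1 / 4) (nsq (res τ J)) / F else min (1 / (4 * F)) (nsq (res τ J))

/-- The light blocks. -/
theorem light (hL : LevStmt) {K LG εR : ℝ} (hG : CSys blk s Γ J0 wt F Lm Cn φ)
    (hR : RipS blk s K LG εR) (hK : 1 ≤ K) (hLG : 1 ≤ LG) (hε : 0 ≤ εR) (τ : Kt M → ℝ) {θ : ℝ}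
    (hθ0 : 0 < θ) (hθ1 : θ ≤ 1 / (4 * F)) (T : Finset ι) :
    ∑ j ∈ T, (∑ J ∈ (univ.filter fun J => θ ≤ ee J0 F τ J)ᶜ, ip (s J j) (res τ J)) ^ 2 ≤
      2 * (F * K * (1 / Lm + εR) * ∑ J, wt J * ee J0 F τ J) +
        4 * (F ^ 2 * K * LG * θ * T.card) := by
  obtain ⟨-, -, -, -, -, -, h7, -⟩ := hL ι B M blk s Γ J0 wt F Lm Cn φ hG
  have hF := hG.one_le_F
  have hLm := hG.one_le_Lm
  have hw0 : ∀ J, 0 ≤ wt J := fun J => (Nat.cast_nonneg _).trans (hG.wt_ge J)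
  have he0 : ∀ J, 0 ≤ ee J0 F τ J := fun J => by
    have := P318.B.Gamma.nsq_nonneg (res τ J)
    unfold ee
    split_ifs <;> positivity
  set L := (univ.filter fun J => θ ≤ ee J0 F τ J)ᶜ with hLdef
  have hsm : ∀ J ∈ L, ee J0 F τ J < θ := fun J hJ => by simpa [hLdef] using hJ
  have he1 : ∀ J ∈ L.erase J0, ee J0 F τ J = nsq (res τ J) := fun J hJ => by
    have h1 := hsm J (mem_of_mem_erase hJ)
    unfold ee at h1 ⊢
    rw [if_neg (ne_of_mem_erase hJ)] at h1 ⊢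
    exact min_lt h1 hθ1
  have h1 := h7 τ (L.erase J0) T K LG εR θ (by linarith) (by linarith) hε hθ0.le hR
    (fun J hJ => by
      rw [← he1 J hJ]
      exact (hsm J (mem_of_mem_erase hJ)).le)
  have h2 : ∑ J ∈ L.erase J0, wt J * nsq (res τ J) ≤ ∑ J ∈ univ.erase J0, wt J * ee J0 F τ J := by
    refine le_trans (le_of_eq (sum_congr rfl fun J hJ => by rw [he1 J hJ]))
      (sum_le_sum_of_subset_of_nonneg (erase_subset_erase _ (subset_univ _))
        fun J _ _ => mul_nonneg (hw0 J) (he0 J))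
  have hc0 : 0 ≤ F * K * (1 / Lm + εR) := by positivity
  have h3 := mul_le_mul_of_nonneg_left h2 hc0
  have hq : 0 ≤ F ^ 2 * K * LG * θ * T.card := by positivity
  have h4 := mul_nonneg hc0 (mul_nonneg (hw0 J0) (he0 J0))
  have h5 := mul_nonneg hc0 (sum_nonneg fun J (_ : J ∈ univ.erase J0) =>
    mul_nonneg (hw0 J) (he0 J))
  rw [← add_sum_erase univ (fun J => wt J * ee J0 F τ J) (mem_univ J0), mul_add]
  by_cases h0 : J0 ∈ L
  · have k1 := hsm J0 h0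
    have k2 : ee J0 F τ J0 = min (1 / 4) (nsq (res τ J0)) / F := if_pos rfl
    rw [k2, div_lt_iff₀ (by linarith)] at k1
    have k3 : θ * F ≤ 1 / 4 := by
      rw [le_div_iff₀ (by linarith)] at hθ1
      linarith
    have k4 := min_lt k1 k3
    rw [k4] at k1 k2
    have k5 := hR J0 T (by rw [hG.top]; exact subset_univ _) (res τ J0)
    have k6 : (M J0 : ℝ) ≤ 1 / Lm * wt J0 := by
      rw [one_div_mul_eq_div, le_div_iff₀ (by linarith)]
      linarith [hG.wt_dim J0]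
    have k7 := mul_le_mul_of_nonneg_left (hG.wt_ge J0) hε
    have n0 := P318.B.Gamma.nsq_nonneg (res τ J0)
    have k8 : K * (M J0 + LG * T.card + εR * (blk J0).card) * nsq (res τ J0) ≤
        F * K * (1 / Lm + εR) * (wt J0 * ee J0 F τ J0) + F ^ 2 * K * LG * θ * T.card := by
      have a1 : F * K * (1 / Lm + εR) * (wt J0 * ee J0 F τ J0) =
          K * (1 / Lm * wt J0 + εR * wt J0) * nsq (res τ J0) := by
        rw [k2]
        field_simp
      have a2 : nsq (res τ J0) ≤ F ^ 2 * θ := by nlinarith [mul_pos hθ0 (by linarith : 0 < F)]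
      have a3 := mul_le_mul_of_nonneg_left a2 (by positivity : 0 ≤ K * LG * T.card)
      have a4 : K * (M J0 + εR * (blk J0).card) * nsq (res τ J0) ≤
          K * (1 / Lm * wt J0 + εR * wt J0) * nsq (res τ J0) :=
        mul_le_mul_of_nonneg_right (mul_le_mul_of_nonneg_left (by linarith) (by linarith)) n0
      rw [a1]
      linarith
    have k9 : ∑ j ∈ T, (∑ J ∈ L, ip (s J j) (res τ J)) ^ 2 ≤
        2 * ∑ j ∈ T, ip (s J0 j) (res τ J0) ^ 2 +
          2 * ∑ j ∈ T, (∑ J ∈ L.erase J0, ip (s J j) (res τ J)) ^ 2 := by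
      rw [mul_sum, mul_sum, ← sum_add_distrib]
      refine sum_le_sum fun j _ => ?_
      rw [← add_sum_erase L (fun J => ip (s J j) (res τ J)) h0]
      nlinarith [sq_nonneg (ip (s J0 j) (res τ J0) - ∑ J ∈ L.erase J0, ip (s J j) (res τ J))]
    linarith
  · rw [erase_eq_of_notMem h0] at h1 h3
    linarith

theorem fin {u Z a Φ p δ1 q : ℝ} (huZ : 0 ≤ u * Z) (hp : 1 ≤ p) (hδ : δ1 ≤ 1 / 4)
    (h1 : Φ ≤ 8 * p * (u * Z)) (h2 : 9 * u * Z / 256000 ≤ 2 * a + 2 * q)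
    (h3 : q ≤ 12 * δ1 / (10 ^ 7 * p) * Φ + 4 * (u * Z / 10 ^ 6)) (hΦ : 0 ≤ Φ) :
    u * Z ≤ 90000 * a := by
  have h4 : 12 * δ1 / (10 ^ 7 * p) ≤ 3 / (10 ^ 7 * p) :=
    div_le_div_of_nonneg_right (by linarith) (by positivity)
  have h5 := mul_le_mul h4 h1 hΦ (by positivity)
  have h6 : 3 / (10 ^ 7 * p) * (8 * p * (u * Z)) = 24 / 10 ^ 7 * (u * Z) := by
    field_simp
    ring
  linarith

theorem split {p : ℕ} (hG : CSys blk s Γ J0 wt F Lm Cn φ)
    (hwt : ∀ J, J ≠ J0 → wt J ≤ (blk J).card) (hp : 1 ≤ p) (hFp : F ≤ 2 ^ p) (e : B → ℝ)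
    {t e0 : ℝ} (ht0 : 0 ≤ t) (he0 : 0 ≤ e0) (he00 : e J0 = e0 / F) :
    ∃ N : ℕ, 1 ≤ N ∧ ((zn blk ((univ.filter fun J => t ≤ e J).erase J0) N).Nonempty → N ≤ F) ∧
      t * ∑ J ∈ univ.filter (fun J => t ≤ e J), wt J ≤
        4 * p * (N * t * (zn blk ((univ.filter fun J => t ≤ e J).erase J0) N).card) +
          e0 * cd ι := by
  have hF := hG.one_le_F
  have hw0 : ∀ J, 0 ≤ wt J := fun J => (Nat.cast_nonneg _).trans (hG.wt_ge J)
  have hn0 : 0 ≤ cd ι := Nat.cast_nonneg _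
  have hall : wt J0 ≤ F * cd ι := by
    have := hG.wt_sum {J0}
    rw [sum_singleton] at this
    refine this.trans (mul_le_mul_of_nonneg_left ?_ (by linarith))
    unfold cd
    exact_mod_cast card_le_univ _
  set S := (univ.filter fun J => t ≤ e J).erase J0 with hS
  have hμ : ∀ j, ((S.filter fun J => j ∈ blk J).card : ℝ) ≤ F := fun j =>
    le_trans (by exact_mod_cast card_le_card (filter_subset_filter _ (subset_univ S)))
      (hG.deg j)
  obtain ⟨N, hN, hNs⟩ := dyad (fun j => (S.filter fun J => j ∈ blk J).card) hp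
    fun j => by exact_mod_cast (hμ j).trans hFp
  rw [← sum_card] at hNs
  change _ ≤ 4 * p * (N * ((zn blk S N).card : ℝ)) at hNs
  refine ⟨N, hN, fun ⟨j0, hj0⟩ => le_trans (by exact_mod_cast (mem_filter.1 hj0).2) (hμ j0), ?_⟩
  have h1 : ∑ J ∈ S, wt J ≤ 4 * p * (N * ((zn blk S N).card : ℝ)) :=
    (sum_le_sum fun J hJ => hwt J (ne_of_mem_erase hJ)).trans hNs
  have h2 := mul_le_mul_of_nonneg_left h1 ht0
  by_cases h : J0 ∈ univ.filter fun J => t ≤ e J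
  · have h3 : t * wt J0 ≤ e0 / F * (F * cd ι) := by
      rw [← he00]
      exact mul_le_mul (mem_filter.1 h).2 hall (hw0 _) (by rw [he00]; positivity)
    have h4 : e0 / F * (F * cd ι) = e0 * cd ι := by field_simp
    rw [← add_sum_erase _ _ h, mul_add]
    linarith
  · have h3 : S = univ.filter fun J => t ≤ e J := erase_eq_of_notMem h
    rw [← h3]
    have := mul_nonneg he0 hn0
    linarith

theorem phi (hL : LevStmt) (hP : P318.B.PatStmt) {Q δ1 t Φ a : ℝ} {k0 p : ℕ}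
    (hG : CSys blk s Γ J0 wt F Lm Cn φ) (hwt : ∀ J, J ≠ J0 → wt J ≤ (blk J).card)
    (hC' : C1n blk s Γ J0 wt g Υ) (hδ1 : δ1 ≤ 1 / 4) (hp : 1 ≤ p) (hFp : F ≤ 2 ^ p)
    (hFK : F ≤ Q) (hU' : 10 ^ 7 * (p * Q) ≤ Υ) (hg : 320 * Cn ^ 2 * 2 ^ k0 ≤ g)
    (τ : Kt M → ℝ) (hτ : ∀ J, Red (Γ J) (res τ J)) (x : ι → ℤ)
    (ha : a = ∑ j, ((x j : ℝ) - lin (tc s) τ j) ^ 2) (e : B → ℝ)
    (he00 : e J0 = min (1 / 4) (nsq (res τ J0)) / F)
    (he01 : ∀ J, J ≠ J0 → e J = min (1 / (4 * F)) (nsq (res τ J))) (ht4 : t ≤ 1 / (4 * F))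
    (hΦ : Φ = t * ∑ J ∈ univ.filter (fun J => t ≤ e J), wt J)
    (hJ1 : ∀ θ, 0 ≤ θ → θ * ∑ J ∈ univ.filter (fun J => θ ≤ e J), wt J ≤ Φ)
    (htop : min (1 / 4) (nsq (res τ J0)) * cd ι ≤ 57000 * (a + 1))
    (light : ∀ θ : ℝ, 0 < θ → θ ≤ 1 / (4 * F) → ∀ T : Finset ι,
      ∑ j ∈ T, (∑ J ∈ (univ.filter fun J => θ ≤ e J)ᶜ, ip (s J j) (res τ J)) ^ 2 ≤
        12 * δ1 / (10 ^ 7 * p) * Φ + 4 * (Q * θ * T.card))
    (hlow : 1 / (16 * Cn ^ 2 * 2 ^ k0) ≤ t) : Φ ≤ 500000 * p * (a + 1) := by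
  have hF := hG.one_le_F
  have hCn := hG.one_le_Cn
  have hp1 : (1 : ℝ) ≤ p := by exact_mod_cast hp
  have ha0 : 0 ≤ a := ha ▸ sum_nonneg fun _ _ => sq_nonneg _
  have hpa : a + 1 ≤ p * (a + 1) := le_mul_of_one_le_left (by linarith) hp1
  have hQ0 : 0 < Q := by linarith
  have hpQ : 0 < p * Q := by positivity
  have hΦ0 : 0 ≤ Φ := by simpa using hJ1 0 le_rfl
  obtain ⟨hg0, hgrid⟩ := P318.B.Gamma.grid_le hCn hg hlow
  have ht0 : 0 < t := lt_of_lt_of_le (by positivity) hlow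
  have hη2 : Real.sqrt t ^ 2 = t := Real.sq_sqrt ht0.le
  obtain ⟨N, hN, hNF, hΦZ⟩ := split hG hwt hp hFp e ht0.le
    (le_min (by norm_num) (P318.B.Gamma.nsq_nonneg _)) he00
  rw [← hΦ] at hΦZ
  set S := (univ.filter fun J => t ≤ e J).erase J0 with hS
  have hZ0 : (0 : ℝ) ≤ (zn blk S N).card := Nat.cast_nonneg _
  have hZn : ((zn blk S N).card : ℝ) ≤ cd ι := by
    unfold cd
    exact_mod_cast card_le_univ _
  have hN1 : (1 : ℝ) ≤ N := by exact_mod_cast hN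
  rcases (zn blk S N).eq_empty_or_nonempty with hZe | hZe
  · rw [hZe, card_empty] at hΦZ
    simp only [Nat.cast_zero, mul_zero, zero_add] at hΦZ
    linarith
  replace hNF := hNF hZe
  obtain ⟨u, hu⟩ : ∃ u, u = N * t := ⟨_, rfl⟩
  rw [← hu] at hΦZ
  have hu0 : 0 < u := by rw [hu]; positivity
  have hu4 : u ≤ 1 / 4 := by
    have h1 := mul_le_mul hNF ht4 ht0.le (by linarith)
    have h2 : F * (1 / (4 * F)) = 1 / 4 := by field_simp
    linarith
  have huZ : 0 ≤ u * (zn blk S N).card := by positivity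
  suffices h : Φ ≤ 114000 * (a + 1) ∨ u * (zn blk S N).card ≤ 90000 * (a + 1) by
    rcases h with h | h
    · linarith
    · have := mul_le_mul_of_nonneg_left h (by linarith : 0 ≤ 4 * (p : ℝ))
      linarith
  by_cases hb : Φ ≤ 114000 * (a + 1)
  · exact Or.inl hb
  right
  have hΦ8 : Φ ≤ 8 * p * (u * (zn blk S N).card) := by linarith [not_le.1 hb]
  by_cases ht : u ≤ nsq (res τ J0)
  · have := mul_le_mul (le_min hu4 ht) hZn hZ0 (hu0.le.trans (le_min hu4 ht))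
    linarith
  obtain ⟨θ, hθ⟩ : ∃ θ, θ = u / (10 ^ 6 * Q) := ⟨_, rfl⟩
  have hθ0 : 0 < θ := by rw [hθ]; positivity
  have hθt : θ ≤ t := by
    rw [hθ, div_le_iff₀ (by positivity), hu, mul_comm]
    exact mul_le_mul_of_nonneg_left (by linarith) ht0.le
  have hw : ∑ J ∈ univ.filter (fun J => θ ≤ e J), wt J ≤ Υ * (zn blk S N).card := by
    have h1 := (hJ1 θ hθ0.le).trans hΦ8
    have h2 : 8 * p * (u * (zn blk S N).card) =
        θ * (8 * 10 ^ 6 * (p * Q) * (zn blk S N).card) := by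
      rw [hθ]; field_simp
    exact (le_of_mul_le_mul_left (h1.trans h2.le) hθ0).trans
      (mul_le_mul_of_nonneg_right (by linarith) hZ0)
  have hc := core2 hL hP hG hC' τ (fun y => (hτ y.1).1 y.2) (Real.sqrt_pos.mpr ht0) hN
    (by rw [hη2, ← hu]; linarith) hg0 hgrid (univ.filter fun J => θ ≤ e J) S
    (fun J hJ => by
      have := mem_of_mem_erase hJ
      simp only [mem_filter, mem_univ, true_and] at this ⊢
      exact hθt.trans this) (notMem_erase _ _) hw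
    (fun J hJ γ hγ => by
      rw [hη2]
      refine (mem_filter.1 (mem_of_mem_erase hJ)).2.trans (le_trans ?_ ((hτ J).2 γ hγ))
      rw [he01 J (ne_of_mem_erase hJ)]
      exact min_le_min (one_div_le_one_div_of_le (by norm_num) (by linarith)) le_rfl)
    (by rw [hη2, ← hu]; exact (not_le.1 ht).le) x
  rw [hη2, ← hu, ← ha] at hc
  have hl := light θ hθ0 (hθt.trans ht4) (zn blk S N)
  have h3 : Q * θ * (zn blk S N).card = u * (zn blk S N).card / 10 ^ 6 := by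
    rw [hθ]; field_simp
  rw [h3] at hl
  linarith [fin huZ hp1 hδ1 hΦ8 hc hl hΦ0]

theorem num3 {c k Φ δ p E : ℝ} (hp : 0 < p) (hΦ : 0 ≤ Φ) (hc : 0 ≤ c) (hE : E ≤ 6 * k * Φ)
    (h : 10 ^ 7 * k * p * c ≤ δ) : 2 * (c * E) ≤ 12 * δ / (10 ^ 7 * p) * Φ := by
  have h1 : 12 * (k * c) ≤ 12 * δ / (10 ^ 7 * p) := by
    rw [le_div_iff₀ (by positivity)]
    linarith
  have h2 := mul_le_mul_of_nonneg_right h1 hΦ
  have h4 := mul_le_mul_of_nonneg_left hE hc
  linarith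

/-- The reduced case. -/
theorem red (hL : LevStmt) (hP : P318.B.PatStmt) {K LG εR δ1 : ℝ} {k0 p : ℕ}
    (hG : CSys blk s Γ J0 wt F Lm Cn φ) (hwt : ∀ J, J ≠ J0 → wt J ≤ (blk J).card)
    (hR : RipS blk s K LG εR) (hC : C1c blk s Γ J0 wt g Υ) (hC' : C1n blk s Γ J0 wt g Υ)
    (hK : 1 ≤ K) (hLG : 1 ≤ LG) (hε : 0 ≤ εR) (hδ0 : 0 < δ1) (hδ1 : δ1 ≤ 1 / 4) (hk0 : 1 ≤ k0)
    (hk : F * cd ι ≤ 2 ^ k0) (hp : 1 ≤ p) (hFp : F ≤ 2 ^ p)
    (hU : 10 ^ 7 * p * F ^ 2 * K * LG ≤ Υ) (hg : 320 * Cn ^ 2 * 2 ^ k0 ≤ g)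
    (hδ : 10 ^ 7 * k0 * p * F * K * (1 / Lm + εR) ≤ δ1)
    (τ : Kt M → ℝ) (hτ : ∀ J, Red (Γ J) (res τ J)) (x : ι → ℤ) :
    ∃ H : Finset B, ∑ J ∈ H, wt J ≤ 10 ^ 7 * p * F ^ 2 * K * LG / δ1 *
        (∑ j, ((x j : ℝ) - lin (tc s) τ j) ^ 2 + 1) ∧
      ∀ T : Finset ι, ∑ j ∈ T, (∑ J ∈ Hᶜ, ip (s J j) (res τ J)) ^ 2 ≤
        δ1 * (∑ j, ((x j : ℝ) - lin (tc s) τ j) ^ 2 + 1) + δ1 * T.card := by
  have hF := hG.one_le_F
  have hLm := hG.one_le_Lm
  have hCn := hG.one_le_Cn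
  have hp1 : (1 : ℝ) ≤ p := by exact_mod_cast hp
  have hKL : 1 ≤ K * LG := one_le_mul_of_one_le_of_one_le hK hLG
  have hFK : F ≤ F ^ 2 * K * LG := by
    rw [mul_assoc]
    nlinarith [mul_le_mul_of_nonneg_left hKL (sq_nonneg F)]
  have hQ0 : 0 < F ^ 2 * K * LG := by linarith
  have hU' : 10 ^ 7 * (p * (F ^ 2 * K * LG)) ≤ Υ := le_trans (le_of_eq (by ring)) hU
  have hpQ : F ^ 2 * K * LG ≤ p * (F ^ 2 * K * LG) := le_mul_of_one_le_left hQ0.le hp1
  have htop := top hL hP hG hC hk (by linarith) hg τ hτ x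
  obtain ⟨a, ha⟩ : ∃ a, a = ∑ j, ((x j : ℝ) - lin (tc s) τ j) ^ 2 := ⟨_, rfl⟩
  rw [← ha] at htop ⊢
  have ha0 : 0 ≤ a := ha ▸ sum_nonneg fun _ _ => sq_nonneg _
  have hlight := fun θ h0 h1 T => light (θ := θ) hL hG hR hK hLG hε τ h0 h1 T
  have he00 : ee J0 F τ J0 = min (1 / 4) (nsq (res τ J0)) / F := if_pos rfl
  have he01 : ∀ J, J ≠ J0 → ee J0 F τ J = min (1 / (4 * F)) (nsq (res τ J)) :=
    fun J h => if_neg h
  generalize ee J0 F τ = e at hlight he00 he01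
  have he0 : ∀ J, 0 ≤ e J := fun J => by
    have := P318.B.Gamma.nsq_nonneg (res τ J)
    by_cases h : J = J0
    · subst h
      rw [he00]
      positivity
    · rw [he01 J h]
      positivity
  have he4 : ∀ J, e J ≤ 1 / (4 * F) := fun J => by
    by_cases h : J = J0
    · rw [h, he00, ← div_div]
      exact div_le_div_of_nonneg_right (min_le_left _ _) (by linarith)
    · rw [he01 J h]
      exact min_le_left _ _
  have hw1 : ∀ J, 1 ≤ wt J := fun J => le_trans (by exact_mod_cast (hG.ne J).card_pos) (hG.wt_ge J)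
  have hw0 : ∀ J, 0 ≤ wt J := fun J => zero_le_one.trans (hw1 J)
  have hsum : ∑ J, wt J ≤ 2 ^ k0 := by
    refine le_trans ?_ hk
    refine (hG.wt_sum univ).trans (mul_le_mul_of_nonneg_left ?_ (by linarith))
    unfold cd
    exact_mod_cast card_le_univ _
  obtain ⟨J1, hJ1⟩ := Dec.peak wt e hw0 he0 J0
  obtain ⟨Φ, hΦ⟩ : ∃ Φ, Φ = e J1 * ∑ J ∈ univ.filter (fun J => e J1 ≤ e J), wt J := ⟨_, rfl⟩
  rw [← hΦ] at hJ1
  have hΦ0 : 0 ≤ Φ := by simpa using hJ1 0 le_rfl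
  have hk1 : (1 : ℝ) ≤ k0 := by exact_mod_cast hk0
  have hE : ∑ J, wt J * e J ≤ 6 * k0 * Φ := by
    obtain ⟨Jm, -, hm⟩ := exists_max_image univ e ⟨J0, mem_univ _⟩
    obtain ⟨k, -, hb⟩ := P318.B.Gamma.best wt e Jm k0 hw1 he0 (fun J => hm J (mem_univ _)) hsum
    have h1 := hJ1 (e Jm / 2 ^ k) (div_nonneg (he0 _) (by positivity))
    have h2 : 2 * ((k0 : ℝ) + 2) * Φ ≤ 6 * k0 * Φ := mul_le_mul_of_nonneg_right (by linarith) hΦ0
    exact hb.trans ((mul_le_mul_of_nonneg_left h1 (by positivity)).trans h2)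
  have hc0 : 0 ≤ F * K * (1 / Lm + εR) := by positivity
  have light : ∀ θ : ℝ, 0 < θ → θ ≤ 1 / (4 * F) → ∀ T : Finset ι,
      ∑ j ∈ T, (∑ J ∈ (univ.filter fun J => θ ≤ e J)ᶜ, ip (s J j) (res τ J)) ^ 2 ≤
        12 * δ1 / (10 ^ 7 * p) * Φ + 4 * (F ^ 2 * K * LG * θ * T.card) := fun θ hθ0 hθ1 T =>
    (hlight θ hθ0 hθ1 T).trans (add_le_add
      (num3 (by linarith) hΦ0 hc0 hE (le_trans (le_of_eq (by ring)) hδ)) le_rfl)
  clear hlight
  have hΦa : Φ ≤ 500000 * p * (a + 1) := by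
    by_cases hlow : 1 / (16 * Cn ^ 2 * 2 ^ k0) ≤ e J1
    · exact phi hL hP hG hwt hC' hδ1 hp hFp hFK hU' hg τ hτ x ha e he00 he01 (he4 J1) hΦ hJ1 htop
        light hlow
    · have hpa : a + 1 ≤ p * (a + 1) := le_mul_of_one_le_left (by linarith) hp1
      have h1 : Φ ≤ 1 / (16 * Cn ^ 2 * 2 ^ k0) * 2 ^ k0 := hΦ ▸
        mul_le_mul (not_le.1 hlow).le
          ((sum_le_univ_sum_of_nonneg hw0).trans hsum) (sum_nonneg fun J _ => hw0 J)
          (by positivity)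
      have h2 : 1 / (16 * Cn ^ 2 * 2 ^ k0) * 2 ^ k0 = 1 / (16 * Cn ^ 2) := by field_simp
      have h3 : 1 / (16 * Cn ^ 2) ≤ 1 := by
        rw [div_le_one (by positivity)]
        linarith [one_le_pow₀ (n := 2) hCn]
      linarith
  obtain ⟨t1, ht1⟩ : ∃ t1, t1 = δ1 / (4 * (F ^ 2 * K * LG)) := ⟨_, rfl⟩
  have ht0 : 0 < t1 := by rw [ht1]; positivity
  have ht4 : t1 ≤ 1 / (4 * F) := by
    rw [ht1]
    exact div_le_div₀ (by norm_num) (by linarith) (by linarith) (by linarith)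
  have hpa : 0 ≤ p * (a + 1) := by positivity
  refine ⟨univ.filter fun J => t1 ≤ e J, ?_, fun T => ?_⟩
  · have h1 := (hJ1 t1 ht0.le).trans hΦa
    have h3 : t1 * (10 ^ 7 * p * F ^ 2 * K * LG / δ1 * (a + 1)) = 2500000 * (p * (a + 1)) := by
      rw [ht1]; field_simp; norm_num
    refine le_of_mul_le_mul_left (h1.trans ?_) ht0
    rw [h3]
    linarith
  · refine (light t1 ht0 ht4 T).trans (add_le_add ?_ (le_of_eq ?_))
    · refine (mul_le_mul_of_nonneg_left hΦa (by positivity)).trans ?_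
      have h3 : 12 * δ1 / (10 ^ 7 * p) * (500000 * p * (a + 1)) = 3 / 5 * (δ1 * (a + 1)) := by
        field_simp; norm_num
      rw [h3]
      have := mul_nonneg hδ0.le (by linarith : 0 ≤ a + 1)
      linarith
    · rw [ht1]; field_simp

end DecP

theorem decE_proof (hL : LevStmt) (hPat : P318.B.PatStmt) : DecEStmt := by
  intro ι B _ _ _ _ M blk s Γ J0 wt F Lm Cn φ K LG εR Υ δ1 g k0 p hG hwt hR hC hC' hK hLG hε hδ0
    hδ1 hk0 hk hp hFp hU hg hδ x τ0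
  obtain ⟨hb1, -⟩ := hL ι B M blk s Γ J0 wt F Lm Cn φ hG
  have hF := hG.one_le_F
  have hCn := hG.one_le_Cn
  by_cases hA : ∃ γ0 ∈ Γ J0, nsq (res τ0 J0 - γ0) < 1 / 4
  · obtain ⟨γ0, hγ0, h4⟩ := hA
    obtain ⟨γ, hγ, hint⟩ := hG.glue γ0 hγ0
    choose n0 hn0 using hint
    have hex : ∀ J, ∃ γ' ∈ Γ J, Red (Γ J) (res (τ0 - γ) J - γ') ∧
        ∀ j, ∃ n : ℤ, ip (s J j) γ' = n := by
      intro J
      by_cases hJ : J = J0
      · subst hJ
        have e1 : res (τ0 - γ) J - 0 = res τ0 J - γ0 := by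
          rw [sub_zero, ← hγ]; rfl
        refine ⟨0, (Γ J).zero_mem, ?_, fun j => ⟨0, by simp [ip]⟩⟩
        rw [e1]
        refine ⟨fun k => ?_, fun γ' hγ' => ?_⟩
        · have h1 := P318.B.Gamma.sq_le_nsq (res τ0 J - γ0) k
          exact abs_le_of_sq_le_sq' (by nlinarith) (by norm_num) |> abs_le.2
        · by_cases h0 : γ' = 0
          · rw [h0, sub_zero]
            exact min_le_right _ _
          · have h1 := hG.min J γ' hγ' h0
            have h2 := P318.B.PatBasic.nsq_le_two (res τ0 J - γ0) γ'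
            exact (min_le_left _ _).trans (by linarith)
      · obtain ⟨γ', h1, h2⟩ := P318.B.PatBasic.red_ex (Γ J) (hG.int J) (hG.min J) (res (τ0 - γ) J)
        exact ⟨γ', h1, h2, fun j => hG.dual J hJ j γ' h1⟩
    choose γ' _ hr hn using hex
    choose n hn using hn
    set τ : Kt M → ℝ := fun y => (τ0 - γ) y - γ' y.1 y.2 with hτ
    set k : ι → ℤ := fun j => x j - n0 j - ∑ J, n J j with hkdef
    have heq : ∀ j, (x j : ℝ) - lin (tc s) τ0 j = k j - lin (tc s) τ j := by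
      intro j
      have h1 : lin (tc s) τ j = lin (tc s) (τ0 - γ) j - ∑ J, (n J j : ℝ) := by
        rw [hb1, hb1, ← sum_sub_distrib]
        refine sum_congr rfl fun J _ => ?_
        have h2 : res τ J = res (τ0 - γ) J - γ' J := rfl
        rw [h2, P318.B.PatBasic.ip_sub, hn]
      rw [h1, P318.B.Gamma.lin_sub, hn0, hkdef]
      push_cast
      ring
    obtain ⟨H, h1, h2⟩ :=
      DecP.red hL hPat hG hwt hR hC hC' hK hLG hε hδ0 hδ1 hk0 hk hp hFp hU hg hδ τ hr k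
    simp only [← heq] at h1 h2
    exact ⟨k, τ, H, heq, fun y => (hr y.1).1 y.2, h1, h2⟩
  · push Not at hA
    set τ : Kt M → ℝ := fun y => τ0 y - round (τ0 y) with hτ
    set k : ι → ℤ := fun j => x j - ∑ y, tc s j y * round (τ0 y) with hkdef
    have heq : ∀ j, (x j : ℝ) - lin (tc s) τ0 j = k j - lin (tc s) τ j := by
      intro j
      simp only [hkdef, hτ, lin, ip, mul_sub, sum_sub_distrib]
      push_cast
      ring
    have h2k0 : (1 : ℝ) ≤ 2 ^ k0 := one_le_pow₀ (by norm_num)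
    have hC2 : Cn ≤ Cn ^ 2 := by nlinarith
    have hg0 : 320 * Cn ≤ g := by nlinarith
    have hgrid : Cn / g ≤ 1 / 2 / 80 := by
      rw [div_le_iff₀ (by linarith)]
      linarith
    have hZ : zone blk {J0} = univ := by simp [zone, hG.top]
    have hp1 : (1 : ℝ) ≤ p := by exact_mod_cast hp
    have hKL : 1 ≤ p * F * K * LG := one_le_mul_of_one_le_of_one_le
      (one_le_mul_of_one_le_of_one_le (one_le_mul_of_one_le_of_one_le hp1 hF) hK) hLG
    have hFU : 10 ^ 7 * F ≤ 10 ^ 7 * p * F ^ 2 * K * LG := by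
      have := mul_le_mul_of_nonneg_left hKL (by linarith : 0 ≤ 10 ^ 7 * F)
      exact (le_of_eq (by ring)).trans (this.trans (le_of_eq (by ring)))
    have hwt : ∑ J, wt J ≤ F * (univ : Finset ι).card :=
      (hG.wt_sum univ).trans (mul_le_mul_of_nonneg_left
        (by exact_mod_cast card_le_univ _) (by linarith))
    have hn0 : (0 : ℝ) ≤ (univ : Finset ι).card := Nat.cast_nonneg _
    have hc := Dec.core hL hPat hG hC τ (fun y => abs_sub_round _) (η := 1 / 2) (by norm_num) le_rfl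
      (by linarith) hgrid univ {J0} (subset_univ _)
      (by
        rw [hZ]
        exact hwt.trans (mul_le_mul_of_nonneg_right (by linarith) hn0))
      (fun J hJ γ hγ => by
        obtain rfl := mem_singleton.1 hJ
        have h1 := hA ((fun k => (round (τ0 ⟨J, k⟩) : ℝ)) + γ) ((Γ J).add_mem (hG.int J _) hγ)
        have h2 : res τ J - γ = res τ0 J - ((fun k => (round (τ0 ⟨J, k⟩) : ℝ)) + γ) := by
          ext k
          simp only [res, hτ, Pi.sub_apply, Pi.add_apply]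
          ring
        rw [h2]
        linarith) (Or.inl (mem_singleton_self _)) k
    simp only [hZ, compl_univ, sum_empty, ← heq] at hc
    have ha0 : 0 ≤ ∑ j, ((x j : ℝ) - lin (tc s) τ0 j) ^ 2 := sum_nonneg fun _ _ => sq_nonneg _
    refine ⟨k, τ, univ, heq, fun y => abs_sub_round _, ?_, fun T => ?_⟩
    · have h1 : 512000 * F ≤ 10 ^ 7 * p * F ^ 2 * K * LG / δ1 := by
        rw [le_div_iff₀ hδ0]
        nlinarith
      refine hwt.trans (le_trans ?_ (mul_le_mul_of_nonneg_right h1 (by linarith)))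
      have h2 : ((univ : Finset ι).card : ℝ) ≤
          512000 * (∑ j, ((x j : ℝ) - lin (tc s) τ0 j) ^ 2 + 1) := by
        simp only [ne_eq, OfNat.ofNat_ne_zero, not_false_eq_true, zero_pow, sum_const_zero] at hc
        linarith
      nlinarith
    · simp only [compl_univ, sum_empty, ne_eq, OfNat.ofNat_ne_zero, not_false_eq_true, zero_pow,
        sum_const_zero]
      positivity

end Vale.Agent.P318.E
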