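import Vale.Agent.P318.E.Stmt
import Vale.Agent.P318.C.Det

/-!
Track E: a sample with all properties gives the system.
-/

namespace Vale.Agent.P318.E

open Finset
open M (ip nsq Dual Lat lin Ksh)
open B (cd Kt Bk bk sb tc res Op zone)
open C

namespace DetP

open C.Det hiding one_le_Lm dim wt_dim card_B sum_M card_sc sc_ne csys ripT

variable {n : ℕ} {l t C : ℝ} {A A' : Type} [Fintype A] [DecidableEq A] [Fintype A']
  [DecidableEq A'] {a0 : A} {m Mf cl : A → ℕ} {ph : A' → A} {sc : A' → ℕ} {Kn : ℕ} {c : ℕ → ℕ}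
  {ns : A → ℕ} {LGa : A → ℝ} {e : ℕ → ℝ} {nt : ℕ} {π : (a : A) → Fin n → Fin (m a)}

theorem one_le_Lm (hP : ParE n l t C a0 m Mf cl ph sc Kn c ns LGa e nt) :
    1 ≤ l ^ 3 * t ^ 14 :=
  one_le_mul_of_one_le_of_one_le (one_le_pow₀ (by linarith [hP.l_ge])) (one_le_pow₀ hP.t_ge)

theorem dim (hP : ParE n l t C a0 m Mf cl ph sc Kn c ns LGa e nt) (hπ : Parts a0 m π) (J : Bk m)
    (hJ : J.1 ≠ a0) : l ^ 3 * t ^ 14 * Mf J.1 ≤ (bk π J).card ∧
      (Mf J.1 : ℝ) * Real.sqrt n ≤ (bk π J).card * Real.sqrt (bk π J).card :=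
  dim_num (one_le_Lm hP) (Nat.cast_nonneg _) (by exact_mod_cast hP.pos J.1) (Nat.cast_nonneg _)
    (Nat.cast_nonneg _) (hP.dim _ hJ) (by simpa [cd_fin] using hπ.lo J)

theorem wt_dim (hP : ParE n l t C a0 m Mf cl ph sc Kn c ns LGa e nt) (hπ : Parts a0 m π) (J : Bk m) :
    l ^ 3 * t ^ 14 * Mf J.1 ≤ wtE a0 Mf π (l ^ 3 * t ^ 14) J := by
  unfold wtE
  split_ifs with h
  · rw [h]; exact le_max_right _ _
  · exact (dim hP hπ J h).1

theorem card_B (hP : ParE n l t C a0 m Mf cl ph sc Kn c ns LGa e nt) : cd (Bk m) ≤ n := by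
  have h1 : cd (Bk m) = ∑ a, (m a : ℝ) := by simp [cd]
  have hA := one_le_A a0
  have h2 : cd A * (2 * ∑ a, (m a : ℝ)) ≤ cd A * n := by
    have := sum_le_card_nsmul univ (fun a => 2 * cd A * m a) (n : ℝ) fun a _ => hP.mA a
    rw [← mul_sum, card_univ, nsmul_eq_mul] at this
    unfold cd at this ⊢
    linarith
  have h3 := le_of_mul_le_mul_left h2 (by linarith)
  have h4 : (0 : ℝ) ≤ n := Nat.cast_nonneg _
  linarith

theorem sum_M (hP : ParE n l t C a0 m Mf cl ph sc Kn c ns LGa e nt) :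
    ∑ a, (Mf a : ℝ) ≤ 2 * Mf a0 := by
  have h1 : ∑ a ∈ univ.erase a0, Mf a ≤ Mf a0 :=
    le_trans (sum_le_sum fun a _ => Nat.le_mul_of_pos_left _ (hP.pos a)) hP.sum_le
  rw [← add_sum_erase _ _ (mem_univ a0)]
  have h2 : ∑ a ∈ univ.erase a0, (Mf a : ℝ) ≤ Mf a0 := by exact_mod_cast h1
  linarith

theorem card_sc (hP : ParE n l t C a0 m Mf cl ph sc Kn c ns LGa e nt) {k : ℕ} (hk : k ∈ Icc 1 Kn) :
    ((univ.filter fun a' => sc a' = k).card : ℝ) = (univ.filter fun a => cl a = c k).card := by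
  simpa using hP.bij k hk fun _ => 1

theorem sc_ne (hP : ParE n l t C a0 m Mf cl ph sc Kn c ns LGa e nt) {k : ℕ} (hk : k ∈ Icc 1 Kn) :
    (univ.filter fun a' => sc a' = k).Nonempty := by
  rw [← card_pos]
  by_contra h
  have h1 := hP.cls k hk
  rw [← card_sc hP hk, show (univ.filter fun a' => sc a' = k).card = 0 by omega] at h1
  simp only [Nat.cast_zero, mul_zero] at h1
  linarith [hP.l_ge]

variable {Ω : A → Type} [∀ a, Fintype (Ω a)]
  {ρ : Fin n → ((a : A) → Ω a) → (a : A) → Fin (Mf a) → ℤ}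
  {Γ : (a : A) → AddSubgroup (Fin (Mf a) → ℝ)} {τ0 : ℝ}
  {Γt : AddSubgroup (Kt (fun J : Bk m => Mf J.1) → ℝ)}

theorem csys (hP : ParE n l t C a0 m Mf cl ph sc Kn c ns LGa e nt) (hπ : Parts a0 m π)
    (hL : Law a0 ρ Γ τ0) (hG : Glue a0 π ρ Γ Γt) (v0 : Fin (m a0)) (x : Fin n → (a : A) → Ω a)
    (hn : ∀ J : Bk m, J.1 ≠ a0 → ∀ j ∈ bk π J,
      (Mf J.1 : ℝ) / 4 ≤ ∑ k, (smp π ρ x J j k : ℝ) ^ 2) :
    CSys (M := fun J : Bk m => Mf J.1) (bk π) (smp π ρ x) (fun J => Γ J.1) ⟨a0, v0⟩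
      (wtE a0 Mf π (l ^ 3 * t ^ 14)) (2 * cd A) (l ^ 3 * t ^ 14) (cd (Fin n) ^ 2)
      (2 * cd A / (l ^ 3 * t ^ 14)) := by
  have hA := one_le_A a0
  have hn1 : (16 : ℝ) ≤ n := by exact_mod_cast hP.n_ge
  have hl := hP.l_ge
  have hLm := one_le_Lm hP
  have hM1 : ∀ a, (1 : ℝ) ≤ Mf a := fun a => le_trans (by nlinarith) (hP.M_ge a)
  have htop : ∀ J : Bk m, J.1 = a0 → bk π J = univ := fun J hJ => by
    rw [eq_top hP.top v0 J hJ]; exact bk_top π hP.top v0
  have hwt0 : max (n : ℝ) (l ^ 3 * t ^ 14 * Mf a0) ≤ cd A * n :=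
    max_le (by nlinarith) hP.dim0
  refine ⟨smp_out x, smp_ent hL x, fun i => ?_, fun i => ?_, fun J => ?_, bk_top π hP.top v0,
    fun J => by exact_mod_cast hM1 J.1, fun J => ?_, fun J => ?_, fun i => ?_, fun J => ?_,
    wt_dim hP hπ, fun S => ?_, hπ.cross, fun J => hL.int _, fun J => hL.min _,
    fun J hJ => smp_dual hL x J fun h => hJ (eq_top hP.top v0 J h), fun γ0 hγ0 => ?_, fun i => ?_,
    by linarith, hLm, by rw [cd_fin]; nlinarith⟩
  · rw [deg_eq]; linarith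
  · rw [Fintype.sum_sigma, ← sum_filter_of_ne (p := fun J => i ∈ bk π J) fun J _ h => by
      by_contra h'
      exact h (by simp [tc, smp_out x J i h'])]
    refine (sum_le_card_nsmul _ _ (n : ℝ) fun J _ => ?_).trans ?_
    · exact (sum_le_card_nsmul _ _ 1 fun k _ => smp_ent hL x J i k).trans
        (by simpa using hP.M_le _)
    · rw [nsmul_eq_mul, deg_eq, cd_fin, sq]
      exact mul_le_mul_of_nonneg_right hP.cardA_le (by linarith)
  · rw [← card_pos]
    by_contra h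
    have h1 := hπ.lo J
    rw [show (bk π J).card = 0 by omega, cd_fin] at h1
    simp only [Nat.cast_zero, mul_zero] at h1
    linarith
  · rw [cd_fin]
    nlinarith [hP.M_le J.1]
  · rw [cd_fin]
    by_cases h : J.1 = a0
    · rw [htop J h, card_univ, Fintype.card_fin]
      exact mul_le_mul_of_nonneg_right (hP.M_le _) (Real.sqrt_nonneg _)
    · exact (dim hP hπ J h).2
  · rw [sum_blk π i fun J => (Mf J.1 : ℝ) / (bk π J).card]
    have h1 : ∀ a, (Mf a : ℝ) / (bk π ⟨a, π a i⟩).card ≤ 1 / (l ^ 3 * t ^ 14) +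
        if a = a0 then cd A / (l ^ 3 * t ^ 14) else 0 := fun a => by
      split_ifs with h
      · rw [htop ⟨a, π a i⟩ h, card_univ, Fintype.card_fin, h]
        have h2 : (Mf a0 : ℝ) / n ≤ cd A / (l ^ 3 * t ^ 14) := by
          rw [div_le_div_iff₀ (by linarith) (by linarith)]
          linarith [hP.dim0]
        have h3 : 0 ≤ 1 / (l ^ 3 * t ^ 14) := by positivity
        linarith
      · have h2 := (dim hP hπ ⟨a, π a i⟩ h).1
        have h3 : (0 : ℝ) < (bk π ⟨a, π a i⟩).card := by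
          have := hM1 a
          exact lt_of_lt_of_le (by positivity) h2
        rw [add_zero, div_le_div_iff₀ h3 (by linarith)]
        linarith
    refine (sum_le_sum fun a _ => h1 a).trans (le_of_eq ?_)
    rw [sum_add_distrib, sum_ite_eq' univ a0, if_pos (mem_univ _), sum_const, card_univ,
      nsmul_eq_mul, cd]
    ring
  · unfold wtE
    split_ifs with h
    · rw [htop J h, card_univ, Fintype.card_fin]; exact le_max_left _ _
    · exact le_rfl
  · have h1 : ∀ J : Bk m, wtE a0 Mf π (l ^ 3 * t ^ 14) J ≤ (bk π J).card +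
        if J = ⟨a0, v0⟩ then cd A * n else 0 := fun J => by
      unfold wtE
      by_cases h : J.1 = a0
      · rw [if_pos h, if_pos (eq_top hP.top v0 J h)]
        have : (0 : ℝ) ≤ (bk π J).card := Nat.cast_nonneg _
        linarith
      · rw [if_neg h, if_neg fun h' => h (by rw [h']), add_zero]
    refine (sum_le_sum fun J _ => h1 J).trans ?_
    rw [sum_add_distrib, sum_ite_eq']
    have h2 := sum_card_le π S
    have h3 : 0 ≤ cd A * (zone (bk π) S).card := by positivity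
    split_ifs with h
    · have h4 : zone (bk π) S = univ :=
        eq_univ_of_forall fun i => mem_biUnion.2 ⟨_, h, by rw [htop _ rfl]; exact mem_univ _⟩
      rw [h4, card_univ, Fintype.card_fin] at h2 ⊢
      linarith
    · linarith
  · obtain ⟨γ, h1, h2⟩ := hG.2.2 v0 γ0 hγ0
    exact ⟨γ, h2, fun j => hG.2.1 x j γ h1⟩
  · obtain ⟨a', -⟩ := sc_ne hP (k := 1) (mem_Icc.2 ⟨le_rfl, hP.Kn_pos⟩)
    have h1 := hn ⟨ph a', π _ i⟩ (hP.ph_ne a') i ((mem_bk π _ i).2 rfl)
    by_contra h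
    push Not at h
    rw [sum_eq_zero fun k _ => ?_] at h1
    · linarith [hM1 (ph a')]
    · have h2 := h ⟨⟨ph a', π _ i⟩, k⟩
      rcases smp_t3 (π := π) hL x ⟨ph a', π _ i⟩ i k with h3 | h3 | h3
      · simp [h3]
      · exact absurd h3 h2.1
      · exact absurd h3 h2.2

theorem ripT (hP : ParE n l t C a0 m Mf cl ph sc Kn c ns LGa e nt) (x : Fin n → (a : A) → Ω a)
    {K : ℝ} (hK : 0 ≤ K)
    (h : RipS (M := fun J : Bk m => Mf J.1) (bk π) (smp π ρ x) K (5 * Real.log l) (1 / l ^ 5))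
    (T : Finset (Fin n)) (hT : T.card ≤ nt) (v : Fin n → ℝ) :
    ∑ y, (∑ j ∈ T, v j * (tc (M := fun J : Bk m => Mf J.1) (smp π ρ x) j y : ℝ)) ^ 2 ≤
      4 * K * Mf a0 * ∑ j ∈ T, v j ^ 2 := by
  have hLG : 0 ≤ 5 * Real.log l := by linarith [hP.LG_ge]
  have hl := hP.l_ge
  have h1 : ∀ J : Bk m, ∑ k, (∑ j ∈ T, v j * (smp π ρ x J j k : ℝ)) ^ 2 ≤
      K * (Mf J.1 + 5 * Real.log l * nt + 1 / l ^ 5 * n) * ∑ j ∈ T ∩ bk π J, v j ^ 2 := by
    intro J
    have h2 := (P318.B.Chunk.op_iff _ _ _ (by positivity)).1 (h J (T ∩ bk π J) inter_subset_right) v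
    have h3 : ∀ k, ∑ j ∈ T, v j * (smp π ρ x J j k : ℝ) =
        ∑ j ∈ T ∩ bk π J, v j * (smp π ρ x J j k : ℝ) := fun k =>
      (sum_subset inter_subset_left fun j hj hj' => by
        rw [smp_out x J j fun h => hj' (mem_inter.2 ⟨hj, h⟩)]; simp).symm
    simp only [h3]
    refine h2.trans (mul_le_mul_of_nonneg_right (mul_le_mul_of_nonneg_left ?_ hK)
      (sum_nonneg fun _ _ => sq_nonneg _))
    have h4 : ((T ∩ bk π J).card : ℝ) ≤ nt := by
      exact_mod_cast (card_le_card inter_subset_left).trans hT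
    have h5 : ((bk π J).card : ℝ) ≤ n := by
      exact_mod_cast (card_le_univ _).trans (Fintype.card_fin n).le
    gcongr
  rw [Fintype.sum_sigma]
  refine (sum_le_sum fun J _ => h1 J).trans ?_
  rw [swap π T (fun a => K * (Mf a + 5 * Real.log l * nt + 1 / l ^ 5 * n)) fun j => v j ^ 2]
  refine mul_le_mul_of_nonneg_right ?_ (sum_nonneg fun _ _ => sq_nonneg _)
  rw [← mul_sum, sum_add_distrib, sum_add_distrib, sum_const, sum_const, card_univ, nsmul_eq_mul,
    nsmul_eq_mul]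
  have h2 := sum_M hP
  have h3 := hP.nt_le
  have h4 := hP.eps_le
  unfold cd at h3 h4
  have h5 : ∑ a, (Mf a : ℝ) + Fintype.card A * (5 * Real.log l * nt) +
      Fintype.card A * (1 / l ^ 5 * n) ≤ 4 * Mf a0 := by linarith
  linarith [mul_le_mul_of_nonneg_left h5 hK]

end DetP

open C.Det hiding one_le_Lm dim wt_dim card_B sum_M card_sc sc_ne csys ripT in
open DetP in
theorem detE_proof (hR : RipStmt) : DetEStmt := by
  intro n l t C K C1 CG A A' _ _ _ _ a0 m Mf cl ph sc Kn c ns LGa e nt Ω _ π ρ Γ τ0 Γt v0 x hP hπ hco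
    hL hG hK hKC hC1 hC1C hCG hCGC h1 h2 h3 h4 h5 h5' h6
  have hA := one_le_A a0
  have hn1 : (16 : ℝ) ≤ n := by exact_mod_cast hP.n_ge
  have hl := hP.l_ge
  have hLm := one_le_Lm hP
  have hM1 : ∀ a, (1 : ℝ) ≤ Mf a := fun a => le_trans (by nlinarith) (hP.M_ge a)
  have hle : l = Real.log (cd (Fin n)) := by rw [cd_fin]; exact hP.l_eq
  have hB : cd (Bk m) ≤ cd (Fin n) ^ 2 := by
    rw [cd_fin]
    nlinarith [card_B hP]
  have hnt : (1 : ℝ) ≤ nt := by exact_mod_cast hP.nt_pos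
  have hM0 := hM1 a0
  refine ⟨⟨csys hP hπ hL hG v0 x fun J hJ => (h3 J hJ).1,
    fun J hJ => (if_neg fun h => hJ (eq_top hP.top v0 J h)).le, hle, hB, h1, h2, h4,
    by rwa [Fintype.card_fin], by rwa [Fintype.card_fin], h6, hK, hP.LG_ge, by positivity, hP.cardA, hKC.trans hP.C_le,
    hP.LG_le, by rw [one_div_one_div]; exact hCGC.trans hP.C_le, by positivity, hP.phi⟩,
    hle, smp_out x, smp_t3 hL x, fun J => by exact_mod_cast hM1 J.1, fun a i j => ?_,
    hP.Kn_pos, fun k hk => ⟨sc_ne hP hk, fun T hT => ?_⟩, fun a i ha => ?_, fun a i ha => ?_,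
    hP.e_nonneg,
    by rw [cd_fin]; exact hP.e_sum, hG.1, hG.2.1 x,
    (hR _ _ univ _ nt _ 1 hP.nt_pos (by positivity) fun T _ hT =>
      ripT hP x (by linarith) h2 T hT).1,
    by positivity, by positivity, ?_, by positivity, ?_⟩
  · simp [mem_bk]
  · simp only [coll_eq]
    rw [hP.bij k hk fun a => (coll (π a) T : ℝ), card_sc hP hk]
    exact hco _ _ (by rw [← hle]; exact hP.cls k hk) (hP.m_ge k hk) T hT
  · obtain ⟨g1, g2, g3⟩ := h3 ⟨ph a, π _ i⟩ (hP.ph_ne a)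
    have hM := hM1 (ph a)
    have hns : (1 : ℝ) ≤ ns (ph a) := by exact_mod_cast hP.ns_pos _
    obtain ⟨g4, g5⟩ := hR _ _ _ _ _ _ ((Mf (ph a) : ℝ) / 8) (hP.ns_pos _) (by positivity)
      fun T hT hT' v => (g3 T hT hT' v).1
    have g6 := hP.e_ge a ha
    refine ⟨?_, smp_dual hL x _ (hP.ph_ne a), by simpa only [cd_fin] using g1, g2, ?_, ?_⟩
    · rw [cd_fin, one_div_mul_eq_div]
      exact hL.lat _ (hP.ph_ne a)
    · rw [cd_fin]
      refine split_mono g4 ?_
      rw [mul_div_right_comm]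
      refine mul_le_mul_of_nonneg_right (le_trans ?_ g6) (by linarith)
      exact div_le_div_of_nonneg_right (by linarith) (by linarith)
    · refine ksh_mono (g5 (by positivity) fun T hT hT' v => (g3 T hT hT' v).2) (le_trans ?_ g6)
      refine div_le_div_of_nonneg_right ?_ (by linarith)
      have : 4 * (C1 * Mf (ph a)) / (Mf (ph a) / 8) = 32 * C1 := by
        field_simp
        norm_num
      simp only [this]
      linarith
  · exact (hπ.lo ⟨ph a, π _ i⟩).trans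
      (mul_le_mul_of_nonneg_right (hP.big a ha) (Nat.cast_nonneg _))
  · have := mul_le_mul_of_nonneg_right (show 40000 * K ≤ t by linarith [hP.C1t])
      (by positivity : (0 : ℝ) ≤ Mf a0 / 10000)
    linarith
  · rw [cd_fin, div_le_iff₀ (by linarith)]
    have g1 : 40000 * K ≤ l ^ 3 * t ^ 20 / n * nt := by
      rw [div_mul_eq_mul_div, le_div_iff₀ (by linarith)]
      have := mul_le_mul_of_nonneg_right hKC (by linarith : (0 : ℝ) ≤ 40000 * n)
      linarith [hP.C2t]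
    have := mul_le_mul_of_nonneg_right g1 (by positivity : (0 : ℝ) ≤ Mf a0 / 10000)
    linarith

end Vale.Agent.P318.E
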