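import Vale.Agent.P318.E.Stmt
import Vale.Agent.P318.C.ExistC

/-!
Track E: choice of the constants and the union bound.
-/

namespace Vale.Agent.P318.E

open Finset
open M (ind)
open B (cd av Kt Bk bk)
open C
open C.ExistP (av_and_le cd_fin one_le_cd)

namespace ExistP

theorem exists_good {α β : Type} [Fintype α] [Nonempty α] [Fintype β]
    {P1 P2 P4 P5 P6 P7 : α → Prop} {P3 : β → α → Prop}
    (h : av (fun x => ind (P1 x)) + av (fun x => ind (P2 x)) +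
      ∑ b, av (fun x => ind (P3 b x)) + av (fun x => ind (P4 x)) + av (fun x => ind (P5 x)) +
      av (fun x => ind (P6 x)) + av (fun x => ind (P7 x)) < 1) :
    ∃ x, ¬ P1 x ∧ ¬ P2 x ∧ (∀ b, ¬ P3 b x) ∧ ¬ P4 x ∧ ¬ P5 x ∧ ¬ P6 x ∧ ¬ P7 x := by
  rw [← B.Sys.av_sum, ← B.Sys.av_add, ← B.Sys.av_add, ← B.Sys.av_add, ← B.Sys.av_add,
    ← B.Sys.av_add, ← B.Sys.av_add] at h
  obtain ⟨x, hx⟩ := B.Sys.exists_lt_one h
  have n := B.Sys.ind_nonneg
  have n3 := sum_nonneg fun b (_ : b ∈ univ) => n (P3 b x)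
  have n1 := n (P1 x)
  have n2 := n (P2 x)
  have n4 := n (P4 x)
  have n5 := n (P5 x)
  have n6 := n (P6 x)
  have n7 := n (P7 x)
  refine ⟨x, fun e => ?_, fun e => ?_, fun b e => ?_, fun e => ?_, fun e => ?_, fun e => ?_,
    fun e => ?_⟩ <;> have := B.Sys.ind_of e
  any_goals linarith
  linarith [single_le_sum (fun b _ => n (P3 b x)) (mem_univ b)]

section Num

variable {n : ℕ} {l t C : ℝ} {A A' : Type} [Fintype A] [DecidableEq A] [Fintype A']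
  [DecidableEq A'] {a0 : A} {m Mf cl : A → ℕ} {ph : A' → A} {sc : A' → ℕ} {Kn : ℕ} {c : ℕ → ℕ}
  {ns : A → ℕ} {LGa : A → ℝ} {e : ℕ → ℝ} {nt : ℕ} {π : (a : A) → Fin n → Fin (m a)}

/-- The number of blocks is at most `n`. -/
theorem sum_Bk (h : ParE n l t C a0 m Mf cl ph sc Kn c ns LGa e nt) {f : Bk m → ℝ} {b : ℝ}
    (hb : 0 ≤ b) (hf : ∀ J, f J ≤ b) : ∑ J, f J ≤ n * b := by
  have h1 := one_le_cd a0
  have h2 : (Fintype.card (Bk m) : ℝ) ≤ n := by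
    rw [Fintype.card_sigma, Nat.cast_sum]
    have h3 : cd A * ∑ a, (Fintype.card (Fin (m a)) : ℝ) ≤ cd A * n := by
      rw [mul_sum]
      refine (sum_le_card_nsmul _ _ (n : ℝ) fun a _ => ?_).trans ?_
      · have := h.mA a
        have h0 : (0 : ℝ) ≤ cd A * m a := by positivity
        rw [Fintype.card_fin]
        linarith
      · rw [nsmul_eq_mul, card_univ]
        exact le_rfl
    exact le_of_mul_le_mul_left h3 (by linarith)
  calc ∑ J, f J ≤ Fintype.card (Bk m) * b := by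
        have := sum_le_card_nsmul univ f b fun J _ => hf J
        rwa [nsmul_eq_mul, card_univ] at this
    _ ≤ n * b := mul_le_mul_of_nonneg_right h2 hb

theorem sum_exp (h : ParE n l t C a0 m Mf cl ph sc Kn c ns LGa e nt) :
    ∑ J : Bk m, 10 * Real.exp (-(Mf J.1 : ℝ)) ≤ n * (10 * Real.exp (-l ^ 2)) :=
  sum_Bk h (by positivity) fun J =>
    mul_le_mul_of_nonneg_left (Real.exp_le_exp.2 (neg_le_neg (h.M_ge J.1))) (by norm_num)

theorem fail1' (h : ParE n l t C a0 m Mf cl ph sc Kn c ns LGa e nt) {a : ℝ} (ha : a ≤ n) :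
    a * ∑ J : Bk m, 10 * Real.exp (-(Mf J.1 : ℝ)) ≤ 1 / 100 := by
  have h1 := sum_exp h
  have h2 := h.fail1
  have h3 : 0 ≤ ∑ J : Bk m, 10 * Real.exp (-(Mf J.1 : ℝ)) := by positivity
  calc a * ∑ J : Bk m, 10 * Real.exp (-(Mf J.1 : ℝ))
      ≤ n * (n * (10 * Real.exp (-l ^ 2))) := mul_le_mul ha h1 h3 (Nat.cast_nonneg _)
    _ = (n : ℝ) ^ 2 * (10 * Real.exp (-l ^ 2)) := by ring
    _ ≤ 1 / 100 := h2

theorem wt_ge (h : ParE n l t C a0 m Mf cl ph sc Kn c ns LGa e nt) (hP : Parts a0 m π) (J : Bk m) :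
    (l ^ 3 * t ^ 14) * Mf J.1 ≤ wtE a0 Mf π (l ^ 3 * t ^ 14) J := by
  unfold wtE
  split_ifs with hJ
  · rw [hJ]
    exact le_max_right _ _
  · have h1 := h.dim J.1 hJ
    have h2 := hP.lo J
    rw [cd_fin] at h2
    have hm : (1 : ℝ) ≤ m J.1 := by exact_mod_cast h.pos J.1
    have hs : 1 ≤ Real.sqrt (m J.1) := Real.one_le_sqrt.2 hm
    have hl : 0 ≤ l := by linarith [h.l_ge]
    have ht : 0 ≤ t := by linarith [h.t_ge]
    have h0 : 0 ≤ (l ^ 3 * t ^ 14) * Mf J.1 := by positivity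
    have h4 : 0 ≤ (l ^ 3 * t ^ 14) * Mf J.1 * m J.1 := by positivity
    have h3 : m J.1 * ((l ^ 3 * t ^ 14) * Mf J.1) ≤ m J.1 * ((bk π J).card : ℝ) := by
      nlinarith [mul_le_mul_of_nonneg_left hs h4]
    exact le_of_mul_le_mul_left h3 (by linarith)

theorem c1_term (h : ParE n l t C a0 m Mf cl ph sc Kn c ns LGa e nt) (hP : Parts a0 m π)
    (J : Bk m) :
    2 * (2 * (n ^ 8 : ℕ) + 1 : ℝ) ^ Mf J.1 *
        Real.exp (-(wtE a0 Mf π (l ^ 3 * t ^ 14) J / (160 * (l ^ 2 * t ^ 12)))) ≤ 2 * Real.exp (-l ^ 2) := by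
  have hl : 0 < l := by linarith [h.l_ge]
  have ht : 0 < t := by linarith [h.t_ge]
  have hU : 0 < 160 * (l ^ 2 * t ^ 12) := by positivity
  have hg : (0 : ℝ) < 2 * (n ^ 8 : ℕ) + 1 := by positivity
  have h1 : (l ^ 3 * t ^ 14) / (160 * (l ^ 2 * t ^ 12)) * Mf J.1 ≤
      wtE a0 Mf π (l ^ 3 * t ^ 14) J / (160 * (l ^ 2 * t ^ 12)) := by
    rw [div_mul_eq_mul_div]
    exact div_le_div_of_nonneg_right (wt_ge h hP J) hU.le
  have h2 := mul_le_mul_of_nonneg_right h.c1 (Nat.cast_nonneg (α := ℝ) (Mf J.1))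
  have h3 := h.M_ge J.1
  rw [mul_assoc, ← Real.exp_log (pow_pos hg (Mf J.1)), ← Real.exp_add, Real.log_pow]
  refine mul_le_mul_of_nonneg_left (Real.exp_le_exp.2 ?_) (by norm_num)
  replace h2 := h2.trans h1
  clear h1
  generalize wtE a0 Mf π (l ^ 3 * t ^ 14) J / (160 * (l ^ 2 * t ^ 12)) = z at h2 ⊢
  linarith

theorem cd_le_bk (h : ParE n l t C a0 m Mf cl ph sc Kn c ns LGa e nt) (hP : Parts a0 m π)
    (J : Bk m) : cd A ≤ (bk π J).card := by
  have h1 := h.mA J.1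
  have h2 := hP.lo J
  rw [cd_fin] at h2
  have hm : (1 : ℝ) ≤ m J.1 := by exact_mod_cast h.pos J.1
  have h3 : m J.1 * cd A ≤ m J.1 * ((bk π J).card : ℝ) := by linarith
  exact le_of_mul_le_mul_left h3 (by linarith)

theorem row' (h : ParE n l t C a0 m Mf cl ph sc Kn c ns LGa e nt) (hP : Parts a0 m π) {C' : ℝ}
    (h0 : 0 ≤ C') (hC : C' ≤ C) (J : Bk m) (hJ : J.1 ≠ a0) :
    C' * (ns J.1 * LGa J.1 + Real.exp (-LGa J.1) * (bk π J).card) ≤ Mf J.1 := by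
  refine le_trans ?_ (h.row J.1 hJ)
  have hm : (0 : ℝ) < m J.1 := by exact_mod_cast h.pos J.1
  have h1 : ((bk π J).card : ℝ) ≤ 2 * n / m J.1 := by
    have := hP.hi J
    rw [cd_fin] at this
    rw [le_div_iff₀ hm]
    linarith
  have h2 : 0 ≤ LGa J.1 := by linarith [h.LGa_ge J.1]
  refine mul_le_mul hC ?_ (by positivity) (h0.trans hC)
  have := mul_le_mul_of_nonneg_left h1 (Real.exp_pos (-LGa J.1)).le
  linarith

theorem fail2' (h : ParE n l t C a0 m Mf cl ph sc Kn c ns LGa e nt) {C' : ℝ}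
    (h1 : 1 ≤ C') (hC : C' ≤ C) (a : A) :
    C' * (cd (Fin n) + 1) ^ 2 * Real.exp (-(Mf a / C' : ℝ)) ≤
      C * (n + 1) ^ 2 * Real.exp (-(l ^ 2 / C)) := by
  rw [cd_fin]
  have h0 : 0 < C' := by linarith
  have h2 : l ^ 2 / C ≤ Mf a / C' := div_le_div₀ (Nat.cast_nonneg _) (h.M_ge a) h0 hC
  exact mul_le_mul (mul_le_mul_of_nonneg_right hC (sq_nonneg _))
    (Real.exp_le_exp.2 (neg_le_neg h2)) (Real.exp_pos _).le
    (mul_nonneg (h0.le.trans hC) (sq_nonneg _))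

end Num

end ExistP

open ExistP

theorem existE_proof (hPar : ParEStmt) (hDet : DetEStmt) (hP : PartStmt) (hL : LawEx2Stmt)
    (hR : RipSStmt) (hI : RowIStmt) (hG : LowGEStmt) (hC : C1cStmt) (hC' : C1nStmt)
    (hLe : LeaveStmt) : ExistEStmt := by
  obtain ⟨CL, hCL, hL⟩ := hL
  obtain ⟨CR, hCR, hR⟩ := hR
  obtain ⟨CI, hCI, hI⟩ := hI
  obtain ⟨CG, hCG, hG⟩ := hG
  obtain ⟨CO, hCO, hO⟩ := hLe
  obtain ⟨n0, hn0⟩ := hPar (CL + CR + CI + CG + CO) (by linarith)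
  refine ⟨1 / 10000, CI, by norm_num, by linarith, n0, fun n t hn hg => ?_⟩
  obtain ⟨A, A', _, _, _, _, a0, m, Mf, cl, ph, sc, Kn, c, ns, LGa, e, nt, h⟩ := hn0 n t hn hg
  generalize hC0 : CL + CR + CI + CG + CO = C at h
  have cL : CL ≤ C := by linarith
  have cR : CR ≤ C := by linarith
  have cI : CI ≤ C := by linarith
  have cG : CG ≤ C := by linarith
  have cO : CO ≤ C := by linarith
  generalize hl : Real.log n = l at h ⊢
  have hl100 := h.l_ge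
  have hl0 : 0 < l := by linarith
  have hn16 : (16 : ℝ) ≤ n := by exact_mod_cast h.n_ge
  have hexp : Real.exp l = n := by rw [← hl, Real.exp_log (by linarith)]
  have ht : 1 ≤ t := h.t_ge
  have hlog : Real.log (cd (Fin n)) = l := by rw [cd_fin, hl]
  obtain ⟨π, hπ, hcoll⟩ := hP (Fin n) A a0 m cl (1 / t) h.top h.pos
    (by rwa [cd_fin]) (by rw [cd_fin]; exact h.cardA_le)
    (fun a => by rw [hlog, cd_fin]; exact h.msq a) (by positivity)
    ((div_le_one (by linarith)).2 ht)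
  have hCl : ∀ C' : ℝ, C' ≤ C → C' * l ≤ l ^ 2 := fun C' hC' =>
    (mul_le_mul_of_nonneg_right hC' hl0.le).trans h.C_le'
  obtain ⟨Ω, _, ρ, Γ, τ0, Γt, hLaw, hGlue, hMsb⟩ := hL (Fin n) A a0 m Mf π l h.top (by linarith)
    (by rw [hexp]; exact h.cardA_le) (by rw [hexp, cd_fin])
    (fun a => (hCl CL cL).trans (h.M_ge a)) (fun a => by rw [hexp]; exact h.M_le a) h.sum_le
  have hne := hLaw.ne
  let v0 : Fin (m a0) := ⟨0, h.pos a0⟩
  have hA1 := one_le_cd a0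
  have hM1 : ∀ a, 1 ≤ Mf a := fun a => by
    have h1 := h.M_ge a
    have : (1 : ℝ) ≤ Mf a := by nlinarith
    exact_mod_cast this
  have f1 := hR (Fin n) A a0 m Mf Ω π ρ Γ τ0 (l + 1) 0 hLaw (by linarith)
    (Or.inr ⟨rfl, by rw [cd_fin, ← hexp]; exact Real.exp_le_exp.2 (by linarith)⟩)
  have f2 := hR (Fin n) A a0 m Mf Ω π ρ Γ τ0 (5 * Real.log l) (1 / l ^ 5) hLaw h.LG_ge
    (Or.inl h.LG_exp)
  have hC1 : 1 ≤ C := hCL.trans cL
  have f3 := sum_Bk h (b := C * (n + 1) ^ 2 * Real.exp (-(l ^ 2 / C))) (by positivity)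
    fun J : Bk m => av_and_le (Q := J.1 ≠ a0) (by positivity) fun hJ =>
      (hI (Fin n) A a0 m Mf Ω π ρ Γ τ0 (LGa J.1) J (ns J.1) hLaw hJ (h.LGa_ge J.1)
        (row' h hπ (by linarith) cI J hJ)).trans (fail2' h hCI cI J.1)
  have hLm : 0 ≤ l ^ 3 * t ^ 14 := by positivity
  have f4 := hG (Fin n) A a0 m Mf Ω π ρ Γ τ0 CR (l + 1) (l ^ 3 * t ^ 14) hLaw hπ hCR
    (by linarith) hM1
    (fun a ha => by
      have h1 := h.dim a ha
      have h0 : 0 ≤ l ^ 3 * t ^ 14 * Mf a * m a * Real.sqrt (m a) := by positivity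
      rw [cd_fin]
      linarith)
    (by rw [cd_fin]; exact h.dim0)
    (le_trans (by gcongr) h.lowg)
  have g5' := sub_le_sub_right (Real.exp_le_exp.2 (sum_Bk h (by positivity) (c1_term h hπ))) 1
  have g6 : 0 ≤ Real.exp (n * (2 * Real.exp (-l ^ 2))) - 1 :=
    sub_nonneg.2 (Real.one_le_exp (by positivity))
  have f5 := (hC (Fin n) A a0 m Mf Ω π ρ Γ τ0 (l ^ 2 * t ^ 12) v0
    (wtE a0 Mf π (l ^ 3 * t ^ 14)) (n ^ 8) hLaw h.top (by positivity)).trans g5'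
  have f7 := (hC' (Fin n) A a0 m Mf Ω π ρ Γ τ0 (l ^ 2 * t ^ 12) v0
    (wtE a0 Mf π (l ^ 3 * t ^ 14)) (n ^ 8) hLaw hMsb h.top (by positivity)).trans
    ((mul_le_mul_of_nonneg_left g5' (zero_le_one.trans hA1)).trans
      (mul_le_mul_of_nonneg_right h.cardA_le g6))
  clear g5'
  have f6 := hO (Fin n) A a0 m Mf Ω π ρ Γ τ0 (2 / (1 / CG)) (l ^ 2) hLaw (by positivity)
    (by rw [cd_fin]; linarith) (cd_le_bk h hπ)
    (fun J => card_pos.1 (by exact_mod_cast hA1.trans (cd_le_bk h hπ J)))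
    (by rw [hlog]; exact hCl CO cO)
  have g1 := (one_mul _).symm.trans_le (fail1' h (a := 1) (by linarith))
  have g7 := (le_mul_of_one_le_left g6 (hA1.trans h.cardA_le)).trans h.fail3
  obtain ⟨x, p1, p2, p3, p4, p5, p6, p7⟩ := exists_good
    ((add_le_add (add_le_add (add_le_add (add_le_add (add_le_add (add_le_add (f1.trans g1)
      (f2.trans g1)) (f3.trans h.fail2)) (f4.trans (fail1' h h.cardA_le))) (f5.trans g7)) f6)
      (f7.trans h.fail3)).trans_lt (by norm_num))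
  rw [not_not] at p1 p2 p5 p6 p7
  obtain ⟨hGA, hIA⟩ := hDet n l t C CR CI CG A A' a0 m Mf cl ph sc Kn c ns LGa e nt Ω π ρ Γ τ0 Γt v0
    x h hπ hcoll hLaw hGlue hCR cR hCI cI hCG cG p1 p2
    (fun J hJ => not_not.1 fun q => p3 J ⟨hJ, q⟩) (not_not.1 fun q => p4 ⟨p1, q⟩) p5 p7 p6
  exact ⟨Bk m, A', inferInstance, inferInstance, inferInstance, inferInstance, _, _, _, _, _, _, _,
    _, _, _, _, _, _, _, _, _, _, _, _, _, hGA, hIA⟩

end Vale.Agent.P318.E
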