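import Vale.Agent.P318.E.Stmt
import Vale.Agent.P318.C.G2

/-!
Track E: the second near triangle inequality at the resolution `η`.
-/

namespace Vale.Agent.P318.E

open Finset
open M (ip nsq lin perp vv)
open B (cf cd IsProj rr Kt tc res Pat pS pJ pD pw zone)
open C

namespace G2E

lemma za_le {η ϑ ϑ' x : ℝ} (h : |x| ≤ 1 / 2) : |za η ϑ ϑ' x| ≤ 1 / 2 := by
  unfold za
  split_ifs
  · exact h
  · norm_num

lemma za_sub_le {η ϑ ϑ' x y : ℝ} (h : |x - y| ≤ 1 / 2) :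
    |za η ϑ ϑ' x - za η ϑ ϑ' y| ≤ 1 / 2 := by
  unfold za
  split_ifs
  · exact h
  · norm_num

variable {Y q : ℝ} (hq : 0 < q) (hY : 1000 ≤ Y) (hqY : q * Y ^ 2 ≤ 1)
include hq hY hqY

lemma extra1 {B E : ℝ} (hB : 0 ≤ B) (h : E ≤ 36 * (Y ^ 4 * q ^ 6 * B)) :
    8 * E + Y ^ 10 * B * q ^ 2 ≤ Y ^ 11 * B * q ^ 2 := by
  have u1 := G2.mono hq hY hqY hB (i := 4) (j := 6) (by norm_num) (by norm_num)
  have s6 := G2.n6 hq hY hB
  have s0 : 0 ≤ Y ^ 7 * q ^ 2 * B := by positivity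
  have s1 := mul_le_mul_of_nonneg_right (show 2 ≤ Y by linarith)
    (show 0 ≤ Y ^ 10 * B * q ^ 2 by positivity)
  linear_combination 8 * h + 288 * u1 + s6 + 3712 * s0 + s1

lemma extra2 {η p a b n ft ft' : ℝ} (hp : 0 ≤ p) (ha : 0 ≤ a) (hab : a ≤ b) (hn : 0 < n)
    (hb : n * q ^ 64 = b + 1) (h : ft ≤ 8 * a + 2 / n) (h' : ft' ≤ 8 * b + 2 / n) :
    8 * p / η ^ 2 * (ft + ft') ≤ 128 * p / η ^ 2 * (b + 1) := by
  have c0 : 1 / n ≤ q ^ 64 := by rw [div_le_iff₀ hn]; linarith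
  have c1 := c0.trans (pow_le_one₀ hq.le (G2.q_le hq hY hqY))
  have c2 : 2 / n = 2 * (1 / n) := by ring
  exact (mul_le_mul_of_nonneg_left (show ft + ft' ≤ 16 * (b + 1) by linarith)
    (by positivity)).trans_eq (by ring)

end G2E

open G2 G2E in
theorem g2E_proof (hL : LevStmt) (hS : SumEStmt) (hPat : B.PatStmt) (hP : B.ProjStmt) :
    G2EStmt := by
  intro ι B _ _ _ _ M blk s Γ J0 wt Sp c w F Lm Cn φ η p Le Υ1 δ1 Y g H hDec hRP hpr hM hV h0 h1 h2
    h3 hp hLe hδ0 hδ1 hg hgn hY hF hΥ hLY hηY x x' x'' hbox G G' G'' hab hsm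
  classical
  have ps := ((hP.1 ι (Kt M) (tc s)).2 Sp hpr).2.1
  have dif : ∀ y y' : ι → ℤ, ∀ j, vv (tc s) Sp c y j - vv (tc s) Sp c y' j =
      ((y - y') j : ℝ) - lin (tc s) (Sp fun i => ((y - y') i : ℝ)) j := fun y y' j => by
    have e1 := congrFun (ps (fun i => (y i : ℝ) + c i) fun i => (y' i : ℝ) + c i) j
    have e2 : ((fun i => (y i : ℝ) + c i) - fun i => (y' i : ℝ) + c i) =
        fun i => ((y - y') i : ℝ) := by
      funext i
      simp
    rw [e2] at e1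
    exact e1.symm
  set u := vv (tc s) Sp c x with hu
  set u' := vv (tc s) Sp c x' with hu'
  set u'' := vv (tc s) Sp c x'' with hu''
  set a := rr (tc s) Sp c x x' with ha
  set b := rr (tc s) Sp c x' x'' with hb
  have ea : ∑ j, (u j - u' j) ^ 2 = a := rfl
  have eb : ∑ j, (u'' j - u' j) ^ 2 = b := sum_congr rfl fun j _ => by ring
  have a0 : 0 ≤ a := sum_nonneg fun _ _ => sq_nonneg _
  obtain ⟨hn, q, q0, q64, qY, q2⟩ := q_ex hY (show 0 < b + 1 by linarith) hsm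
  obtain ⟨k, τ, Hv, d1, d2, d3, d4⟩ := hDec (x - x') (Sp fun i => ((x - x') i : ℝ))
  obtain ⟨k', τ', Hv', d1', d2', d3', d4'⟩ := hDec (x'' - x') (Sp fun i => ((x'' - x') i : ℝ))
  simp only [← dif] at d1 d3 d4 d1' d3' d4'
  obtain ⟨I1, i1, i2, i3⟩ := supp hL H hδ0 hδ1 hΥ d1 d3 d4
  obtain ⟨I2, i1', i2', i3'⟩ := supp hL H hδ0 hδ1 hΥ d1' d3' d4'
  rw [ea] at i3
  rw [eb] at i3'
  obtain ⟨L, -, l2, l3, l4, l5⟩ := sets hL H (I0 := I1 ∪ I2) q0 hY qY hF hn (by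
    have c1 : ((I1 ∪ I2).card : ℝ) ≤ I1.card + I2.card := by exact_mod_cast card_union_le _ _
    have c2 := mul_le_mul_of_nonneg_left (show a + 1 ≤ b + 1 by linarith) (show 0 ≤ Y by linarith)
    rw [q64]
    linarith)
  set I := I1 ∪ I2 ∪ zone blk L with hI
  obtain ⟨d, r1, r2⟩ := hRP I L subset_union_right fun J hJ => (l5 J hJ).2.trans
    (mul_le_mul_of_nonneg_right (rho0 q0 hY qY) (Nat.cast_nonneg _))
  have y1 := z1 q0 hY qY (sq4 q0 hY hn l4)
  have y2 := z2 q0 hY qY (sq4 q0 hY hn l4)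
  have y3 := z3 q0 hY qY
  have Y0 : 0 < Y := by linarith
  have hR : ∀ (f : ι → ℝ) (τ : Kt M → ℝ), (∀ j, j ∉ I → f j = 0) → (∀ x, x.1 ∈ L → τ x = 0) →
      (∀ x, x.1 ∉ L → ∑ j, (tc s j x : ℝ) * (f j - lin (tc s) τ j) = 0) →
      ∑ j ∈ zone blk L, (lin (tc s) τ j - d j * f j) ^ 2 ≤ 2 * Y ^ 6 * q ^ 14 * ∑ j, f j ^ 2 ∧
      ∑ j ∈ I, (lin (tc s) τ j - d j * f j) ^ 2 ≤ 3 * Y ^ 5 * q ^ 8 * ∑ j, f j ^ 2 :=
    fun f τ c1 c2 c3 =>
      have c4 : 0 ≤ ∑ j, f j ^ 2 := sum_nonneg fun _ _ => sq_nonneg _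
      ⟨(r2 f τ c1 c2 c3 _ _ subset_union_right (by positivity) fun J hJ => (l5 J hJ).1).trans
          (mul_le_mul_of_nonneg_right y1 c4),
        (r2 f τ c1 c2 c3 _ _ Subset.rfl (by positivity) fun J hJ => (l5 J hJ).2).trans
          (mul_le_mul_of_nonneg_right y2 c4)⟩
  have hd : ∀ j, |d j| ≤ 1 / 8 := fun j => (r1 j).trans
    ((pow_le_pow_left₀ h2.le (show η ≤ 1 / 8 by linarith) 2).trans (by norm_num))
  have orth : ∀ (y y' : ι → ℤ) β,
      ∑ j, (vv (tc s) Sp c y j - vv (tc s) Sp c y' j) * lin (tc s) β j = 0 := fun y y' β => by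
    simp only [dif]
    exact hpr _ β
  have orth1 : ∀ (y y' : ι → ℤ) z,
      ∑ j, (tc s j z : ℝ) * (vv (tc s) Sp c y j - vv (tc s) Sp c y' j) = 0 := fun y y' z => by
    have c1 := orth y y' (Pi.single z 1)
    simp only [lin_single] at c1
    simpa only [mul_comm] using c1
  have k0 : ∀ j, j ∉ I → k j = 0 := fun j hj =>
    i2 j fun h => hj (mem_union_left _ (mem_union_left _ h))
  have k0' : ∀ j, j ∉ I → k' j = 0 := fun j hj =>
    i2' j fun h => hj (mem_union_left _ (mem_union_right _ h))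
  obtain ⟨π, e, p1, p2, p3, p4, p5, p6⟩ := pair hL hPat H hg hn hgn subset_union_right k0 d1 d2
    (orth1 x x') hd hR (by positivity) (by positivity) y3
  obtain ⟨π', e', p1', p2', p3', p4', p5', p6'⟩ := pair hL hPat H hg hn hgn subset_union_right k0'
    d1' d2' (orth1 x'' x') hd hR (by positivity) (by positivity) y3
  rw [ea] at p4 p5 p6
  rw [eb] at p4' p5' p6'
  have t1 : ∀ j, ((k j - round (pw s π j) : ℤ) : ℝ) - th1 s π j = k j - pw s π j := fun j => by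
    simp only [th1, cf]
    push_cast
    ring
  have t2 : ∀ j, ((k' j - round (pw s π' j - th1 s π j) : ℤ) : ℝ) - th2 s π π' j =
      k' j - pw s π' j := fun j => by
    simp only [th2, cf]
    push_cast
    ring
  have t3 : ∀ j, |th1 s π j| ≤ 1 / 2 := fun j => abs_sub_round _
  have t4 : ∀ j, |th2 s π π' j - th1 s π j| ≤ 1 / 2 := fun j => by
    rw [th2, add_sub_cancel_left]
    exact abs_sub_round _
  have main := hS ι w.om η (12 / η * Real.sqrt ((zone blk L).card * ent Le π)) p u u' u''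
    (th1 s π) (th2 s π π') d e e' (fun j => k j - round (pw s π j))
    (fun j => k' j - round (pw s π' j - th1 s π j)) I (zone blk L)
    (fun i => zE w fun z => T7 w.om η (th1 s π) (th2 s π π') (perp (tc s) Sp z) i) h0 h1 h2 h3 hp
    subset_union_right hbox (fun j => ⟨t3 j, t4 j, r1 j⟩)
    (fun j hj => by simp [th1, th2, cf, p2 j hj, p2' j hj])
    (fun j hj => by simp [k0 j hj, p2 j fun h => hj (mem_union_right _ h)])
    (fun j _ => by rw [t1, t2]; exact ⟨p3 j, p3' j⟩)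
    (fun i => by
      rw [← p1]
      exact ⟨G π π' (p1.trans p1'.symm) i, G' π π' (p1.trans p1'.symm) i,
        G'' π π' (p1.trans p1'.symm) i⟩)
    (hM (fun j => za η (th1 s π j) (th2 s π π' j) (th1 s π j))
      (fun j => za η (th1 s π j) (th2 s π π' j) (th2 s π π' j)) (fun j => za_le (t3 j))
      fun j => za_sub_le (t4 j)) (hV _ _)
  simp only [t1, t2] at main
  have s0 : 0 ≤ ∑ J ∈ L, (M J : ℝ) := sum_nonneg fun _ _ => Nat.cast_nonneg _
  have en0 : 0 ≤ ent Le π := by rw [ent, p1]; positivity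
  have en1 : ent Le π ≤ 4 * Y ^ 4 * cd ι * q ^ 84 := by
    rw [ent, p1]; exact (mul_le_mul hLY l3 s0 (by linarith)).trans_eq (by ring)
  have num := fin_num q0 hY qY h2 h0 hηY a0 hab hn q64 (Nat.cast_nonneg _) l2 en0 en1
    (sum_nonneg fun _ _ => sq_nonneg _) p4 p5 p5' p6 p6'
  have num1 := extra1 q0 hY qY (show 0 ≤ b + 1 by linarith) (n2 q0 hY h2 hηY hn q64 l2 en0 en1)
  have num2 := extra2 (η := η) q0 hY qY hp a0 hab hn q64 p4 p4'
  have fin : rr (tc s) Sp c x x'' = a + b - 2 * ∑ j, (k j - pw s π j) * (u'' j - u' j) := by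
    have c1 := orth x'' x' (pD π - τ)
    rw [← ea, ← eb, ← sub_zero (_ + _), ← mul_zero 2, ← c1]
    simp only [rr, mul_sum, ← sum_add_distrib, ← sum_sub_distrib]
    refine sum_congr rfl fun j _ => ?_
    have c2 := d1 j
    rw [lin_sub, pw]
    linear_combination (-2 * (u'' j - u' j)) * c2
  rw [fin, q2]
  linear_combination 2 * main + num + num1 + num2

end Vale.Agent.P318.E
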