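import Vale.Agent.P318.E.Stmt
import Vale.Agent.P318.C.Geo

/-!
Track E: assembly of the geometry and the numerical inequalities.
-/

namespace Vale.Agent.P318.E

open Finset MeasureTheory Filter
open M (ind Eb pt zz tm BM ip nsq Dual lin Inv CND perp vv)
open B (cf nd cd av Op IsProj rr Nice Red Kt tc res Pat pS pJ pD pw zone)
open C C.Geo

namespace GeoE

theorem upl {l t c v : ℝ} (t1 : 1 ≤ t) (hl : t ^ 100 ≤ l) (hv : 0 ≤ v) (hc : c ≤ v * t)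
    {a b a' b' : ℕ} (ha : a ≤ a') (h : b + 100 * a < b' + 100 * a') :
    c * (l ^ a * t ^ b) ≤ v * (l ^ a' * t ^ b') := by
  obtain ⟨d, rfl⟩ := Nat.exists_eq_add_of_le ha
  have t0 : 0 ≤ t := zero_le_one.trans t1
  have l0 : 0 ≤ l := (pow_nonneg t0 _).trans hl
  have h1 : c * t ^ b ≤ v * t ^ (b' + 100 * d) := upw t1 hv hc (by omega)
  calc c * (l ^ a * t ^ b) = l ^ a * (c * t ^ b) := by ring
    _ ≤ l ^ a * (v * t ^ (b' + 100 * d)) := mul_le_mul_of_nonneg_left h1 (pow_nonneg l0 _)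
    _ = l ^ a * (v * t ^ b' * (t ^ 100) ^ d) := by rw [pow_add, pow_mul, mul_assoc]
    _ ≤ l ^ a * (v * t ^ b' * l ^ d) := by gcongr
    _ = v * (l ^ (a + d) * t ^ b') := by ring

/-- the inequalities between powers of `l` and `t` -/
structure Num (l t ω C F K LG cG φ : ℝ) : Prop where
  et : ∀ r : ℝ, r ≤ 4 * l → 1 / (l * t) * r ≤ ω / 8
  pm1 : φ / cG ≤ 1 / (l ^ 2 * t ^ 9)
  pm2 : 4 * (1 / (l ^ 2 * t ^ 9)) ≤ (1 / (l * t)) ^ 2
  d1 : ∀ p : ℝ, 0 ≤ p → p ≤ t → 10 ^ 7 * p * F ^ 2 * K * LG / ω ^ 5 ≤ l ^ 2 * t ^ 12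
  d2 : ∀ k p : ℝ, 0 ≤ k → k ≤ 4 * l → 0 ≤ p → p ≤ t →
    10 ^ 7 * k * p * F * K * (1 / (l ^ 3 * t ^ 14) + 1 / l ^ 5) ≤ ω ^ 5
  r1 : 4 * K * φ ≤ cG
  r2 : 4 * K * F * (l + 1) * (1 / (l ^ 4) ^ 15) ≤ cG
  r3 : 16 / cG * (16 * l ^ 2 + K * F * (l + 1)) ≤ (l ^ 4) ^ 5
  g1 : 144 * (30 * l) * (l ^ 2 * t ^ 12) ≤ ω ^ 4 * (l ^ 3 * t ^ 14)
  g2 : l ^ 2 * t ^ 12 + 6 ≤ l ^ 4
  p1 : C * (5000 * (1 / (l * t)) / ω * l) ≤ 1
  p2 : 1 / (5000 * (1 / (l * t)) / ω) ≤ l ^ 4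
  F2 : 2 * F ≤ l ^ 2
  Y1 : 1000 ≤ l ^ 4
  Y2 : F ≤ l ^ 4
  Y3 : 30 * l ≤ l ^ 4
  Y4 : l * t ≤ l ^ 4
  xx : 256 * Real.exp (-(1 / (l * t)) ^ 2 / (16 * (1 / (l ^ 2 * t ^ 9)))) ≤ (1 / (l * t)) ^ 3
  tl : 17 * l ≤ (ω / 10) ^ 2 / (16 * (1 / (l ^ 2 * t ^ 9)))
  m1 : 1600 * (l * t) ≤ ω * (l ^ 2 / 2)
  m2 : 1 ≤ ω ^ 5 * (l ^ 2 / 2)
  l1 : 1000 ≤ l

theorem num {l t ω C F K LG cG φ : ℝ} (ω0 : 0 < ω) (ω1 : ω ≤ 1 / 16) (hC : 1 ≤ C)
    (ht : 10 ^ 10 * C ≤ ω ^ 9 * t) (hl : t ^ 100 ≤ l) (hl' : Real.log l ≤ t) (F1 : 1 ≤ F)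
    (K1 : 1 ≤ K) (L1 : 1 ≤ LG) (c0 : 0 < cG) (φ0 : 0 < φ) (hF : F ≤ l * t ^ 4) (hK : K ≤ t)
    (hL : LG ≤ t) (hc : 1 / cG ≤ t) (hφ : φ ≤ 1 / (l ^ 2 * t ^ 10)) :
    Num l t ω C F K LG cG φ := by
  have t1 : 1 ≤ t := K1.trans hK
  have t0 : 0 < t := by linarith
  have l1 : 1 ≤ l := (one_le_pow₀ t1).trans hl
  have l0 : 0 < l := by linarith
  have W : ∀ k ≤ 9, 10 ^ 10 * C ≤ ω ^ k * t := fun k hk =>
    ht.trans (mul_le_mul_of_nonneg_right (pow_le_pow_of_le_one ω0.le (by linarith) hk) t0.le)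
  have U : ∀ k ≤ 9, ∀ c ≤ (10 : ℝ) ^ 10, ∀ a b a' b' : ℕ, a ≤ a' → b + 100 * a < b' + 100 * a' →
      c * (l ^ a * t ^ b) ≤ ω ^ k * (l ^ a' * t ^ b') := fun k hk c hc a b a' b' ha h =>
    upl t1 hl (by positivity) (hc.trans (le_trans (by linarith) (W k hk))) ha h
  have U0 : ∀ c ≤ (10 : ℝ) ^ 10, ∀ a b a' b' : ℕ, a ≤ a' → b + 100 * a < b' + 100 * a' →
      c * (l ^ a * t ^ b) ≤ l ^ a' * t ^ b' := fun c hc a b a' b' ha h => by
    simpa using U 0 (by norm_num) c hc a b a' b' ha h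
  have P1 : K * F * (l + 1) ≤ 2 * (l ^ 2 * t ^ 5) :=
    calc K * F * (l + 1) ≤ t * (l * t ^ 4) * (l + l) := by gcongr
      _ = 2 * (l ^ 2 * t ^ 5) := by ring
  have cy : 1 / t ≤ cG := (one_div_le c0 t0).1 hc
  refine ⟨fun r hr => ?_, ?_, ?_, fun p p0 hp => ?_, fun k p k0 hk p0 hp => ?_, ?_, ?_, ?_,
    by linarith [U 4 (by norm_num) 4320 (by norm_num) 3 12 3 14 le_rfl (by norm_num)],
    by linarith [U0 2 (by norm_num) 2 12 4 0 (by norm_num) (by norm_num),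
      U0 12 (by norm_num) 0 0 4 0 (by norm_num) (by norm_num)], ?_, ?_,
    by linarith [U0 2 (by norm_num) 1 4 2 0 (by norm_num) (by norm_num)],
    by linarith [U0 1000 (by norm_num) 0 0 4 0 (by norm_num) (by norm_num)],
    by linarith [U0 1 (by norm_num) 1 4 4 0 (by norm_num) (by norm_num)],
    by linarith [U0 30 (by norm_num) 1 0 4 0 (by norm_num) (by norm_num)],
    by linarith [U0 1 (by norm_num) 1 1 4 0 (by norm_num) (by norm_num)], ?_, ?_,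
    by linarith [U 1 (by norm_num) 3200 (by norm_num) 1 1 2 0 (by norm_num) (by norm_num)],
    by linarith [U 5 (by norm_num) 2 (by norm_num) 0 0 2 0 (by norm_num) (by norm_num)],
    by linarith [U0 1000 (by norm_num) 0 0 1 0 (by norm_num) (by norm_num)]⟩
  · calc 1 / (l * t) * r ≤ 1 / (l * t) * (4 * l) := by gcongr
      _ = 4 / t := by field_simp
      _ ≤ ω / 8 := by
        rw [div_le_div_iff₀ t0 (by norm_num)]
        linarith [W 1 (by norm_num)]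
  · calc φ / cG = φ * (1 / cG) := by ring
      _ ≤ 1 / (l ^ 2 * t ^ 10) * t := by gcongr
      _ = 1 / (l ^ 2 * t ^ 9) := by field_simp
  · rw [mul_one_div, div_pow, div_le_div_iff₀ (by positivity) (by positivity)]
    linarith [U0 4 (by norm_num) 2 2 2 9 le_rfl (by norm_num)]
  · rw [div_le_iff₀ (by positivity)]
    calc _ ≤ 10 ^ 7 * t * (l * t ^ 4) ^ 2 * t * t := by gcongr
      _ ≤ _ := by linarith [U 5 (by norm_num) (10 ^ 7) (by norm_num) 2 11 2 12 le_rfl (by norm_num)]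
  · have a : 1 / l ^ 5 ≤ 1 / (l ^ 3 * t ^ 14) := one_div_le_one_div_of_le (by positivity)
      (by linarith [U0 1 (by norm_num) 3 14 5 0 (by norm_num) (by norm_num)])
    calc _ ≤ 10 ^ 7 * (4 * l) * t * (l * t ^ 4) * t *
          (1 / (l ^ 3 * t ^ 14) + 1 / (l ^ 3 * t ^ 14)) := by gcongr
      _ = 80000000 * (l ^ 2 * t ^ 6) / (l ^ 3 * t ^ 14) := by ring
      _ ≤ ω ^ 5 := by
        rw [div_le_iff₀ (by positivity)]
        exact U 5 (by norm_num) _ (by norm_num) 2 6 3 14 (by norm_num) (by norm_num)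
  · calc 4 * K * φ ≤ 4 * t * (1 / (l ^ 2 * t ^ 10)) := by gcongr
      _ = 4 * t / (l ^ 2 * t ^ 10) := by ring
      _ ≤ 1 / t := by
        rw [div_le_div_iff₀ (by positivity) t0]
        linarith [U0 4 (by norm_num) 0 2 2 10 (by norm_num) (by norm_num)]
      _ ≤ cG := cy
  · calc _ = 4 * (K * F * (l + 1)) / (l ^ 4) ^ 15 := by ring
      _ ≤ 4 * (2 * (l ^ 2 * t ^ 5)) / (l ^ 4) ^ 15 := by gcongr
      _ ≤ 1 / t := by
        rw [div_le_div_iff₀ (by positivity) t0]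
        linarith [U0 8 (by norm_num) 2 6 60 0 (by norm_num) (by norm_num)]
      _ ≤ cG := cy
  · calc _ = 16 * (1 / cG) * (16 * l ^ 2 + K * F * (l + 1)) := by ring
      _ ≤ 16 * t * (16 * l ^ 2 + 2 * (l ^ 2 * t ^ 5)) := by gcongr
      _ ≤ (l ^ 4) ^ 5 := by
        linarith [U0 512 (by norm_num) 2 1 20 0 (by norm_num) (by norm_num),
          U0 64 (by norm_num) 2 6 20 0 (by norm_num) (by norm_num)]
  · rw [show C * (5000 * (1 / (l * t)) / ω * l) = 5000 * C / (ω * t) by field_simp,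
      div_le_one (by positivity)]
    linarith [W 1 (by norm_num)]
  · rw [show 1 / (5000 * (1 / (l * t)) / ω) = ω / 5000 * (l ^ 1 * t ^ 1) by field_simp]
    linarith [U0 (ω / 5000) (by linarith) 1 1 4 0 (by norm_num) (by norm_num)]
  · have a : Real.exp (-(1 / (l * t)) ^ 2 / (16 * (1 / (l ^ 2 * t ^ 9)))) ≤ 1 / l ^ 5 := by
      rw [show -(1 / (l * t)) ^ 2 / (16 * (1 / (l ^ 2 * t ^ 9))) = -(t ^ 7 / 16) by field_simp,
        one_div, ← Real.exp_log (pow_pos l0 5), ← Real.exp_neg, Real.log_pow]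
      refine Real.exp_le_exp.2 ?_
      push_cast
      linarith [U0 80 (by norm_num) 0 1 0 7 le_rfl (by norm_num)]
    refine (mul_le_mul_of_nonneg_left a (by norm_num)).trans ?_
    rw [mul_one_div, div_pow, div_le_div_iff₀ (by positivity) (by positivity)]
    linarith [U0 256 (by norm_num) 3 3 5 0 (by norm_num) (by norm_num)]
  · rw [show (ω / 10) ^ 2 / (16 * (1 / (l ^ 2 * t ^ 9))) = ω ^ 2 * (l ^ 2 * t ^ 9) / 1600 by
      field_simp; norm_num]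
    linarith [U 2 (by norm_num) 27200 (by norm_num) 1 0 2 9 (by norm_num) (by norm_num)]

/-- the inequalities between powers of `n = exp l` -/
structure NumN (l t ω n : ℝ) : Prop where
  n1 : 1000 ≤ n
  k1 : l ^ 2 / 2 ≤ n
  k2 : 320 * (n ^ 2) ^ 2 * (2 * n ^ 2) ≤ n ^ 8
  x1 : n ^ 2 * (2 / n ^ 21) ≤ 1 / n ^ 18
  x2 : 1 / n ^ 18 ≤ 1 / 2
  g1 : n * (n ^ 2 / n ^ 8) ^ 2 ≤ ω ^ 5
  g2 : n * n ^ 2 ≤ n ^ 8
  pb1 : 1 / n ^ 15 ≤ 1 / 20
  pb2 : ∀ k : ℝ, k ≤ 4 * l → 2 * n * Real.exp (-(ω / 10) ^ 2 / (16 * (1 / (l ^ 2 * t ^ 9)))) +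
    100 * (k + 1) * (1 / n ^ 18) ≤ 1 / n ^ 15
  sq : 2 * n + 40 * n ^ 2 * Real.sqrt (1 / n ^ 15 / (ω * (1 / (l * t)))) ≤ 3 * n

theorem numN {l t ω n : ℝ} (ω0 : 0 < ω) (t0 : 0 < t) (l1 : 1000 ≤ l) (en : Real.exp l = n)
    (tl : 17 * l ≤ (ω / 10) ^ 2 / (16 * (1 / (l ^ 2 * t ^ 9))))
    (m1 : 1600 * (l * t) ≤ ω * (l ^ 2 / 2)) (m2 : 1 ≤ ω ^ 5 * (l ^ 2 / 2)) : NumN l t ω n := by
  have l0 : 0 < l := by linarith
  have q := Real.quadratic_le_exp_of_nonneg l0.le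
  rw [en] at q
  have ny : l ^ 2 / 2 ≤ n := by linarith
  have nl : l ≤ n := by linarith [sq_nonneg l]
  have n1 : 1000 ≤ n := l1.trans nl
  have n0 : 0 < n := by linarith
  have V : ∀ c ≤ (1000 : ℝ), ∀ a b : ℕ, a < b → c * n ^ a ≤ n ^ b := fun c hc a b h => by
    simpa using upw (show 1 ≤ n by linarith) zero_le_one (show c ≤ 1 * n by linarith) h
  refine ⟨n1, ny, by linarith [V 640 (by norm_num) 6 8 (by norm_num)], ?_,
    one_div_le_one_div_of_le (by norm_num) (by linarith [V 2 (by norm_num) 0 18 (by norm_num)]),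
    ?_, by linarith [V 1 (by norm_num) 3 8 (by norm_num)],
    one_div_le_one_div_of_le (by norm_num) (by linarith [V 20 (by norm_num) 0 15 (by norm_num)]),
    fun k hk => ?_, ?_⟩
  · rw [← mul_div_assoc, div_le_div_iff₀ (by positivity) (by positivity)]
    linarith [V 2 (by norm_num) 20 21 (by norm_num)]
  · rw [show n * (n ^ 2 / n ^ 8) ^ 2 = 1 / n ^ 11 by field_simp, div_le_iff₀ (by positivity)]
    exact m2.trans (mul_le_mul_of_nonneg_left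
      (by linarith [V 1 (by norm_num) 1 11 (by norm_num)]) (by positivity))
  · have e : Real.exp (-(ω / 10) ^ 2 / (16 * (1 / (l ^ 2 * t ^ 9)))) ≤ 1 / (4 * n ^ 16) := by
      refine le_trans ?_ (one_div_le_one_div_of_le (by positivity)
        (V 4 (by norm_num) 16 17 (by norm_num)))
      rw [← en, ← Real.exp_nat_mul, one_div (Real.exp _), ← Real.exp_neg, neg_div]
      refine Real.exp_le_exp.2 ?_
      push_cast
      linarith
    have a : 2 * n * (1 / (4 * n ^ 16)) = 1 / n ^ 15 / 2 := by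
      field_simp
      norm_num
    have b : 100 * (5 * n) * (1 / n ^ 18) ≤ 1 / n ^ 15 / 2 := by
      rw [mul_one_div, div_div, div_le_div_iff₀ (by positivity) (by positivity)]
      linarith [V 1000 le_rfl 16 18 (by norm_num)]
    have c : 100 * (k + 1) * (1 / n ^ 18) ≤ 100 * (5 * n) * (1 / n ^ 18) :=
      mul_le_mul_of_nonneg_right (by linarith) (by positivity)
    linarith [mul_le_mul_of_nonneg_left e (show 0 ≤ 2 * n by positivity)]
  · have s1 : Real.sqrt (1 / n ^ 15 / (ω * (1 / (l * t)))) ≤ 1 / (40 * n) := by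
      refine Real.sqrt_le_iff.2 ⟨by positivity, ?_⟩
      rw [show 1 / n ^ 15 / (ω * (1 / (l * t))) = l * t / (ω * n ^ 15) by field_simp, div_pow,
        div_le_div_iff₀ (by positivity) (by positivity)]
      have a : ω * (l ^ 2 / 2) ≤ ω * n ^ 13 :=
        mul_le_mul_of_nonneg_left (by linarith [V 1 (by norm_num) 1 13 (by norm_num)]) ω0.le
      linarith [mul_le_mul_of_nonneg_right (m1.trans a) (sq_nonneg n)]
    have s2 : 40 * n ^ 2 * (1 / (40 * n)) = n := by field_simp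
    linarith [mul_le_mul_of_nonneg_left s1 (show 0 ≤ 40 * n ^ 2 by positivity)]

theorem lam_le {C ω p ε l Λ : ℝ} (hp : 0 < p) (hω : ω * (400000 * C) ≤ p) (l1 : 1 ≤ l)
    (hε : C * (ε * l) ≤ 1)
    (h : Λ ≤ Real.exp (C * (160 * ω * (Real.log ((l ^ 4) ^ 128) + Real.log l) + ε * l))) :
    Λ ≤ l ^ (p / 2) * 3 := by
  have lY : Real.log ((l ^ 4) ^ 128) = 512 * Real.log l := by
    rw [Real.log_pow, Real.log_pow]
    push_cast
    ring
  have ll := Real.log_nonneg l1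
  refine h.trans (le_trans (Real.exp_le_exp.2 (?_ : _ ≤ Real.log l * (p / 2) + 1)) ?_)
  · rw [lY]
    linarith [mul_le_mul_of_nonneg_right hω ll, mul_nonneg hp.le ll]
  · rw [Real.exp_add, ← Real.rpow_def_of_pos (by linarith)]
    exact mul_le_mul_of_nonneg_left (Real.exp_one_lt_d9.le.trans (by norm_num)) (by positivity)

theorem sqrt_bd (i : ℕ) : 1 ≤ Real.sqrt ((i : ℝ) + 1) ∧ Real.sqrt ((i : ℝ) + 1) ≤ i + 1 := by
  have h : (1 : ℝ) ≤ i + 1 := le_add_of_nonneg_left (Nat.cast_nonneg i)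
  exact ⟨Real.one_le_sqrt.2 h, Real.sqrt_le_iff.2 ⟨by linarith, by nlinarith⟩⟩

theorem exp_res {η Pm : ℝ} (i : ℕ) :
    Real.exp (-(η * Real.sqrt ((i : ℝ) + 1)) ^ 2 / (16 * Pm)) =
      Real.exp (-η ^ 2 / (16 * Pm)) ^ (i + 1) := by
  rw [← Real.exp_nat_mul, mul_pow, Real.sq_sqrt (by positivity)]
  congr 1
  push_cast
  ring

/-- the defect at the resolution number `i` -/
theorem defect {ω η x a b : ℝ} {i : ℕ} (ω0 : 0 < ω) (ω1 : ω ≤ 1 / 16) (η0 : 0 < η) (η1 : η ≤ 1)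
    (x0 : 0 ≤ x) (hx : 256 * x ≤ η ^ 3) (a0 : 0 ≤ a) (b0 : 0 ≤ b) (h : b + 1 ≤ 2 ^ i * (a + 1)) :
    4000 * (η * Real.sqrt ((i : ℝ) + 1)) / ω * (a + 1) +
        128 * (2 * x ^ (i + 1)) / (η * Real.sqrt ((i : ℝ) + 1)) ^ 2 * (b + 1) ≤
      5000 * η / ω * (i + 1) * (a + 1) := by
  obtain ⟨s1, s2⟩ := sqrt_bd i
  have i1 : (1 : ℝ) ≤ i + 1 := s1.trans s2
  have x1 : 2 * x ≤ 1 := by linarith [pow_le_one₀ (n := 3) η0.le η1]
  have h1 : 4000 * (η * Real.sqrt ((i : ℝ) + 1)) / ω * (a + 1) ≤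
      4000 * (η * (i + 1)) / ω * (a + 1) := by gcongr
  have h2 : 128 * (2 * x ^ (i + 1)) / (η * Real.sqrt ((i : ℝ) + 1)) ^ 2 * (b + 1) ≤
      η * (a + 1) :=
    calc _ ≤ 128 * (2 * x ^ (i + 1)) / (η * 1) ^ 2 * (2 ^ i * (a + 1)) := by gcongr
      _ = 256 * x * (2 * x) ^ i / η ^ 2 * (a + 1) := by ring
      _ ≤ η ^ 3 * 1 / η ^ 2 * (a + 1) := by
          gcongr
          exact pow_le_one₀ (by linarith) x1
      _ = η * (a + 1) := by field_simp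
  have h3 : η * (a + 1) ≤ 1000 * (η * (i + 1)) / ω * (a + 1) := by
    refine mul_le_mul_of_nonneg_right ?_ (by linarith)
    rw [le_div_iff₀ ω0]
    nlinarith
  calc _ ≤ 4000 * (η * (i + 1)) / ω * (a + 1) + 1000 * (η * (i + 1)) / ω * (a + 1) := by linarith
    _ = _ := by ring

end GeoE

open GeoE in
theorem geoE_proof (hP : B.ProjStmt) (hL : LevStmt) (hD : DecEStmt) (hR : RPStmt) (hM : MeanStmt)
    (hV : VMeanStmt) (hT : TypEStmt) (h1 : G1Stmt) (h2 : G2EStmt) (hPr : ProfEStmt)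
    (hMe : MetricCStmt) : GeoEStmt := by
  intro p hp
  obtain ⟨C, hC, pr⟩ := hPr
  refine ⟨min (1 / 16) (min (1 / (160 * C)) (p / (400000 * C))), by positivity,
    fun ω ω0 hω => ?_⟩
  simp only [le_min_iff] at hω
  obtain ⟨ω1, ω2, ω3⟩ := hω
  rw [le_div_iff₀ (by positivity)] at ω2 ω3
  obtain ⟨l0, hl0⟩ := eventually_atTop.1
    ((Real.tendsto_log_atTop.eventually_ge_atTop (max (10 ^ 10 * C / ω ^ 9) 2)).and
      (((tendsto_rpow_atTop (half_pos hp)).eventually_ge_atTop 9).and (eventually_ge_atTop 1)))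
  refine ⟨l0, fun ι B _ _ _ _ M blk s Γ J0 wt l t F K LG cG φ hl rg G => ?_⟩
  obtain ⟨a1, a2, l1⟩ := hl0 l hl
  have l0' : 0 < l := one_pos.trans_le l1
  rw [max_le_iff, div_le_iff₀' (by positivity)] at a1
  obtain ⟨a0, a1⟩ := a1
  have L4 : 4 * Real.log l ≤ t := le_trans (by nlinarith [sq_nonneg (Real.log l - 2)]) rg.1
  have L1' : Real.log l ≤ t := by linarith
  obtain ⟨sys, wle, le, cB, rip1, rip2, low, c1, c1n, lo, K1, L1, c0, hF, hK, hLG, hc, φ0, hφ⟩ := G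
  have t0 : 0 < t := by linarith
  have N := GeoE.num ω0 ω1 hC (a0.trans (mul_le_mul_of_nonneg_left L1' (by positivity))) rg.2 L1'
    sys.one_le_F K1 L1 c0 φ0 hF hK hLG hc hφ
  have eg : ((Fintype.card ι ^ 8 : ℕ) : ℝ) = cd ι ^ 8 := Nat.cast_pow _ _
  have n0 : 0 < cd ι := one_pos.trans ((Real.log_pos_iff (Nat.cast_nonneg _)).1 (l0'.trans_eq le))
  have en : Real.exp l = cd ι := by rw [le, Real.exp_log n0]
  have ne : Nonempty ι := Fintype.card_pos_iff.1 (Nat.cast_pos.1 n0)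
  have g1 : 1 ≤ Fintype.card ι ^ 8 := Nat.one_le_pow _ _ Fintype.card_pos
  have Q := GeoE.numN ω0 t0 N.l1 en N.tl N.m1 N.m2
  have η0 : 0 < 1 / (l * t) := by positivity
  have η1 : 1 / (l * t) ≤ ω / 8 := by simpa only [mul_one] using N.et 1 (by linarith)
  have ok : (⟨ω, 1 / (l * t)⟩ : Wn).Ok :=
    ⟨ω0, ω1.trans (by norm_num), η0, η1.trans (by show ω / 8 ≤ ω / 4; linarith)⟩
  have δ0 : 0 < ω ^ 5 := by positivity
  have δ1 : ω ^ 5 ≤ 1 / 4 := (pow_le_pow_left₀ ω0.le ω1 5).trans (by norm_num)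
  have Pm0 : 0 < 1 / (l ^ 2 * t ^ 9) := by positivity
  have Le0 : 0 ≤ 30 * l := by positivity
  have F0 : 0 ≤ F := zero_le_one.trans sys.one_le_F
  obtain ⟨⟨Sp, hSp⟩, -⟩ := hP.1 ι (Kt M) (tc s)
  have lev := fun i => ((hL ι B M blk s Γ J0 wt _ _ _ _ sys).2.2.2.2.2.2.2 Sp cG hSp c0 low i).trans
    N.pm1
  obtain ⟨k, k1, k2, k3, k4⟩ := ex_k en l1
  obtain ⟨q, q1, q2, -, q4⟩ := ex_k (Real.exp_log l0') (show 1 ≤ Real.log l by linarith)
  have Υ := N.d1 q (Nat.cast_nonneg _) (q4.trans L4)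
  have dec := hD ι B M blk s Γ J0 wt _ _ _ _ K LG _ _ (ω ^ 5) _ k q sys wle rip2 c1 c1n K1 L1
    (by positivity) δ0 δ1 k1
    (le_trans (by rw [sq]; exact mul_le_mul_of_nonneg_right (by linarith [N.F2, Q.k1]) n0.le) k2) q1
    (le_trans (by linarith [N.F2]) q2)
    (le_trans (le_div_self (by positivity) δ0 (δ1.trans (by norm_num))) Υ)
    ((mul_le_mul_of_nonneg_left k3 (by positivity)).trans (Q.k2.trans_eq eg.symm))
    (N.d2 k q (Nat.cast_nonneg _) k4 (Nat.cast_nonneg _) (q4.trans L4))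
  have rp := hR ι B M blk s Γ J0 wt _ _ _ _ K _ cG _ (1 / (l ^ 4) ^ 15) sys rip1 low lo K1
    (le_add_of_nonneg_left l0'.le) c0 (by positivity) (by positivity) N.r1 N.r2
  obtain ⟨bm, c, hc⟩ := hT ι B M blk s Sp _ (1 / (l * t)) (30 * l) _ (1 / cd ι ^ 18)
    (Fintype.card ι ^ 8) k ok ω1 η0
    ((N.et _ (le_trans (Real.sqrt_le_iff.2 ⟨Nat.cast_nonneg _, by
      exact_mod_cast Nat.le_self_pow two_ne_zero k⟩) k4)).trans (by linarith))
    Pm0 Le0 hSp sys.zero sys.ne lev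
    ((sum_le_card_nsmul _ _ _ fun J _ => eg ▸ term en l0'.le (le_trans (by norm_num) Q.n1)
      (sys.dim_pos J)).trans ((nsmul_eq_mul _ _).trans_le
        ((mul_le_mul_of_nonneg_right cB (by positivity)).trans Q.x1))) Q.x2
  have t1 := h1 ι B M blk s Γ J0 wt Sp c ⟨ω, 1 / (l * t)⟩ _ _ _ _ (ω / 10) (30 * l) _ _ _ sys dec
    hSp ω0 ω1 (by positivity) (by show ω / 10 ≤ ω / 2; linarith) Le0 δ0 le_rfl g1
    (eg ▸ Q.g1) ((mul_le_mul_of_nonneg_left Υ (by positivity)).trans N.g1)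
  have Z1 : ∀ a ≤ 128, (l ^ 4) ^ a ≤ (l ^ 4) ^ 128 := fun a ha =>
    pow_le_pow_right₀ (le_trans (by norm_num) N.Y1) ha
  have Z2 := (pow_one _).symm.trans_le (Z1 1 (by norm_num))
  have ε0 : 0 < 5000 * (1 / (l * t)) / ω := by positivity
  obtain ⟨ψ, Λ, bern, b1, b2, b3⟩ := pr (cd ι) (160 * ω) (5000 * (1 / (l * t)) / ω) ((l ^ 4) ^ 128)
    (le_trans (by norm_num) Q.n1) (by positivity) (le_of_eq_of_le (by ring) ω2) ε0
    (le_trans (mul_le_mul_of_nonneg_left (le_mul_of_one_le_right ε0.le l1)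
      (zero_le_one.trans hC)) N.p1) ((le_trans (by norm_num) N.Y1).trans Z2) (N.p2.trans Z2)
  have u0 : ∀ u, GoodE ⟨ω, 1 / (l * t)⟩ (1 / (l * t)) (30 * l) k blk s Sp (Fintype.card ι ^ 8) u →
      ∀ i, |u i| ≤ 1 / 2 + ω + ω / 8 := fun u hu i =>
    (hu.1.1 i).trans (by show 1 / 2 + ω + ω / 10 ≤ _; linarith)
  have u1 := fun u hu i => (u0 u hu i).trans (show _ ≤ (1 : ℝ) by linarith)
  obtain ⟨dd, hd⟩ := hMe ι (Kt M) (tc s) Sp c _ _ ψ Λ (1 / cd ι ^ 15) hSp sys.unit ok u1 bern b1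
    (tri (G := fun x => GoodE _ _ _ k blk s Sp _ (vv (tc s) Sp c x)) rr_symm
      fun x x' x'' g g' g'' h => b3 _ _ _ (rr_nonneg ..) h (rr_le (u1 _ g') (u1 _ g''))
        (rr_nonneg ..) (t1 x x' x'' g.1 g'.1 g''.1) fun i hi hb h' => by
          have ik : i < k := (pow_lt_pow_iff_right₀ (one_lt_two (α := ℝ))).1
            (lt_of_lt_of_le (hi.trans_lt (by nlinarith [Q.n1])) k2)
          obtain ⟨s1, s2⟩ := sqrt_bd i
          have e1 : 1 / (l * t) ≤ 1 / (l * t) * Real.sqrt ((i : ℝ) + 1) :=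
            le_mul_of_one_le_right η0.le s1
          have e0 := η0.trans_le e1
          have e2 : 1 / (l * t) * Real.sqrt ((i : ℝ) + 1) ≤ ω / 8 :=
            N.et _ (s2.trans (le_trans (by exact_mod_cast ik) k4))
          have e3 := N.pm2.trans (pow_le_pow_left₀ η0.le e1 2)
          have x0 := (Real.exp_pos (-(1 / (l * t)) ^ 2 / (16 * (1 / (l ^ 2 * t ^ 9))))).le
          have η2 : 1 / (l * t) ≤ 1 := by linarith
          have η3 : (1 / (l * t)) ^ 3 ≤ 1 / (l * t) := pow_le_of_le_one η0.le η2 (by norm_num)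
          have mean := hM.2 ι B M s Sp _ _ _ ok e0 (by linarith) e1 hSp Pm0 (by linarith) lev (by
            rw [exp_res]
            have := pow_le_of_le_one x0 (by linarith [N.xx]) (Nat.add_one_ne_zero i)
            linarith [N.xx])
          have vok := hV ι B M s Sp _ _ _ ok e0 hSp Pm0 lev
          rw [exp_res] at vok
          have t2 := h2 ι B M blk s Γ J0 wt Sp c ⟨ω, 1 / (l * t)⟩ _ _ _ _ _ _ (30 * l) _ _ _ _ sys dec
            (rp_mono rp (le_trans ((mul_div_assoc _ _ _).trans_le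
              (mul_le_mul_of_nonneg_left N.pm1 (by norm_num))) e3) N.r3) hSp mean vok ω0 ω1 e0 e2
            (by positivity) Le0 δ0.le δ1 g1 (eg ▸ Q.g2) N.Y1 N.Y2 (by linarith [N.g2]) N.Y3
            (((one_div_le e0 (by positivity)).2 e1).trans N.Y4)
            x x' x'' (fun j => ⟨u0 _ g j, u0 _ g' j, u0 _ g'' j⟩) (g.2 ⟨i, ik⟩) (g'.2 ⟨i, ik⟩)
            (g''.2 ⟨i, ik⟩) h h'
          have r0 := rr_nonneg (S := tc s) (Sp := Sp) (c := c) x x'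
          have r1 := rr_nonneg (S := tc s) (Sp := Sp) (c := c) x' x''
          have df := defect ω0 ω1 η0 η2 x0 N.xx r0 r1 hb
          have zz := mul_le_mul_of_nonneg_right (mul_le_mul_of_nonneg_right
            (Z1 11 (by norm_num)) (show 0 ≤ rr (tc s) Sp c x' x'' + 1 by positivity))
            (show 0 ≤ ((rr (tc s) Sp c x' x'' + 1) / cd ι) ^ (1 / 32 : ℝ) by positivity)
          linarith)
    (by positivity) Q.pb1 bm (hc.trans (Q.pb2 k k4))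
  refine ⟨c, dd, metric_mono hd ?_⟩
  rw [← le] at b2
  have s3 := GeoE.lam_le hp ω3 l1 N.p1 b2
  have lp : l ^ p = l ^ (p / 2) * l ^ (p / 2) := by rw [← Real.rpow_add l0', add_halves]
  calc _ ≤ l ^ (p / 2) * 3 * (3 * cd ι) := mul_le_mul s3 Q.sq (by positivity) (by positivity)
    _ = l ^ (p / 2) * 9 * cd ι := by ring
    _ ≤ _ := by rw [lp]; gcongr

end Vale.Agent.P318.E
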