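import Vale.Agent.P318.E.Stmt
import Vale.Agent.P318.C.InstC

/-!
Track E: the instance and the final bound.
-/

namespace Vale.Agent.P318.E

open Finset Filter Real
open B (cd Kt tc)
open C C.InstC

namespace InstE

theorem ev_log {q : ℝ} (hq : 0 < q) : ∀ᶠ l : ℝ in atTop, log l ^ 3 ≤ l ^ q := by
  filter_upwards [(isLittleO_log_rpow_rpow_atTop 3 hq).eventuallyLE, eventually_ge_atTop 1]
    with l h h1
  rw [norm_of_nonneg (rpow_nonneg (log_nonneg h1) _), norm_of_nonneg (by positivity)] at h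
  exact_mod_cast h

end InstE

theorem instE_proof (hE : ExistEStmt) (hI : IsoEStmt) (hG : GeoEStmt) (hM : ModelStmt) :
    InstEStmt := by
  intro ε hε
  obtain ⟨c0, C1, hc, hC, l0, hE⟩ := hE
  obtain ⟨ω1, o1, hI⟩ := hI c0 C1 hc hC
  obtain ⟨ω2, o2, hG⟩ := hG (ε / 2) (by positivity)
  obtain ⟨ω, o0, a1, a2, a3⟩ : ∃ ω : ℝ, 0 < ω ∧ ω ≤ ω1 ∧ ω ≤ ω2 ∧ ω ≤ 1 / 8 :=
    ⟨min ω1 (min ω2 (1 / 8)), by positivity, min_le_left _ _,
      (min_le_right _ _).trans (min_le_left _ _), (min_le_right _ _).trans (min_le_right _ _)⟩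
  obtain ⟨q, q0, q1, q2⟩ : ∃ q : ℝ, 0 < q ∧ q ≤ 1 / 100 ∧ q ≤ ε / 30 :=
    ⟨min (1 / 100) (ε / 30), by positivity, min_le_left _ _, min_le_right _ _⟩
  obtain ⟨l1, hI⟩ := hI ω o0 a1
  obtain ⟨l2, hG⟩ := hG ω o0 a2
  obtain ⟨n1, hn⟩ := eventually_atTop.1 ((tendsto_log.eventually_ge_atTop l0).and
    ((eventually_ge_atTop 200).and
    ((tendsto_log.eventually_ge_atTop l1).and ((tendsto_log.eventually_ge_atTop l2).and
      ((tendsto_log.eventually_ge_atTop 2).and ((tendsto_log.eventually_ge_atTop (4 / ω)).and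
        (tendsto_log.eventually (InstE.ev_log q0))))))))
  refine ⟨1 / 10240000, by norm_num, n1, fun n h N hN => ?_⟩
  obtain ⟨b0, b1, b2, b3, b4, b5, b6⟩ := hn n h
  have p0 : (0 : ℝ) < n := by positivity
  have p1 : 0 < log n := by linarith
  have p2 : ∀ {a b : ℝ}, a ≤ b → log n ^ a ≤ log n ^ b := rpow_le_rpow_of_exponent_le (by linarith)
  have p3 : ∀ m : ℕ, (log n ^ q) ^ m = log n ^ (q * m) := fun m => (rpow_mul_natCast p1.le _ _).symm
  have p4 : 1 ≤ log n ^ q := one_le_rpow (by linarith) q0.le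
  have rg : Rg (log n) (log n ^ q) :=
    ⟨b6, (p3 100).trans_le ((p2 (b := 1) (by push_cast; linarith)).trans_eq (rpow_one _))⟩
  obtain ⟨B, A, _, _, _, _, M, blk, s, Γ, Γ', J0, wt, F, K, LG, cG, φ, P, sc, Kn, e, Γt, sh, C1t,
    C2t, g, i⟩ := hE n _ b0 rg
  obtain ⟨c, dd, md⟩ := hG _ B M blk s Γ J0 wt _ _ F K LG cG φ b3 rg g
  have hI := hI _ B A M blk s Γ' P sc Kn e Γt _ _ sh C1t C2t b2 rg i c
  have k1 := card_le g.sys
  have k2 := g.sys.row
  have k3 := g.phi_le
  have cn : cd (Fin n) = n := by simp [cd]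
  rw [cn] at md hI k1 k2
  refine le_trans ?_ (hM _ _ (tc s) c dd (n ^ 2) _ _ _ _ ⟨o0, a3, by positivity, ?_⟩
    (by positivity) (by positivity) (by positivity) (Nat.one_le_pow _ _ (by omega))
    (by simpa using k2) md hI N ?_)
  · have r1 : log n * √(log n) * (log n ^ q) ^ 15 * log n ^ (ε / 2) ≤ log n ^ (3 / 2 + ε) := by
      rw [p3, sqrt_eq_rpow, ← rpow_one_add' p1.le (by norm_num), ← rpow_add p1, ← rpow_add p1]
      exact p2 (by push_cast; linarith)
    refine le_trans (div_le_div_of_nonneg_left (by positivity) (by positivity) r1) (le_of_eq ?_)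
    have r2 : √(n : ℝ) ≠ 0 := by positivity
    field_simp
    norm_num
  · rw [div_le_iff₀ o0] at b5
    rw [div_le_div_iff₀ (by positivity) four_pos]
    nlinarith [mul_le_mul_of_nonneg_left p4 (mul_pos o0 p1).le]
  · rw [Fintype.card_fin]
    refine Nat.cast_le.1 ((size b1 ?_).trans hN)
    have k4 := k1.trans (mul_le_mul_of_nonneg_left k3 p0.le)
    rw [mul_one_div, le_div_iff₀ (by positivity)] at k4
    refine le_trans ?_ k4
    rw [mul_comm]
    refine mul_le_mul_of_nonneg_left ?_ (Nat.cast_nonneg _)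
    nlinarith [mul_le_mul_of_nonneg_left (one_le_pow₀ p4 (n := 10)) (sq_nonneg (log n))]

theorem finalE_proof (h : InstEStmt) : FinalEStmt := by
  intro ε hε
  obtain ⟨c, hc, n0, h⟩ := h ε hε
  obtain ⟨N0, hN⟩ := eventually_atTop.1 ((eventually_gt_atTop 0).and
    ((tendsto_log.eventually_ge_atTop (3 * n0)).and (tendsto_log.eventually_ge_atTop 6)))
  refine ⟨c / 3, by positivity, N0, fun N a => ?_⟩
  obtain ⟨a1, a2, a3⟩ := hN N a
  have f1 : (⌊log N / 3⌋₊ : ℝ) ≤ log N / 3 := Nat.floor_le (by positivity)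
  have f2 := Nat.lt_floor_add_one (log N / 3)
  have f3 : n0 ≤ ⌊log N / 3⌋₊ := Nat.le_floor (by linarith)
  set n := ⌊log N / 3⌋₊
  refine le_trans ?_ (h n f3 N ?_)
  · have p : 0 < log n := log_pos (by linarith)
    have q : √(log N) ≤ 3 * √n := by
      rw [← sqrt_sq zero_le_three, ← sqrt_mul (by positivity)]
      exact sqrt_le_sqrt (by linarith)
    refine div_le_div₀ (by positivity) (by nlinarith) (by positivity) ?_
    exact rpow_le_rpow p.le (log_le_log (by linarith) (by linarith)) (by positivity)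
  · rw [← exp_log (Nat.cast_pos.2 a1), exp_le_exp]
    linarith

end Vale.Agent.P318.E
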