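import Vale.Agent.P318.E.Stmt
import Vale.Agent.P318.C.IsoC

/-!
Track E: the isoperimetric inequality with numbers.
-/

namespace Vale.Agent.P318.E

open Finset MeasureTheory Filter
open M (U01 tm Dual Lat lin Inv Ksh Eb)
open B (cd Kt tc)
open C

namespace IsoE

lemma ev_t : ∃ t0 : ℝ, ∀ t, t0 ≤ t → 200 * t ^ 2 * Real.exp (-t) ≤ 1 := by
  have h := Real.tendsto_pow_mul_exp_neg_atTop_nhds_zero 2
  refine eventually_atTop.1 ?_
  filter_upwards [h.eventually (gt_mem_nhds (show (0 : ℝ) < 1 / 200 by norm_num))] with l hl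
  linarith

/-- The error term of a block. -/
lemma blk_err {l t J n : ℝ} {k : ℕ} (hl : 1 ≤ l) (htl : t ≤ l) (hJ : 0 ≤ J)
    (hn : Real.exp l = n) (hb : n ≤ l * 4 ^ k * J) :
    Real.sqrt (J / (1 / (l * t))) * Real.exp (-(k + 6 * Real.log l)) + J * Real.exp (-(2 * l)) ≤
      2 * (Real.sqrt n / l ^ 3 * J / n) := by
  have hl0 : 0 < l := by linarith
  have hn0 : 0 < n := hn ▸ Real.exp_pos l
  obtain ⟨s, hs0, rfl⟩ : ∃ s : ℝ, 0 < s ∧ n = s ^ 2 :=
    ⟨_, Real.sqrt_pos.2 hn0, (Real.sq_sqrt hn0.le).symm⟩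
  obtain ⟨a, ha0, rfl⟩ : ∃ a : ℝ, 0 ≤ a ∧ J = a ^ 2 :=
    ⟨_, Real.sqrt_nonneg J, (Real.sq_sqrt hJ).symm⟩
  have e0 : Real.sqrt (s ^ 2) / l ^ 3 * a ^ 2 / s ^ 2 = a ^ 2 / (l ^ 3 * s) := by
    rw [Real.sqrt_sq hs0.le]; field_simp
  have h1 : Real.sqrt (a ^ 2 / (1 / (l * t))) ≤ a * l := by
    rw [Real.sqrt_le_left (by positivity), div_div_eq_mul_div, div_one, mul_pow, sq l]
    gcongr
  have h2 : s ≤ l * 2 ^ k * a := by
    refine (pow_le_pow_iff_left₀ hs0.le (by positivity) two_ne_zero).1 (hb.trans ?_)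
    rw [mul_pow, mul_pow, ← pow_mul, mul_comm k, pow_mul, show (2 : ℝ) ^ 2 = 4 by norm_num]
    gcongr
    exact le_self_pow₀ hl two_ne_zero
  have h3 : Real.exp (-(k + 6 * Real.log l)) = Real.exp (-k) / l ^ 6 := by
    rw [neg_add, Real.exp_add, Real.exp_neg (6 * _), div_eq_mul_inv,
      show (6 : ℝ) = (6 : ℕ) by norm_num, Real.exp_nat_mul, Real.exp_log hl0]
  have h4 : Real.exp (-k) * 2 ^ k ≤ 1 := by
    rw [Real.exp_neg, inv_mul_le_iff₀ (Real.exp_pos _), mul_one, ← mul_one (k : ℝ),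
      Real.exp_nat_mul]
    gcongr
    linarith [Real.add_one_le_exp (1 : ℝ)]
  have h5 : l ≤ s := by
    have a := Real.quadratic_le_exp_of_nonneg (x := l / 2) (by positivity)
    have b : Real.exp (l / 2) = s := by
      refine (pow_left_inj₀ (Real.exp_pos _).le hs0.le two_ne_zero).1 ?_
      rw [← hn, ← Real.exp_nat_mul]
      congr 1
      push_cast; ring
    nlinarith [sq_nonneg (l - 2)]
  have h6 : Real.exp (-(2 * l)) = 1 / s ^ 4 := by
    rw [Real.exp_neg, show (2 : ℝ) = (2 : ℕ) by norm_num, Real.exp_nat_mul, hn, ← pow_mul, one_div]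
  have t1 : a * l * (Real.exp (-k) / l ^ 6) ≤ a ^ 2 / (l ^ 3 * s) := by
    rw [le_div_iff₀ (by positivity)]
    calc a * l * (Real.exp (-k) / l ^ 6) * (l ^ 3 * s)
        ≤ a * l * (Real.exp (-k) / l ^ 6) * (l ^ 3 * (l * 2 ^ k * a)) := by gcongr
      _ = a ^ 2 * (Real.exp (-k) * 2 ^ k) / l := by field_simp
      _ ≤ a ^ 2 * 1 / 1 := by gcongr
      _ = a ^ 2 := by ring
  have t2 : a ^ 2 * (1 / s ^ 4) ≤ a ^ 2 / (l ^ 3 * s) := by
    rw [mul_one_div, show s ^ 4 = s ^ 3 * s by ring]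
    gcongr
  rw [e0, h3, h6]
  have := mul_le_mul_of_nonneg_right h1 (show 0 ≤ Real.exp (-k) / l ^ 6 by positivity)
  linarith

/-- The final numerical inequality. -/
lemma last {C CP F G t Z q r S S' P I Y : ℝ} (hC : 1 ≤ C) (hCP : 0 < CP) (hF1 : 1 ≤ F)
    (hG : 1 ≤ G) (ht : 1 ≤ t) (hq0 : 0 ≤ q) (hq : q ≤ t) (hZ : 0 ≤ Z) (hr : r ≤ Z * t ^ 10)
    (hP0 : 0 ≤ P) (hSP : S + P ≤ Z * t ^ 12) (hI : 0 ≤ I) (hY : 0 ≤ Y)
    (hS' : S' ≤ C * F * G * S) (h1 : 4 * CP * (C * F ^ 2 * G) ≤ t ^ 2) (h2 : 2 * CP ≤ t)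
    (h3 : Z * t ^ 15 * Y ≤ 1 / 50) :
    CP * ((1 + F * q) * ((S' + P) * (I + Y)) + r * I) ≤ Z * t ^ 15 * I + 1 / 100 := by
  have a1 : 1 + F * q ≤ 2 * F * t := by
    have a : F * q ≤ F * t := by gcongr
    have b : 1 ≤ F * t := one_le_mul_of_one_le_of_one_le hF1 ht
    linarith
  have hT : 1 ≤ C * F * G :=
    one_le_mul_of_one_le_of_one_le (one_le_mul_of_one_le_of_one_le hC hF1) hG
  have a2 : S' + P ≤ C * F * G * (Z * t ^ 12) := by
    have a : P ≤ C * F * G * P := le_mul_of_one_le_left hP0 hT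
    calc S' + P ≤ C * F * G * (S + P) := by linarith
      _ ≤ _ := by gcongr
  have a3 : CP * ((1 + F * q) * ((S' + P) * (I + Y))) ≤ Z * t ^ 15 / 2 * (I + Y) :=
    calc CP * ((1 + F * q) * ((S' + P) * (I + Y)))
        ≤ CP * ((1 + F * q) * (C * F * G * (Z * t ^ 12) * (I + Y))) := by gcongr
      _ ≤ CP * (2 * F * t * (C * F * G * (Z * t ^ 12) * (I + Y))) := by gcongr
      _ = 4 * CP * (C * F ^ 2 * G) * (Z * t ^ 13 / 2 * (I + Y)) := by ring
      _ ≤ t ^ 2 * (Z * t ^ 13 / 2 * (I + Y)) := by gcongr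
      _ = _ := by ring
  have a4 : CP * (r * I) ≤ Z * t ^ 15 / 2 * I :=
    calc CP * (r * I) ≤ CP * (Z * t ^ 10 * I) := by gcongr
      _ = 2 * CP * (Z * t ^ 10 / 2 * I) := by ring
      _ ≤ t ^ 5 * (Z * t ^ 10 / 2 * I) := by
          gcongr
          exact h2.trans (le_self_pow₀ ht (by norm_num))
      _ = _ := by ring
  nlinarith

end IsoE

open IsoE IsoC in
theorem isoE_proof (hW : WinStmt) (hB : BlockEStmt) (hP : Poin3Stmt) : IsoEStmt := by
  intro c0 C1 hc0 hC1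
  obtain ⟨ω0, hω0, hB⟩ := hB c0 hc0
  refine ⟨min ω0 (1 / 8), by positivity, fun ω hω hωle => ?_⟩
  obtain ⟨C, hC, hB⟩ := hB ω C1 hω (hωle.trans (min_le_left _ _)) hC1
  have hω8 : ω ≤ 1 / 8 := hωle.trans (min_le_right _ _)
  obtain ⟨CP, hCP, hP⟩ := hP
  obtain ⟨t0, ht0⟩ := ev_t
  have hu := Real.tendsto_log_atTop
  have hev := (hu.eventually_ge_atTop t0).and ((hu.eventually_ge_atTop (4 / ω)).and
    ((hu.eventually_ge_atTop (6 * C * (24 / ω) ^ 2)).and ((hu.eventually_ge_atTop 50).and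
    ((hu.eventually_ge_atTop (28 * CP * C * (24 / ω) ^ 2)).and
    ((hu.eventually_ge_atTop (2 * CP)).and (eventually_ge_atTop (1 : ℝ)))))))
  obtain ⟨l0, hl0⟩ := eventually_atTop.1 hev
  refine ⟨l0, ?_⟩
  intro ι B A _ _ _ _ _ _ M blk s Γ P sc Kn e Γt l t sh C1t C2t hl hR H c f hf hI
  obtain ⟨ha, hb, hc, hd, hg, hh, hl1⟩ := hl0 l hl
  obtain ⟨hR1, hR2⟩ := hR
  have hl0' : 0 < l := by linarith
  set u : ℝ := Real.log l with hu_def
  have hut : u ≤ t := (le_self_pow₀ (by linarith) (by norm_num)).trans hR1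
  have ht1 : 1 ≤ t := by linarith
  have ht0' : 0 < t := by linarith
  have htl : t ≤ l := (le_self_pow₀ ht1 (by norm_num)).trans hR2
  set w : Wn := ⟨ω, 1 / (l * t)⟩ with hw
  have hok : w.Ok := ⟨hω, hω8, by simp only [hw]; positivity, by
    have a : 4 / ω ≤ l * t := (hb.trans hut).trans (le_mul_of_one_le_left ht0'.le hl1)
    calc 1 / (l * t) ≤ 1 / (4 / ω) := one_div_le_one_div_of_le (by positivity) a
      _ = ω / 4 := by field_simp⟩
  have hWw := hW w hok
  have hF1 : 1 ≤ Fi w := hWw.Fi_ge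
  have hFu : Fi w ≤ 24 / ω * u := by
    refine hWw.Fi_le.trans ?_
    have e1 : w.om / w.et ≤ l ^ 2 := by
      simp only [hw]
      rw [div_div_eq_mul_div, div_one]
      calc ω * (l * t) ≤ 1 * (l * l) := by gcongr; linarith
        _ = l ^ 2 := by ring
    have e2 : Real.log (w.om / w.et) ≤ 2 * u := by
      refine (Real.log_le_log (div_pos hok.1 hok.2.2.1) e1).trans_eq ?_
      rw [Real.log_pow, Nat.cast_ofNat]
    calc 8 / w.om * (1 + Real.log (w.om / w.et)) ≤ 8 / ω * (3 * u) := by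
          have : w.om = ω := rfl
          rw [this] at e2 ⊢
          gcongr
          linarith
      _ = _ := by ring
  have hF2 : C * Fi w ^ 2 ≤ C * (24 / ω) ^ 2 * u ^ 2 := by
    rw [mul_assoc, ← mul_pow]
    gcongr
  have hn1 : 1 < cd ι := by
    by_contra hh
    have : Real.log (cd ι) ≤ 0 :=
      Real.log_nonpos (by unfold cd; positivity) (not_lt.1 hh)
    linarith [H.l_eq]
  have hn0 : 0 < cd ι := by linarith
  have hexp : Real.exp l = cd ι := by rw [H.l_eq, Real.exp_log hn0]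
  have hL1 : 1 ≤ C * Fi w ^ 2 := one_le_mul_of_one_le_of_one_le hC (one_le_pow₀ hF1)
  have hLX : 6 * (C * Fi w ^ 2) ≤ t :=
    calc 6 * (C * Fi w ^ 2) ≤ 6 * C * (24 / ω) ^ 2 * u ^ 2 := by linarith
      _ ≤ u * u ^ 2 := by gcongr
      _ ≤ t := by linarith
  have hU : U01 f := fun x => by rcases hf x with h | h <;> simp [h]
  have het : 0 ≤ w.et := hok.2.2.1.le
  have hsn : 0 < Real.sqrt (cd ι) := Real.sqrt_pos.2 hn0
  have hlk : ∀ k : ℕ, 4 ≤ (k : ℝ) + 6 * u := fun k => by linarith [k.cast_nonneg (α := ℝ)]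
  have key := hP ι B A M blk s Γ P sc Kn Γt c f w
    (fun k => C * Fi w * (Real.sqrt (k + 6 * u) + 2 * l * w.et) * e k) (C * Fi w ^ 2)
    (1 / t) t (Real.sqrt (cd ι) / l ^ 3) sh C1t C2t hok
    (fun k => by have := H.e_nonneg k; positivity) (by positivity) hL1 (by positivity)
    (by rw [div_mul_eq_mul_div, one_mul, div_le_iff₀ ht0']; linarith) (by linarith)
    (by
      refine le_trans ?_ (ht0 t (ha.trans hut))
      have a : C * Fi w ^ 2 ≤ t := by linarith
      calc 200 * (C * Fi w ^ 2) * t * Real.exp (-t) ≤ 200 * t * t * Real.exp (-t) := by gcongr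
        _ = _ := by ring)
    H.one_le H.coll H.zero H.part
    (fun a i hk => by
      have hb' := H.block a i hk
      have : Nonempty (Fin (M (P a i))) := ⟨⟨0, H.dim_pos _⟩⟩
      have he := H.e_nonneg (sc a)
      refine blockAt_mono (hB w hok rfl ι (Fin (M (P a i))) (Γ (P a i)) (blk (P a i)) (s (P a i))
        (e (sc a)) (sc a + 6 * u) (2 * l) hb'.lat hb'.dual (H.t3 _) hb'.norm (H.zero _) hb'.zpat
        hb'.split hb'.ksh he (by linarith [hlk (sc a)]) (by linarith)) ?_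
      have b := blk_err hl1 htl (Nat.cast_nonneg _) hexp (H.big a i hk)
      have d : 2 ≤ Real.sqrt (sc a + 6 * u) + 2 * l * w.et :=
        (Real.le_sqrt_of_sq_le (by linarith [hlk (sc a)])).trans
          (le_add_of_nonneg_right (by positivity))
      calc _ ≤ C * Fi w * (e (sc a) * (2 * (Real.sqrt (cd ι) / l ^ 3 *
            (blk (P a i)).card / cd ι))) := by gcongr
        _ ≤ C * Fi w * (e (sc a) * ((Real.sqrt (sc a + 6 * u) + 2 * l * w.et) *
            (Real.sqrt (cd ι) / l ^ 3 * (blk (P a i)).card / cd ι))) := by gcongr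
        _ = _ := by ring)
    H.sh_pos H.C1t_pos H.C2t_nonneg H.lat H.dual (fun j x => H.t3 x.1 j x.2) H.split hU hI
  have hff : (fun x => f x ^ 2) = f := by
    funext x; rcases hf x with h | h <;> simp [h]
  rw [hff] at key
  have hI0 : 0 ≤ tm fun β => Inf w univ f (c + lin (tc s) β) :=
    integral_nonneg fun β => inf_nonneg hWw _ _ _
  have hfin := last (C := C) (CP := CP) (F := Fi w) (G := 7 * u) (t := t)
    (Z := l * Real.sqrt l / Real.sqrt (cd ι)) (q := C1t / sh) (r := Real.sqrt (C2t / sh))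
    (S := ∑ k ∈ Icc 1 Kn, (1 / 2 : ℝ) ^ k * ((k + 1) * e k)) (P := 1 / 2 ^ Kn)
    (I := tm fun β => Inf w univ f (c + lin (tc s) β)) (Y := Real.sqrt (cd ι) / l ^ 3)
    (S' := ∑ k ∈ Icc 1 Kn, (1 / 2 : ℝ) ^ k *
      (C * Fi w * (Real.sqrt (k + 6 * u) + 2 * l * w.et) * e k))
    hC hCP hF1 (by linarith) ht1 (div_nonneg H.C1t_pos.le H.sh_pos.le)
    (by rw [div_le_iff₀ H.sh_pos]; exact H.C1t_le) (by positivity)
    (by
      have a : C2t / sh ≤ l ^ 3 * t ^ 20 / cd ι := by rw [div_le_iff₀ H.sh_pos]; exact H.C2t_le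
      rw [Real.sqrt_le_left (by positivity)]
      refine a.trans_eq ?_
      rw [mul_pow, div_pow, mul_pow, Real.sq_sqrt hn0.le, Real.sq_sqrt hl0'.le]
      ring)
    (by positivity) (H.e_sum.trans_eq (by ring)) hI0 (by positivity)
    (by
      rw [mul_sum]
      refine sum_le_sum fun k _ => ?_
      have he := H.e_nonneg k
      have hk := k.cast_nonneg (α := ℝ)
      have a : Real.sqrt (k + 6 * u) ≤ k + 6 * u :=
        Real.sqrt_le_iff.2 ⟨by linarith, le_self_pow₀ (by linarith) two_ne_zero⟩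
      have b : l * w.et ≤ 1 := by
        simp only [hw]
        rw [mul_one_div, div_le_one (by positivity)]
        exact le_mul_of_one_le_right hl0'.le ht1
      have d : Real.sqrt (k + 6 * u) + 2 * l * w.et ≤ 7 * u * (k + 1) := by nlinarith
      calc (1 / 2 : ℝ) ^ k * (C * Fi w * (Real.sqrt (k + 6 * u) + 2 * l * w.et) * e k)
          ≤ (1 / 2 : ℝ) ^ k * (C * Fi w * (7 * u * (k + 1)) * e k) := by gcongr
        _ = _ := by ring)
    (by
      calc 4 * CP * (C * Fi w ^ 2 * (7 * u))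
          ≤ 4 * CP * (C * (24 / ω) ^ 2 * u ^ 2 * (7 * u)) := by gcongr
        _ = 28 * CP * C * (24 / ω) ^ 2 * u ^ 3 := by ring
        _ ≤ t * t := mul_le_mul (hg.trans hut) hR1 (by positivity) ht0'.le
        _ = t ^ 2 := by ring) (hh.trans hut)
    (by
      have a : Real.sqrt l ≤ l := Real.sqrt_le_iff.2 ⟨hl0'.le, le_self_pow₀ hl1 two_ne_zero⟩
      have b : 50 * t ^ 15 ≤ l :=
        calc 50 * t ^ 15 ≤ t ^ 85 * t ^ 15 := by
              gcongr
              exact (hd.trans hut).trans (le_self_pow₀ ht1 (by norm_num))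
          _ = t ^ 100 := by ring
          _ ≤ l := hR2
      calc _ = Real.sqrt l * (50 * t ^ 15) / (50 * l ^ 2) := by field_simp
        _ ≤ l * l / (50 * l ^ 2) := by gcongr
        _ = 1 / 50 := by field_simp)
  calc _ = tm (fun β => Ey w f (c + lin (tc s) β)) -
        tm (fun β => Ey w f (c + lin (tc s) β)) ^ 2 := by ring
    _ ≤ _ := key.trans hfin
    _ = _ := by ring

end Vale.Agent.P318.E
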