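import Vale.Agent.P318.E.Stmt
import Vale.Agent.P318.C.LawEx

set_option linter.unusedSectionVars false

/-!
Track E, existence: the law of the rows with the small ball property for several blocks at once.
-/

namespace Vale.Agent.P318.E

open Finset Function
open M (ind ip nsq Dual Lat)
open B (nd cd av Kt tc res Bk bk sb rw GH MinD tl)
open R (FibA rowA syn dualv ang DualFar mass sig)
open C C.LawEx
open scoped BigOperators Real

namespace LawEx2

theorem exists_mult {κ : Type} [Fintype κ] {Γ : AddSubgroup (κ → ℝ)}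
    (hΓ : ∀ γ ∈ Γ, γ ≠ 0 → 1 ≤ nsq γ) {Δ : κ → ℝ}
    {η : ℝ} (h0 : 0 < η) (h1 : η ≤ 1 / 2) (h : ∀ γ ∈ Γ, η ^ 2 ≤ nsq (Δ - γ)) :
    ∃ k : ℕ, k * η ≤ 1 / 2 ∧ ∀ γ ∈ Γ, 1 / 16 ≤ nsq ((k : ℝ) • Δ - γ) := by
  by_cases hc : ∀ γ ∈ Γ, 1 / 16 ≤ nsq (Δ - γ)
  · exact ⟨1, by simpa using h1, by simpa using hc⟩
  push Not at hc
  obtain ⟨γ₀, g1, g2⟩ := hc
  obtain ⟨d, d0, d1⟩ : ∃ d, 0 ≤ d ∧ d ^ 2 = nsq (Δ - γ₀) :=
    ⟨√(nsq (Δ - γ₀)), Real.sqrt_nonneg _, Real.sq_sqrt ((sq_nonneg η).trans (h γ₀ g1))⟩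
  have d2 : η ≤ d := (pow_le_pow_iff_left₀ h0.le d0 two_ne_zero).1 (d1 ▸ h γ₀ g1)
  have d3 : d ≤ 1 / 4 := (pow_le_pow_iff_left₀ d0 (by norm_num) two_ne_zero).1 (by linarith)
  have d4 : 0 < d := h0.trans_le d2
  have k1 : (⌊1 / 2 / d⌋₊ : ℝ) * d ≤ 1 / 2 := (le_div_iff₀ d4).1 (Nat.floor_le (by positivity))
  have k2 : 1 / 4 ≤ (⌊1 / 2 / d⌋₊ : ℝ) * d := by
    linarith [(div_lt_iff₀ d4).1 (Nat.lt_floor_add_one (1 / 2 / d))]
  generalize ⌊1 / 2 / d⌋₊ = k at k1 k2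
  refine ⟨k, (mul_le_mul_of_nonneg_left d2 (Nat.cast_nonneg k)).trans k1, fun γ hγ => ?_⟩
  have e1 : nsq ((k : ℝ) • (Δ - γ₀)) = (k * d) ^ 2 := by
    rw [mul_pow, d1, nsq, nsq, mul_sum]
    exact sum_congr rfl fun j _ => by rw [Pi.smul_apply, smul_eq_mul, mul_pow]
  by_cases hg : γ - k • γ₀ = 0
  · rw [sub_eq_zero.1 hg, ← Nat.cast_smul_eq_nsmul ℝ, ← smul_sub, e1]
    nlinarith
  · have h2 := hΓ _ (Γ.sub_mem hγ (Γ.nsmul_mem g1 k)) hg
    have h3 : nsq (γ - k • γ₀) ≤ 2 * nsq ((k : ℝ) • Δ - γ) + 2 * nsq ((k : ℝ) • (Δ - γ₀)) := by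
      simp only [nsq, mul_sum, ← sum_add_distrib]
      refine sum_le_sum fun j _ => ?_
      simp only [Pi.sub_apply, Pi.smul_apply, smul_eq_mul, nsmul_eq_mul, Pi.mul_apply,
        Pi.natCast_apply]
      nlinarith [sq_nonneg (k * Δ j - γ j + k * (Δ j - γ₀ j))]
    nlinarith [mul_nonneg (Nat.cast_nonneg (α := ℝ) k) d0]

theorem nsq_nonneg {κ : Type} [Fintype κ] (v : κ → ℝ) : 0 ≤ nsq v :=
  sum_nonneg fun _ _ => sq_nonneg _

theorem nsq_kt {B : Type} [Fintype B] {M : B → ℕ} (v : Kt M → ℝ) :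
    nsq v = ∑ J, nsq (res v J) := Fintype.sum_sigma _

/-- a common multiplier for several blocks -/
theorem exists_mult_fam {A : Type} [DecidableEq A] {Mf : A → ℕ}
    {Γ : (a : A) → AddSubgroup (Fin (Mf a) → ℝ)} (hΓ : ∀ a, ∀ γ ∈ Γ a, γ ≠ 0 → 1 ≤ nsq γ)
    {T : Finset A} (hT : T.Nonempty) {Δ : (a : A) → Fin (Mf a) → ℝ} {η : ℝ} (h0 : 0 < η)
    (h1 : T.card * η ^ 2 ≤ 1 / 4) (h : ∀ a ∈ T, ∀ γ ∈ Γ a, η ^ 2 ≤ nsq (Δ a - γ)) :
    ∃ k : ℕ, k * (Real.sqrt T.card * η) ≤ 1 / 2 ∧ ∀ γ : (a : A) → Fin (Mf a) → ℝ,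
      (∀ a, γ a ∈ Γ a) → 1 / 16 ≤ ∑ a ∈ T, nsq ((k : ℝ) • Δ a - γ a) := by
  have hc : (0 : ℝ) < T.card := by exact_mod_cast hT.card_pos
  have e : (Real.sqrt T.card * η) ^ 2 = T.card * η ^ 2 := by rw [mul_pow, Real.sq_sqrt hc.le]
  have hp : 0 < Real.sqrt T.card * η := by positivity
  obtain ⟨k, k1, k2⟩ := exists_mult (Γ := tl (M := fun a : T => Mf a) fun a => Γ a)
    (Δ := fun x => Δ x.1 x.2) (η := Real.sqrt T.card * η) (fun γ hγ hne => by
      obtain ⟨x, hx⟩ := ne_iff.1 hne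
      rw [nsq_kt]
      exact (hΓ _ _ (hγ x.1) (ne_iff.2 ⟨x.2, hx⟩)).trans
        (single_le_sum (f := fun J => nsq (res γ J)) (fun _ _ => nsq_nonneg _) (mem_univ x.1)))
    hp ((pow_le_pow_iff_left₀ hp.le (by norm_num) two_ne_zero).1 (by rw [e]; linarith))
    (fun γ hγ => by
      rw [e, nsq_kt]
      refine le_trans (le_of_eq ?_) (sum_le_sum fun J _ => h J.1 J.2 _ (hγ J))
      simp)
  refine ⟨k, k1, fun γ hγ => ?_⟩
  have := k2 (fun x => γ x.1 x.2) fun J => hγ J.1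
  rw [nsq_kt] at this
  rw [← sum_coe_sort]
  exact this

theorem prod_le {A : Type} (T : Finset A) {F x : A → ℝ} {ε : ℝ} (hε : 0 ≤ ε) (h0 : ∀ a, 0 ≤ F a)
    (h1 : ∀ a, F a ≤ 1) (h2 : ∀ a, 0 ≤ x a) (h3 : ∀ a, x a ≤ 1) (h : ∀ a, F a ≤ x a + ε) :
    ∏ a ∈ T, F a ≤ ∏ a ∈ T, x a + T.card * ε := by
  induction T using Finset.cons_induction with
  | empty => simp
  | cons a s ha ih =>
    rw [prod_cons, prod_cons, card_cons]
    push_cast
    have p0 : 0 ≤ ∏ a ∈ s, F a := prod_nonneg fun a _ => h0 a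
    have p1 : ∏ a ∈ s, F a ≤ 1 := prod_le_one (fun a _ => h0 a) fun a _ => h1 a
    have p2 : (0 : ℝ) ≤ s.card * ε := by positivity
    nlinarith [mul_le_mul_of_nonneg_right (h a) p0, mul_le_mul_of_nonneg_left ih (h2 a),
      mul_le_mul_of_nonneg_left p1 hε, mul_le_mul_of_nonneg_right (h3 a) p2]

theorem cfa {p M r : ℕ} [Fact p.Prime] {H : Fin r → Fin M → ZMod p} (hM : (1000 : ℝ) ≤ M)
    (hp : (p : ℝ) ^ r ≤ Real.exp (M / 100)) (hH : DualFar H) (u : Fin r → ZMod p)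
    (θ : Fin M → ℝ) : ∃ γ ∈ GH H, ‖𝔼 e : FibA H u, ee (ip (rowA e) θ)‖ ≤
      Real.exp (-(4 * nsq (θ - γ))) + 2 * Real.exp (-(M / 20)) := by
  have := R.fibA_nonempty hH u (half hM hp)
  obtain ⟨y0, -, hy0⟩ := exists_min_image univ (sig H fun j => 2 * π * θ j) univ_nonempty
  refine ⟨_, (GH H).neg_mem (B.CharS.mem_GH.2
      ⟨y0, fun k => -round (θ k + B.CharS.hh H y0 k), fun k => rfl⟩), ?_⟩
  set γ : Fin M → ℝ := -fun k => ((-round (θ k + B.CharS.hh H y0 k) : ℤ) : ℝ) + B.CharS.hh H y0 k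
    with hγ
  have h1 := R.fibA_cf hH u (fun j => 2 * π * θ j) (s := 4 * nsq (θ - γ)) fun y => by
    refine le_trans ?_ (hy0 y (mem_univ y))
    simp only [sig, half_cos]
    refine le_trans (le_of_eq ?_)
      (sum_le_sum fun k _ => B.CharS.four_sq_le (θ k + B.CharS.hh H y0 k))
    rw [nsq, mul_sum]
    exact sum_congr rfl fun k _ => by simp [hγ]; ring
  have h2 : (p : ℝ) ^ Fintype.card (Fin r) * Real.exp (-(Fintype.card (Fin M) / 16)) ≤
      Real.exp (-(M / 20)) := small hp (by rw [Fintype.card_fin]; linarith)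
  have h3 : |mass H u - 1| ≤ Real.exp (-(M / 20)) :=
    (R.abs_mass_sub_one hH u).trans (small hp (by rw [Fintype.card_fin]; linarith))
  simp only [← ee_ip] at h1
  have h4 : ‖𝔼 e : FibA H u, ee (ip (rowA e) θ)‖ ≤ 1 := norm_expect_le fun _ => (norm_ee _).le
  nlinarith [(abs_le.1 h3).1, norm_nonneg (𝔼 e : FibA H u, ee (ip (rowA e) θ)),
    Real.exp_pos (-(M / 20 : ℝ))]

theorem expect_upd {A : Type} [Fintype A] [DecidableEq A] {Ω : A → Type} [∀ a, Fintype (Ω a)]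
    [∀ a, Nonempty (Ω a)] (a : A) (f : (∀ a, Ω a) → ℂ) :
    𝔼 u, f u = 𝔼 t : (∀ a, Ω a) × Ω a, f (update t.1 a t.2) := by
  let e : (∀ a, Ω a) × Ω a ≃ (∀ a, Ω a) × Ω a :=
    { toFun := fun p => (update p.1 a p.2, p.1 a)
      invFun := fun p => (update p.1 a p.2, p.1 a)
      left_inv := fun p => by simp
      right_inv := fun p => by simp }
  rw [Fintype.expect_equiv e (fun p => f (update p.1 a p.2)) (fun p => f p.1) fun p => rfl,
    ← univ_product_univ, expect_product]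
  exact expect_congr rfl fun u _ => (expect_const univ_nonempty (f u)).symm

theorem ee_sum {A : Type} (s : Finset A) (f : A → ℝ) : ee (∑ a ∈ s, f a) = ∏ a ∈ s, ee (f a) := by
  induction s using Finset.cons_induction with
  | empty => simp [ee]
  | cons a s ha ih => rw [sum_cons, prod_cons, ee_add, ih]

theorem msb {ι A : Type} [Fintype A] [DecidableEq A] {m Mf : A → ℕ} {p : ℕ} [Fact p.Prime] {a0 : A}
    {r : A → ℕ} (P : (a : A) → ι → Fin (m a)) (H : ∀ a, Fin (r a) → Fin (Mf a) → ZMod p)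
    {G : ∀ a, Fin (r a) → (Kt fun J : Bk m => Mf J.1) → ZMod p}
    (h0 : ∀ a i x, x.1.1 = a0 → G a i x = 0) (h1 : ∀ a, a ≠ a0 → G a = 0) {L : ℝ} (hL : 1 ≤ L)
    (hA : cd A ≤ Real.exp L) (hC : ∀ a, 1000 * L ≤ Mf a)
    (k1 : ∀ a, (p : ℝ) ^ r a ≤ Real.exp (Mf a / 100)) (k2 : ∀ a, DualFar (H a)) :
    Msb a0 (rho P H G) fun a => GH (H a) := by
  intro j T Δ η ha hT e1 e2 e3 e4
  have hM : ∀ a, (1000 : ℝ) ≤ Mf a := fun a => le_trans (by linarith) (hC a)
  have ne : ∀ a u, Nonempty (FibA (H a) u) := fun a u =>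
    R.fibA_nonempty (k2 a) u (half (hM a) (k1 a))
  have hmin : ∀ a, ∀ γ ∈ GH (H a), γ ≠ 0 → 1 ≤ nsq γ := fun a =>
    B.CharS.min_nsq (by exact_mod_cast le_trans (by norm_num : (256 : ℝ) ≤ 1000) (hM a)) (minD (k2 a))
  have hip : ∀ {N : ℕ} (k : ℝ) (n : Fin N → ℤ) (Δ : Fin N → ℝ), k * ip n Δ = ip n (k • Δ) :=
    fun k n Δ => by simp [ip, mul_sum, mul_left_comm]
  obtain ⟨k, e5, e6⟩ := exists_mult_fam (Γ := fun a => GH (H a)) hmin hT e1 e2 e3
  obtain ⟨c, c1, c2⟩ := cf0 (hM a0) (k1 a0) (k2 a0) (θ := (k : ℝ) • Δ a0) (by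
    have : nsq ((k : ℝ) • Δ a0) = k ^ 2 * nsq (Δ a0) := by simp [nsq, mul_sum, mul_pow]
    have h2 : 0 ≤ k * (Real.sqrt T.card * η) := by positivity
    have h3 : (k * (Real.sqrt T.card * η)) ^ 2 = k ^ 2 * (T.card * η ^ 2) := by
      rw [mul_pow, mul_pow, Real.sq_sqrt (Nat.cast_nonneg _)]
    rw [this]
    nlinarith [mul_le_mul_of_nonneg_left e4 (sq_nonneg (k : ℝ))])
  refine sb_of_cf _ e5 ?_
  rw [expect_upd a0]
  have e7 : ∀ t : (∀ a, Om H a) × Om H a0,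
      ee (k * ∑ a, ip (rho P H G j (update t.1 a0 t.2) a) (Δ a)) =
        (∏ a ∈ univ.erase a0, ee (ip (rowA (t.1 a 0)) ((k : ℝ) • Δ a))) *
          ee (ip (rowA (t.2 (su P H G j t.1 a0))) ((k : ℝ) • Δ a0)) := fun t => by
    rw [mul_sum, ← sum_erase_add _ _ (mem_univ a0), ee_add, ee_sum, rho_update P H h0 h1, hip]
    congr 1
    refine prod_congr rfl fun a ha => ?_
    rw [rho_ne P H h1 _ _ (ne_of_mem_erase ha), update_of_ne (ne_of_mem_erase ha), hip]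
  simp only [e7]
  refine joint (f := fun t : ∀ a, Om H a =>
      ∏ a ∈ univ.erase a0, ee (ip (rowA (t a 0)) ((k : ℝ) • Δ a)))
    (g := fun t (t' : Om H a0) => ee (ip (rowA (t' (su P H G j t a0))) ((k : ℝ) • Δ a0)))
    (fun _ => by simp only [norm_prod, norm_ee, prod_const_one]) ?_ c1 fun t => ?_
  swap
  · rw [expect_eval (β := FibA (H a0)) _ fun e => ee (ip (rowA e) ((k : ℝ) • Δ a0))]
    exact c2 _
  rw [R.expect_prod_pi_mem (Ω := Om H) _ fun a t => ee (ip (rowA (t 0)) ((k : ℝ) • Δ a)), norm_prod]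
  have e8 : ∀ a, 𝔼 t : Om H a, ee (ip (rowA (t 0)) ((k : ℝ) • Δ a)) =
      𝔼 e : FibA (H a) 0, ee (ip (rowA e) ((k : ℝ) • Δ a)) := fun a =>
    expect_eval (β := FibA (H a)) _ fun e => ee (ip (rowA e) ((k : ℝ) • Δ a))
  simp only [e8]
  choose γ g1 g2 using fun a => cfa (hM a) (k1 a) (k2 a) 0 ((k : ℝ) • Δ a)
  have n1 : ∀ a, ‖𝔼 e : FibA (H a) 0, ee (ip (rowA e) ((k : ℝ) • Δ a))‖ ≤ 1 := fun a =>
    norm_expect_le fun _ => (norm_ee _).le
  have hsub : T ⊆ univ.erase a0 := fun a h =>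
    mem_erase.2 ⟨fun e : a = a0 => ha (e ▸ h), mem_univ a⟩
  refine (prod_le_prod_of_subset_of_le_one hsub
    (fun _ _ => norm_nonneg _) fun a _ _ => n1 a).trans ?_
  refine (prod_le T (x := fun a => Real.exp (-(4 * nsq ((k : ℝ) • Δ a - γ a))))
    (ε := 2 * Real.exp (-(50 * L))) (by positivity) (fun _ => norm_nonneg _) n1
    (fun _ => (Real.exp_pos _).le)
    (fun a => Real.exp_le_one_iff.2 (by linarith [nsq_nonneg ((k : ℝ) • Δ a - γ a)]))
    fun a => (g2 a).trans ?_).trans ?_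
  · have : Real.exp (-(Mf a / 20)) ≤ Real.exp (-(50 * L)) :=
      Real.exp_le_exp.2 (by linarith [hC a])
    linarith
  have h7 : Real.exp (-(1 / 4)) ≤ 32 / 41 := by
    rw [Real.exp_neg, inv_le_comm₀ (Real.exp_pos _) (by norm_num)]
    linarith [Real.quadratic_le_exp_of_nonneg (x := 1 / 4) (by norm_num)]
  have h8 : ∏ a ∈ T, Real.exp (-(4 * nsq ((k : ℝ) • Δ a - γ a))) ≤ Real.exp (-(1 / 4)) := by
    rw [← Real.exp_sum, sum_neg_distrib, ← mul_sum]
    exact Real.exp_le_exp.2 (by linarith [e6 γ g1])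
  have h9 : (T.card : ℝ) * Real.exp (-(50 * L)) ≤ 1 / 400 := by
    have : (T.card : ℝ) ≤ Real.exp L := le_trans (by
      unfold cd
      exact_mod_cast card_le_univ T) hA
    refine (mul_le_mul_of_nonneg_right this (Real.exp_pos _).le).trans ?_
    rw [← Real.exp_add]
    exact (Real.exp_le_exp.2 (by linarith)).trans exp_small
  linarith

end LawEx2

theorem lawEx2_proof : LawEx2Stmt := by
  refine ⟨1000, by norm_num, fun ι A _ _ _ _ a0 m Mf P L hm hL hA hι hC hE hs => ?_⟩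
  have hM : ∀ a, (1000 : ℝ) ≤ Mf a := fun a => le_trans (by linarith) (hC a)
  have hL1 : 1 ≤ Real.exp L := Real.one_le_exp (by linarith)
  obtain ⟨p, hp, p1, p2⟩ := Nat.exists_prime_lt_and_le_two_mul ⌊Real.exp L⌋₊
    (Nat.floor_pos.2 hL1).ne'
  have : Fact p.Prime := ⟨hp⟩
  have p3 : Real.exp L ≤ p := (Nat.floor_lt' hp.ne_zero).1 p1 |>.le
  have p4 : (p : ℝ) ≤ 2 * Real.exp L :=
    le_trans (by exact_mod_cast p2) (mul_le_mul_of_nonneg_left (Nat.floor_le (by linarith)) zero_le_two)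
  have p5 : Real.log p ≤ 2 * L := by
    refine (Real.log_le_iff_le_exp (by linarith)).2 (p4.trans ?_)
    rw [two_mul L, Real.exp_add]
    exact mul_le_mul_of_nonneg_right (by linarith [Real.add_one_le_exp L]) (by linarith)
  choose r H G k1 k2 h0 h1 k5 using exists_checks (p := p) (a0 := a0) (m := m)
    (fun a => (hE a).trans (by nlinarith)) hM (fun a => by linarith [hC a]) hs
  have ne : ∀ a u, Nonempty (FibA (H a) u) := fun a u =>
    R.fibA_nonempty (k2 a) u (half (hM a) (k1 a))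
  have hmin : ∀ a, ∀ γ ∈ GH (H a), γ ≠ 0 → 1 ≤ nsq γ := fun a =>
    B.CharS.min_nsq (by exact_mod_cast le_trans (by norm_num : (256 : ℝ) ≤ 1000) (hM a)) (minD (k2 a))
  have hint : ∀ a (n : Fin (Mf a) → ℤ), (fun k => (n k : ℝ)) ∈ GH (H a) := fun a n =>
    B.CharS.mem_GH.2 ⟨0, n, fun k => by simp [B.CharS.hh_zero]⟩
  have hip : ∀ {N : ℕ} (k : ℝ) (n : Fin N → ℤ) (Δ : Fin N → ℝ), k * ip n Δ = ip n (k • Δ) :=
    fun k n Δ => by simp [ip, mul_sum, mul_left_comm]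
  let v0 : Fin (m a0) := ⟨0, by omega⟩
  let Ht : Fin (r a0) → (Kt fun J : Bk m => Mf J.1) → ZMod p := fun i =>
    extend (emb Mf v0) (H a0 i) (G a0 i)
  have hsyn : ∀ n, syn Ht n = syn (H a0) (fun k => n (emb Mf v0 k)) + syn (G a0) n := fun n => by
    funext i
    simp only [syn, Pi.add_apply]
    rw [sum_split hm v0]
    congr 1
    · exact sum_congr rfl fun k _ => by simp only [Ht, (emb_inj v0).extend_apply]
    · refine sum_congr rfl fun x _ => ?_
      split_ifs with h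
      · rw [h0 a0 i x h, zero_mul]
      · simp only [Ht, extend_apply' _ _ _ (mt (mem_range hm v0 x).1 h)]
  refine ⟨Om H, inferInstance, rho P H G, fun a => GH (H a), 4 * Real.exp (-(10 * L)), lat Ht,
    ⟨fun a => inferInstance, fun j ω ω' a ha e => ?_, fun j ω a => R.rowA_cases _,
      fun j ω a v => ?_, fun j ω a E => ?_, fun j ω a Δ z η e1 e2 e3 => ?_,
      fun j ω a Δ Δ0 z η ha e1 e2 e3 e4 => ?_, hint, hmin, fun j ω a ha => ?_,
      fun a ha => ⟨hint a, fun n hn => ?_⟩, by positivity, ?_⟩,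
    ⟨⟨int_mem Ht, fun n hn => ?_⟩, fun x j => dual_lat.2 ?_, fun v γ0 hγ => ?_⟩,
    LawEx2.msb P H h0 h1 hL hA hC k1 k2⟩
  · rw [rho_ne P H h1 j ω ha, rho_ne P H h1 j ω' ha, e]
  · simp only [rho_update P H h0 h1]
    rw [av_eq, expect_eval (β := FibA (H a)) _ fun e => Real.exp (ip (rowA e) v)]
    have := R.fibA_mgf (k2 a) (su P H G j ω a) (τ := Real.exp (-(10 * L)))
      (small (k1 a) (by rw [Fintype.card_fin]; linarith [hC a]))
      ((Real.exp_le_exp.2 (by linarith)).trans (Real.exp_neg_one_lt_d9.le.trans (by norm_num))) v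
    simpa only [ip, nsq, mul_comm (v _)] using this
  · simp only [rho_update P H h0 h1]
    rw [av_eq, expect_eval (β := FibA (H a)) _ fun e => ind (E (rowA e)), ← av_eq, av_ind, av_ind]
    refine (R.pr_fibA_le (k2 a) _ (half (hM a) (k1 a)) E).trans ?_
    rw [Fintype.card_fin]
    exact mul_le_mul_of_nonneg_right (by linarith [k1 a]) (R.pr_nonneg _)
  · obtain ⟨k, e4, e5⟩ := B.CharS.exists_mult (hmin a) e1 e2 e3
    refine sb_of_cf _ e4 ?_
    simp only [rho_update P H h0 h1, mul_add, hip, ee_add]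
    rw [← expect_mul, expect_eval (β := FibA (H a)) _ fun e => ee (ip (rowA e) ((k : ℝ) • Δ)),
      norm_mul, norm_ee, mul_one]
    exact (cf1 (hM a) (k1 a) (k2 a) _ e5).trans (by norm_num)
  · obtain ⟨k, e5, e6⟩ := B.CharS.exists_mult (hmin a) e1 e2 e3
    obtain ⟨c, c1, c2⟩ := cf0 (hM a0) (k1 a0) (k2 a0) (θ := (k : ℝ) • Δ0) (by
      have : nsq ((k : ℝ) • Δ0) = k ^ 2 * nsq Δ0 := by simp [nsq, mul_sum, mul_pow]
      have h2 : 0 ≤ k * η := by positivity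
      rw [this]
      nlinarith [mul_le_mul_of_nonneg_left e4 (sq_nonneg (k : ℝ))])
    refine sb_of_cf _ e5 ?_
    simp only [rho_update P H h0 h1, rho_ne P H h1 _ _ ha, update_of_ne ha, update_self, mul_add,
      hip, ee_add]
    rw [← expect_mul, norm_mul, norm_ee, mul_one]
    refine joint (f := fun t : Om H a => ee (ip (rowA (t 0)) ((k : ℝ) • Δ)))
      (g := fun t (t' : Om H a0) => ee (ip (rowA (t' (su P H G j (update ω a t) a0))) ((k : ℝ) • Δ0)))
      (fun _ => norm_ee _) ?_ c1 fun t => ?_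
    · rw [expect_eval (β := FibA (H a)) _ fun e => ee (ip (rowA e) ((k : ℝ) • Δ))]
      exact cf1 (hM a) (k1 a) (k2 a) _ e6
    · rw [expect_eval (β := FibA (H a0)) _ fun e => ee (ip (rowA e) ((k : ℝ) • Δ0))]
      exact c2 _
  · rw [rho_ne P H h1 j ω ha]
    exact (B.CharS.dual_iff _ _).2 (congrFun (R.syn_rowA _))
  · refine or_iff_not_imp_left.2 fun h => ?_
    simpa using (k5 a n 0 (fun _ _ => rfl) (Or.inl h) (by
      rw [R.syn_zero, add_zero]
      exact funext ((B.CharS.dual_iff _ _).1 hn))).le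
  · have e1 : Real.exp (-(10 * L)) * (Real.exp L * Real.exp L) ≤ 1 / 16 := by
      rw [← Real.exp_add, ← Real.exp_add]
      refine (Real.exp_le_exp.2 (by linarith : -(10 * L) + (L + L) ≤ -8)).trans ?_
      rw [Real.exp_neg, one_div]
      exact inv_anti₀ (by norm_num)
        (by linarith [Real.quadratic_le_exp_of_nonneg (x := 8) (by norm_num)])
    have e2 : cd A * (cd ι + 1) ≤ Real.exp L * (2 * Real.exp L) :=
      mul_le_mul hA (by linarith) (by unfold cd; positivity) (by linarith)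
    nlinarith [mul_le_mul_of_nonneg_left e2 (Real.exp_pos (-(10 * L))).le]
  · refine or_iff_not_imp_left.2 fun h => ?_
    rw [dual_lat, hsyn] at hn
    rw [sum_split hm v0]
    refine (k5 a0 (fun k => n (emb Mf v0 k)) (fun x => if x.1.1 = a0 then 0 else n x)
      (fun x hx => if_pos (hx.resolve_left fun h => h rfl)) (by_contra fun k => h ?_) ?_).le.trans_eq ?_
    · simp only [not_or, not_not] at k
      funext x
      by_cases e : x.1.1 = a0
      · obtain ⟨y, rfl⟩ := (mem_range hm v0 x).2 e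
        exact congrFun k.1 y
      · exact (if_neg e).symm.trans (congrFun k.2 x)
    · rw [← hn]
      congr 1
      refine funext fun i => sum_congr rfl fun x _ => ?_
      by_cases e : x.1.1 = a0
      · simp [h0 a0 i x e]
      · simp only [if_neg e]
    · congr 1
      exact sum_congr rfl fun x _ => by split_ifs <;> simp
  · have e1 : (fun k => tc (smp P (rho P H G) x) j (emb Mf v0 k)) = rho P H G j (x j) a0 :=
      funext fun k => if_pos (Fin.ext (by have := (P a0 j).2; simp only [emb, v0]; omega))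
    rw [hsyn, e1, rho, R.syn_rowA, su, neg_add_eq_zero]
    refine funext fun i => sum_congr rfl fun y _ => ?_
    by_cases e : y.1.1 = a0
    · simp [h0 a0 i y e]
    · simp only [k0, tc, smp, sb, rho_ne P H h1 _ _ e]
  · obtain rfl : v0 = v := Fin.ext (by have := v.2; simp only [v0]; omega)
    obtain ⟨y, n, h⟩ := hγ
    refine ⟨_, (lat Ht).add_mem (int_mem Ht (extend (emb Mf v0) n 0))
      ((lat Ht).sum_mem (t := univ) fun i _ => (lat Ht).zsmul_mem (row_mem Ht i) (y i)),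
      funext fun k => ?_⟩
    rw [h k]
    change _ + (∑ i, y i • fun x => ((Ht i x).val : ℝ) / p) (emb Mf v0 k) = _
    simp only [Finset.sum_apply, Pi.smul_apply, Ht, (emb_inj v0).extend_apply, sum_div,
      mul_div_assoc]
    simp only [zsmul_eq_mul]
    congr 2
    exact (emb_inj v0).extend_apply _ _ k

end Vale.Agent.P318.E
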