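import Vale.Agent.P318.E.Stmt
import Vale.Agent.P318.C.LowG

/-! Track E, existence: the lower bound for the Gram matrix of the system. -/

namespace Vale.Agent.P318.E

open Finset
open M (ind ip nsq lin)
open B (nd cd av Op Kt tc res Bk bk sb)
open R (ballZ)
open C
open scoped BigOperators

namespace LowGq

open LowGp

variable {ι A : Type} [Fintype ι] [DecidableEq ι] [Fintype A] [DecidableEq A] {m Mf : A → ℕ}
  (π : (a : A) → ι → Fin (m a))

/-- the reciprocal of the bound for the cross terms -/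
noncomputable def zc (a0 a a' : A) : ℝ := if a = a0 ∨ a' = a0 then 10 * √(cd A) else 10 * cd A

lemma zc_comm (a0 a a' : A) : zc a0 a a' = zc a0 a' a := by simp only [zc, or_comm]

lemma zc_pos (hA : 1 ≤ cd A) (a0 a a' : A) : 0 < zc a0 a a' := by
  unfold zc
  split_ifs <;> positivity

lemma sum_zc (hA : 1 ≤ cd A) (a0 : A) :
    ∑ a, ∑ a', (1 / (10 ^ 5 * zc a0 a a')) ^ 2 ≤ (1 / 10 ^ 5 : ℝ) ^ 2 := by
  have h0 : 0 < cd A := by linarith
  have h1 : ∀ a a', (1 / (10 ^ 5 * zc a0 a a')) ^ 2 ≤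
      ((if a = a0 then 1 / (10 ^ 12 * cd A) else 0) + if a' = a0 then 1 / (10 ^ 12 * cd A) else 0) +
        1 / (10 ^ 12 * cd A ^ 2) := fun a a' => by
    have e1 : (1 / (10 ^ 5 * (10 * √(cd A)))) ^ 2 = 1 / (10 ^ 12 * cd A) := by
      rw [div_pow, mul_pow, mul_pow, Real.sq_sqrt h0.le]
      ring
    have e2 : (1 / (10 ^ 5 * (10 * cd A))) ^ 2 = 1 / (10 ^ 12 * cd A ^ 2) := by ring
    have p1 : 0 ≤ 1 / (10 ^ 12 * cd A) := by positivity
    have p2 : 0 ≤ 1 / (10 ^ 12 * cd A ^ 2) := by positivity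
    unfold zc
    by_cases c1 : a = a0 <;> by_cases c2 : a' = a0 <;>
      simp only [c1, c2, if_true, if_false, or_self, or_false, or_true, e1, e2] <;> linarith
  refine (sum_le_sum fun a _ => sum_le_sum fun a' _ => h1 a a').trans ?_
  simp only [sum_add_distrib, sum_const, card_univ, nsmul_eq_mul, sum_ite_eq', mem_univ, if_true,
    ← mul_sum, show (Fintype.card A : ℝ) = cd A from rfl]
  field_simp
  norm_num

omit [DecidableEq ι] in
/-- the deterministic part -/
lemma low_det (r : (a : A) → ι → Fin (Mf a) → ℤ) (ε : A → A → ℝ) (hε : ∀ a a', 0 ≤ ε a a')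
    (hε' : ∑ a, ∑ a', ε a a' ^ 2 ≤ (1 / 10 ^ 5 : ℝ) ^ 2)
    (h1 : ∀ (J : Bk m) v, (bk π J).card / 50000 * nsq v ≤ ∑ j ∈ bk π J, ip (r J.1 j) v ^ 2)
    (h2 : ∀ a a', a ≠ a' → ∀ y y' (e e' : ℝ), cd ι * nsq y ≤ 2 * m a * e →
      cd ι * nsq y' ≤ 2 * m a' * e' → (∑ j, th π a (r a) y j * th π a' (r a') y' j) ^ 2 ≤
        ε a a' ^ 2 * e * e')
    (h3 : ∀ J : Bk m, cd ι ≤ 2 * m J.1 * (bk π J).card) (τ : Kt (fun J : Bk m => Mf J.1) → ℝ) :
    1 / 10 ^ 5 * ∑ J : Bk m, ((bk π J).card : ℝ) * nsq (res τ J) ≤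
      ∑ j, lin (tc (M := fun J : Bk m => Mf J.1) (sb π r)) τ j ^ 2 := by
  let y : (a : A) → Fin (m a) × Fin (Mf a) → ℝ := fun a p => τ ⟨⟨a, p.1⟩, p.2⟩
  let e : A → ℝ := fun a => ∑ u, ((bk π ⟨a, u⟩).card : ℝ) *
    nsq (res (M := fun J : Bk m => Mf J.1) τ ⟨a, u⟩)
  have e0 : ∀ a, 0 ≤ e a := fun a =>
    sum_nonneg fun _ _ => mul_nonneg (Nat.cast_nonneg _) (nsq_nonneg _)
  have e1 : ∀ a, cd ι * nsq (y a) ≤ 2 * m a * e a := fun a => by
    rw [nsq, Fintype.sum_prod_type, mul_sum, mul_sum]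
    refine sum_le_sum fun u _ => ?_
    rw [← mul_assoc]
    exact mul_le_mul_of_nonneg_right (h3 ⟨a, u⟩) (nsq_nonneg _)
  have e2 : ∀ a, e a / 50000 ≤ ∑ j, th π a (r a) (y a) j ^ 2 := fun a => by
    rw [← sum_fiberwise univ (π a), sum_div]
    refine sum_le_sum fun u _ => le_trans (le_of_eq (by ring)) ((h1 ⟨a, u⟩ _).trans
      (le_of_eq (sum_congr rfl fun j hj => ?_)))
    rw [th, (mem_filter.1 hj).2]
    rfl
  have e3 : ∀ a a', a ≠ a' → |∑ j, th π a (r a) (y a) j * th π a' (r a') (y a') j| ≤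
      ε a a' * √(e a) * √(e a') := fun a a' h => by
    refine abs_le_of_sq_le_sq ?_ (mul_nonneg (mul_nonneg (hε a a') (Real.sqrt_nonneg _))
      (Real.sqrt_nonneg _))
    rw [mul_pow, mul_pow, Real.sq_sqrt (e0 a), Real.sq_sqrt (e0 a')]
    exact h2 a a' h _ _ _ _ (e1 a) (e1 a')
  have h4 := R.cross_sum_le (fun a => th π a (r a) (y a)) (fun a => √(e a)) ε (by norm_num) e3 hε'
  simp only [Real.sq_sqrt (e0 _)] at h4
  have h5 := sum_le_sum fun a (_ : a ∈ univ) => e2 a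
  rw [← sum_div] at h5
  simp only [B.C1p.lin_sb]
  rw [Fintype.sum_sigma]
  have h6 := (abs_le.1 h4).1
  change 1 / 10 ^ 5 * ∑ a, e a ≤ ∑ j, (∑ a, th π a (r a) (y a) j) ^ 2
  linarith

end LowGq

open LowGp LowGq in
theorem lowGE_proof : LowGEStmt := by
  refine ⟨10 ^ 18, by norm_num, ?_⟩
  intro ι A _ _ _ _ a0 m Mf Ω _ π ρ Γ τ0 K Lg Lam L Pa hK hLg hM h1 h2 h3
  have hA : 1 ≤ cd A := by
    have : Nonempty A := ⟨a0⟩
    exact Nat.one_le_cast.2 Fintype.card_pos
  have hM' : ∀ a, (1 : ℝ) ≤ Mf a := fun a => by exact_mod_cast hM a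
  have hm : ∀ a, (1 : ℝ) ≤ m a := fun a => by exact_mod_cast Pa.pos a
  have hP : 1 ≤ K * Lg := one_le_mul_of_one_le_of_one_le hK hLg
  have hL : 0 < Lam := lt_of_lt_of_le (by positivity) h3
  have hn : 0 < cd ι := by
    have h4 : 0 < cd A * cd ι := lt_of_lt_of_le (by have := hM' a0; positivity) h2
    exact (pos_iff_pos_of_mul_pos h4).1 (by linarith)
  have hsA : 1 ≤ 10 * √(cd A) := by linarith [Real.one_le_sqrt.2 hA]
  have hs : ∀ a, 1 ≤ √(m a : ℝ) := fun a => Real.one_le_sqrt.2 (hm a)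
  have hb : 10 ^ 16 * K * Lg * (10 * √(cd A)) ^ 2 * (cd A / Lam) ≤ 1 := by
    rw [← mul_div_assoc, div_le_one hL, mul_pow, Real.sq_sqrt (by linarith)]
    linarith
  have hb' : 10 ^ 16 * K * Lg * (10 * cd A) ^ 2 * (1 / Lam) ≤ 1 := by
    rw [← mul_div_assoc, div_le_one hL]
    linarith
  have hD' : ∀ a, a ≠ a0 → √(m a : ℝ) * (m a * Mf a) ≤ 1 / Lam * cd ι := fun a h => by
    rw [div_mul_eq_mul_div, le_div_iff₀ hL]
    have := h1 a h
    linarith
  have hD : ∀ a, √(m a : ℝ) * (m a * Mf a) ≤ cd A / Lam * cd ι := fun a => by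
    rw [div_mul_eq_mul_div, le_div_iff₀ hL]
    rcases eq_or_ne a a0 with rfl | h
    · rw [Pa.top]; simpa [mul_comm] using h2
    · have := h1 a h
      nlinarith
  have hJ : ∀ J : Bk m, 10 ^ 9 * (K * Lg) * Mf J.1 ≤ (bk π J).card := fun J => by
    have a1 : (m J.1 : ℝ) * Mf J.1 ≤ cd A / Lam * (2 * m J.1 * (bk π J).card) :=
      (le_mul_of_one_le_left (by positivity) (hs J.1)).trans
        ((hD J.1).trans (mul_le_mul_of_nonneg_left (Pa.lo J) (by positivity)))
    have a2 : (Mf J.1 : ℝ) ≤ 2 * (cd A / Lam) * (bk π J).card :=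
      le_of_mul_le_mul_left (a1.trans (le_of_eq (by ring))) (show (0 : ℝ) < m J.1 by linarith [hm J.1])
    have a3 : K * Lg * (cd A / Lam) ≤ K * Lg * (10 * √(cd A)) ^ 2 * (cd A / Lam) := by
      rw [mul_assoc _ (_ ^ 2)]
      gcongr
      exact le_mul_of_one_le_left (by positivity) (one_le_pow₀ hsA)
    calc _ ≤ 10 ^ 9 * (K * Lg) * (2 * (cd A / Lam) * (bk π J).card) := by gcongr
      _ = 2 * 10 ^ 9 * (K * Lg * (cd A / Lam)) * (bk π J).card := by ring
      _ ≤ 1 * (bk π J).card := by gcongr; linarith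
      _ = _ := one_mul _
  have hτ : (1 + τ0) ^ Fintype.card ι ≤ 2 := by
    have a1 : (1 + τ0) ^ Fintype.card ι ≤ Real.exp τ0 ^ Fintype.card ι :=
      pow_le_pow_left₀ (by linarith [L.tau_nonneg]) (by linarith [Real.add_one_le_exp τ0]) _
    have a2 : cd ι * τ0 ≤ 1 / 2 := by
      have := L.tau_le
      have := mul_nonneg L.tau_nonneg (mul_nonneg (sub_nonneg.2 hA) hn.le)
      have := mul_nonneg L.tau_nonneg (zero_le_one.trans hA)
      nlinarith
    rw [← Real.exp_nat_mul] at a1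
    refine a1.trans ((Real.exp_le_exp.2 a2).trans ?_)
    have a3 := Real.exp_one_lt_d9
    have a4 : Real.exp (1 / 2) * Real.exp (1 / 2) = Real.exp 1 := by rw [← Real.exp_add]; norm_num
    nlinarith [Real.exp_pos (1 / 2)]
  let W : A → A → ℝ := fun a a' => K * (Mf a' + Lg * (8 * cd ι / (m a * m a')))
  let E1 : Bk m → (ι → (a : A) → Ω a) → Prop := fun J x =>
    Op (bk π J) (fun j => ρ j (x j) J.1) (2 * (K * Lg) * (bk π J).card) ∧
      ¬∀ v, (bk π J).card / 50000 * nsq v ≤ ∑ j ∈ bk π J, ip (ρ j (x j) J.1) v ^ 2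
  let E2 : A × A → (ι → (a : A) → Ω a) → Prop := fun p x => (p.1 ≠ p.2 ∧ p.2 ≠ a0) ∧
    (∀ u u', Op (univ.filter fun j => (π p.1 j, π p.2 j) = (u, u')) (fun j => ρ j (x j) p.2)
      (W p.1 p.2)) ∧ ¬∀ y y', (∑ j, th π p.1 (fun j => ρ j (x j) p.1) y j *
        th π p.2 (fun j => ρ j (x j) p.2) y' j) ^ 2 ≤
          1764 * W p.1 p.2 * (m p.1 * Mf p.1 + m p.2 * Mf p.2) * nsq y * nsq y'
  rw [B.C1p.av_ind]
  refine le_trans (R.pr_mono (F := fun x => (∃ J, E1 J x) ∨ ∃ p, E2 p x) fun x hx => ?_)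
    ((R.pr_or_le _ _).trans ?_)
  · by_contra h
    push Not at h
    have hop : ∀ J : Bk m, ∀ T ⊆ bk π J, ∀ B : ℝ, K * (Mf J.1 + Lg * T.card) ≤ B →
        Op T (fun j => ρ j (x j) J.1) B := fun J T hT B hB V => by
      have := hx.1 J T hT V
      rw [zero_mul, add_zero] at this
      refine le_trans (le_of_eq (sum_congr rfl fun j hj => ?_))
        (this.trans (mul_le_mul_of_nonneg_right hB (nsq_nonneg V)))
      simp only [ip, smp, sb, if_pos (mem_filter.1 (hT hj)).2]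
    have key : ∀ a a', a ≠ a' → a' ≠ a0 → m a ≤ m a' → ∀ y y' (e e' : ℝ),
        cd ι * nsq y ≤ 2 * m a * e → cd ι * nsq y' ≤ 2 * m a' * e' →
        (∑ j, th π a (fun j => ρ j (x j) a) y j * th π a' (fun j => ρ j (x j) a') y' j) ^ 2 ≤
          (1 / (10 ^ 5 * zc a0 a a')) ^ 2 * e * e' := by
      intro a a' a1 a2 a3 y y' e e' a4 a5
      have m1 := hm a
      have m2 := hm a'
      have a6 : ∀ u u', Op (univ.filter fun j => (π a j, π a' j) = (u, u'))
          (fun j => ρ j (x j) a') (W a a') := fun u u' => by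
        have b1 : (univ.filter fun j => (π a j, π a' j) = (u, u')) =
            bk π ⟨a, u⟩ ∩ bk π ⟨a', u'⟩ := by ext j; simp [bk]
        rw [b1]
        refine hop ⟨a', u'⟩ _ inter_subset_right _ ?_
        have b2 := Pa.cross ⟨a, u⟩ ⟨a', u'⟩ fun h => a1 (congrArg Sigma.fst h)
        have b3 := mul_le_mul (Pa.hi ⟨a, u⟩) (Pa.hi ⟨a', u'⟩) (by positivity) (by positivity)
        have b4 : ((bk π ⟨a, u⟩ ∩ bk π ⟨a', u'⟩).card : ℝ) ≤ 8 * cd ι / (m a * m a') := by
          rw [le_div_iff₀ (by positivity)]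
          refine le_of_mul_le_mul_right ?_ hn
          have := mul_le_mul_of_nonneg_right b2 (show (0 : ℝ) ≤ m a * m a' by positivity)
          simp only at b3
          nlinarith
        simp only [W]
        gcongr
      have a7 := not_not.1 (fun h' => h.2 (a, a') ⟨⟨a1, a2⟩, a6, h'⟩) y y'
      have a8 : 1764 * W a a' * (m a * Mf a + m a' * Mf a') * (4 * m a * m a') ≤
          (1 / (10 ^ 5 * zc a0 a a')) ^ 2 * cd ι ^ 2 := by
        by_cases b : a = a0
        · rw [zc, if_pos (Or.inl b)]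
          exact numer (M := Mf a) (M' := Mf a') hK hLg hsA hn m1 m2 (by positivity) (by positivity)
            (Real.sq_sqrt (by positivity)) (hs a) (hD a)
            (le_trans (by gcongr) (hD a')) (by positivity) hb
        · rw [zc, if_neg (not_or.2 ⟨b, a2⟩)]
          exact numer (M := Mf a) (M' := Mf a') hK hLg (by linarith) hn m1 m2 (by positivity)
            (by positivity) (Real.sq_sqrt (by positivity)) (hs a) (hD' a b)
            (le_trans (by gcongr) (hD' a' a2)) (by positivity) hb'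
      have e0 : 0 ≤ e := nonneg_of_mul_nonneg_right
        ((mul_nonneg hn.le (nsq_nonneg y)).trans a4) (by positivity)
      have e0' : 0 ≤ e' := nonneg_of_mul_nonneg_right
        ((mul_nonneg hn.le (nsq_nonneg y')).trans a5) (by positivity)
      refine a7.trans (le_of_mul_le_mul_right ?_ (pow_pos hn 2))
      have a9 := mul_le_mul a4 a5 (mul_nonneg hn.le (nsq_nonneg y')) (by positivity)
      calc _ = 1764 * W a a' * (m a * Mf a + m a' * Mf a') * (cd ι * nsq y * (cd ι * nsq y')) := by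
            ring
        _ ≤ 1764 * W a a' * (m a * Mf a + m a' * Mf a') * (2 * m a * e * (2 * m a' * e')) := by
            simp only [W]
            gcongr
        _ = 1764 * W a a' * (m a * Mf a + m a' * Mf a') * (4 * m a * m a') * (e * e') := by ring
        _ ≤ (1 / (10 ^ 5 * zc a0 a a')) ^ 2 * cd ι ^ 2 * (e * e') :=
            mul_le_mul_of_nonneg_right a8 (by positivity)
        _ = _ := by ring
    refine hx.2 fun τ => le_trans ?_ (LowGq.low_det π (fun a j => ρ j (x j) a)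
      (fun a a' => 1 / (10 ^ 5 * zc a0 a a')) (fun a a' => by have := zc_pos hA a0 a a'; positivity)
      (sum_zc hA a0)
      (fun J => not_not.1 fun h' => h.1 J ⟨hop J _ Subset.rfl _ ?_, h'⟩)
      (fun a a' a1 y y' e e' a2 a3 => ?_) Pa.lo τ)
    · exact mul_le_mul_of_nonneg_right (by norm_num)
        (sum_nonneg fun _ _ => mul_nonneg (Nat.cast_nonneg _) (nsq_nonneg _))
    · have b1 := hJ J
      have b2 := hM' J.1
      have b3 : (Mf J.1 : ℝ) ≤ Lg * (bk π J).card := by nlinarith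
      nlinarith
    · by_cases b : a' ≠ a0 ∧ m a ≤ m a'
      · exact key a a' a1 b.1 b.2 y y' e e' a2 a3
      have b1 : a ≠ a0 ∧ m a' ≤ m a := by
        rcases eq_or_ne a' a0 with rfl | b2
        · exact ⟨a1, Pa.top ▸ Pa.pos a⟩
        · have b3 : m a' < m a := not_le.1 fun b3 => b ⟨b2, b3⟩
          exact ⟨fun b4 => by have := Pa.pos a'; have := Pa.top; subst b4; omega, b3.le⟩
      have := key a' a a1.symm b1.1 b1.2 y' y e' e a3 a2
      simp only [mul_comm (th π a' _ _ _)] at this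
      rw [zc_comm]
      linarith
  have p1 : R.pr (fun x => ∃ J, E1 J x) ≤ ∑ J : Bk m, Real.exp (-(Mf J.1 : ℝ)) :=
    (R.pr_exists_le _).trans (sum_le_sum fun J _ => pr_low L J.1 _ hP (hM _) (hJ J))
  have p2 : R.pr (fun x => ∃ p, E2 p x) ≤ ∑ p : A × A, 4 * Real.exp (-(Mf p.2 : ℝ)) := by
    refine (R.pr_exists_le _).trans (sum_le_sum fun p _ => ?_)
    by_cases h : p.1 ≠ p.2 ∧ p.2 ≠ a0
    · have m1 := hm p.1
      have m2 := hm p.2
      have m3 := hM' p.2
      refine (R.pr_mono fun x hx => hx.2).trans ((pr_cross π L hτ h.1 h.2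
        (by simp only [W]; positivity) (Nat.mul_pos (Pa.pos _) (hM _))
        (Nat.mul_pos (Pa.pos _) (hM _))).trans ?_)
      gcongr
      have : (0 : ℝ) ≤ m p.1 * Mf p.1 := by positivity
      nlinarith
    · refine (R.pr_mono (F := fun _ => False) fun x hx => h hx.1).trans ?_
      simp [R.pr, (Real.exp_pos _).le]
  have p3 : ∑ a, Real.exp (-(Mf a : ℝ)) ≤ ∑ J : Bk m, Real.exp (-(Mf J.1 : ℝ)) := by
    rw [Fintype.sum_sigma]
    refine sum_le_sum fun a _ => ?_
    simp only [sum_const, card_univ, Fintype.card_fin, nsmul_eq_mul]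
    exact le_mul_of_one_le_left (Real.exp_pos _).le (hm a)
  rw [Fintype.sum_prod_type] at p2
  dsimp only at p2
  rw [sum_const, card_univ, nsmul_eq_mul, ← mul_sum] at p2
  rw [← mul_sum]
  have p4 : 0 ≤ ∑ J : Bk m, Real.exp (-(Mf J.1 : ℝ)) := sum_nonneg fun _ _ => (Real.exp_pos _).le
  have p5 := mul_le_mul_of_nonneg_left p3 (zero_le_one.trans hA)
  have p6 := le_mul_of_one_le_left p4 hA
  rw [show (Fintype.card A : ℝ) = cd A from rfl] at p2
  linarith

end Vale.Agent.P318.E
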