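import Vale.Agent.P318.E.Stmt
import Vale.Agent.P318.C.Near

/-!
The part of the Gaussian move which stays in the same window, with two parameters `l`, `l'`.
-/

namespace Vale.Agent.P318.E

open Finset MeasureTheory ProbabilityTheory
open M (U01 cube tm Per BM ip nsq gm lin Inv)
open M.Block (bm_int bm_comp)
open C

namespace Near2

open C.Near

set_option linter.unusedSectionVars false

variable {ι κ : Type} [Fintype ι] [DecidableEq ι] [Fintype κ] {d : Dt ι κ} {B : ℝ}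

/-- The error term. -/
noncomputable def er (d : Dt ι κ) (l l' : ℝ) : ℝ :=
  4 * Real.sqrt (d.J.card / (d.w.om * d.w.et)) * Real.exp (-l) +
    d.J.card * (24 / d.w.om * Real.exp (-l'))

/-- The small part at one point. -/
lemma small_pt (H : Hyp d B) (hS : SmallStmt) (hS2 : Small2Stmt) (hB : 0 ≤ B) (ρ : ℝ) {r : ℝ}
    (hr0 : 0 < r) (hr1 : r ≤ 1) {C2 A l l' : ℝ} (hC2 : 0 ≤ C2) (hA : 0 ≤ A) (hl : 1 ≤ l)
    (hl' : 1 ≤ l')
    (hA2 : C2 * ρ ^ 2 * (256 / d.w.om ^ 2) * (2 + B / 2) ≤ A ^ 2) (p : (κ → ℝ) × (κ → ℝ)) :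
    |∑ j ∈ d.J, ∑ j' ∈ d.J.erase j, dpr d.w (d.y (p.2 + r • p.1) j') *
        c2 d.w d.h j j' (d.y (p.2 + r • p.1)) * d.M2 ρ r C2 j j' p.2 (ip (d.s j) p.1)| ≤
      (8 * Real.sqrt l * A / Real.sqrt r + if r < 2 * d.w.et / d.w.om then 4 * l' * A else 0) *
          Inf d.w d.J d.h (d.y (p.2 + r • p.1)) + A * er d l l' / Real.sqrt r := by
  have h0 := H.om_pos
  have n1 : 0 ≤ 4 * Real.sqrt (d.J.card / (d.w.om * d.w.et)) * Real.exp (-l) := by positivity
  have n2 : 0 ≤ d.J.card * (24 / d.w.om * Real.exp (-l')) := by positivity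
  have hI := H.Inn (d.y (p.2 + r • p.1))
  have hs0 : 0 < Real.sqrt r := Real.sqrt_pos.2 hr0
  have hs1 : Real.sqrt r ≤ 1 := Real.sqrt_le_one.2 hr1
  have hz : ∀ j j', pq d.w (d.y (p.2 + r • p.1) j) = 0 →
      d.M2 ρ r C2 j j' p.2 (ip (d.s j) p.1) = 0 := by
    intro j j' hq
    rw [d.q_eq] at hq
    unfold Dt.M2; rw [H.X_zero ρ hr0.le hr1 j j' _ _ hq]; simp
  have hD := H.sum_Dm_le ρ r p.2
  have hq := fun j => H.q_nonneg r j p.2 (ip (d.s j) p.1)
  have hDm := fun j => H.Dm_nonneg ρ r j p.2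
  split_ifs with hr
  · have key := (hS ι d.w d.J d.h (d.y (p.2 + r • p.1))
      (fun j j' => d.M2 ρ r C2 j j' p.2 (ip (d.s j) p.1)) (2 * A) l' H.ok H.u01 (by positivity) hl'
      hz).2 (fun j j' => ?_) (fun j' => ?_)
    · refine key.trans (add_le_add ?_ ?_)
      · refine mul_le_mul_of_nonneg_right ?_ hI
        have : 0 ≤ 8 * Real.sqrt l * A / Real.sqrt r := by positivity
        linarith
      · rw [le_div_iff₀ hs0]
        calc _ ≤ d.J.card * (12 * (2 * A) / d.w.om * Real.exp (-l')) * 1 := by gcongr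
          _ = A * (d.J.card * (24 / d.w.om * Real.exp (-l'))) := by ring
          _ ≤ _ := mul_le_mul_of_nonneg_left (le_add_of_nonneg_left n1) hA
    · rw [d.q_eq]
      refine abs_le.2 (abs_le_of_sq_le_sq' ?_ (by positivity))
      rw [div_pow]
      refine div_le_of (sq_nonneg _) (sq_nonneg _) ?_
      refine (Hyp.M2_sq ρ r hC2 j j' _ _).trans ?_
      refine (mul_le_mul_of_nonneg_left (H.U1 ρ hr0.le hr1 j _ _) hC2).trans ?_
      have e : C2 * (ρ ^ 2 * (1024 / d.w.om ^ 2 * d.q r j p.2 (ip (d.s j) p.1) ^ 2)) =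
          4 * (C2 * ρ ^ 2 * (256 / d.w.om ^ 2)) * d.q r j p.2 (ip (d.s j) p.1) ^ 2 := by ring
      rw [e]
      refine mul_le_mul_of_nonneg_right ?_ (sq_nonneg _)
      have : 0 ≤ C2 * ρ ^ 2 * (256 / d.w.om ^ 2) := by positivity
      nlinarith
    · calc ∑ j ∈ d.J, d.M2 ρ r C2 j j' p.2 (ip (d.s j) p.1) ^ 2 / pq d.w (d.y (p.2 + r • p.1) j)
          ≤ ∑ j ∈ d.J, C2 * ρ ^ 2 * (16 / d.w.om ^ 2) * d.Dm ρ r j p.2 := by
            refine sum_le_sum fun j _ => ?_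
            rw [d.q_eq]
            have := hDm j
            refine div_le_of (hq j) (by positivity) ?_
            refine (Hyp.M2_sq ρ r hC2 j j' _ _).trans ?_
            refine (mul_le_mul_of_nonneg_left (H.U2 ρ hr0.le hr1 j _ _) hC2).trans (le_of_eq ?_)
            ring
        _ ≤ C2 * ρ ^ 2 * (16 / d.w.om ^ 2) * (2 + B / 2) := by
            rw [← mul_sum]; gcongr
        _ ≤ C2 * ρ ^ 2 * (256 / d.w.om ^ 2) * (2 + B / 2) := by gcongr; norm_num
        _ ≤ (2 * A) ^ 2 := by nlinarith [sq_nonneg A]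
  · have key := hS2 ι d.w d.J d.h (d.y (p.2 + r • p.1))
      (fun j j' => d.M2 ρ r C2 j j' p.2 (ip (d.s j) p.1)) (A / Real.sqrt r) l H.ok H.u01
      (by positivity) hl hz (fun j' => ?_)
    · refine key.trans (add_le_add (le_of_eq (by ring)) ?_)
      calc _ = A * (4 * Real.sqrt (d.J.card / (d.w.om * d.w.et)) * Real.exp (-l)) / Real.sqrt r := by
            ring
        _ ≤ _ := div_le_div_of_nonneg_right
          (mul_le_mul_of_nonneg_left (le_add_of_nonneg_right n2) hA) hs0.le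
    · calc ∑ j ∈ d.J, (d.M2 ρ r C2 j j' p.2 (ip (d.s j) p.1) / pq d.w (d.y (p.2 + r • p.1) j)) ^ 2
          ≤ ∑ j ∈ d.J, C2 * ρ ^ 2 * (256 / (d.w.om ^ 2 * r)) * d.Dm ρ r j p.2 := by
            refine sum_le_sum fun j _ => ?_
            rw [d.q_eq, div_pow]
            have := hDm j
            refine div_le_of (sq_nonneg _) (by positivity) ?_
            refine (Hyp.M2_sq ρ r hC2 j j' _ _).trans ?_
            refine (mul_le_mul_of_nonneg_left (H.U3 ρ hr0 hr1 (not_lt.1 hr) j _ _) hC2).trans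
              (le_of_eq ?_)
            ring
        _ ≤ C2 * ρ ^ 2 * (256 / (d.w.om ^ 2 * r)) * (2 + B / 2) := by
            rw [← mul_sum]; gcongr
        _ = C2 * ρ ^ 2 * (256 / d.w.om ^ 2) * (2 + B / 2) / r := by field_simp
        _ ≤ A ^ 2 / r := by gcongr
        _ = (A / Real.sqrt r) ^ 2 := by rw [div_pow, Real.sq_sqrt hr0.le]

/-- The bound for the pairing at time `r`. -/
lemma S_le (H : Hyp d B) (hG : GaussStmt) (hSm : SmallStmt) (hS2 : Small2Stmt) (hB : 0 ≤ B)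
    {ρ r n0 : ℝ} (hρ : 0 < ρ) (hr0 : 0 < r) (hr1 : r ≤ 1) (hn : 0 < n0) {C1 C2 A l l' lam : ℝ}
    (hC1 : 0 ≤ C1) (hC2 : 0 ≤ C2) (hA : 0 ≤ A) (hl : 1 ≤ l) (hl' : 1 ≤ l') (hlam : 0 < lam)
    (hS : SplitT d.J d.s C1 C2)
    (hT : ∀ j, T3 (d.s j)) (hZ : ∀ j ∈ d.J, ∀ j' ∈ d.J, j ≠ j' →
      n0 ≤ (univ.filter fun k => d.s j k = 0 ∧ d.s j' k ≠ 0).card)
    (hA2 : C2 * ρ ^ 2 * (256 / d.w.om ^ 2) * (2 + B / 2) ≤ A ^ 2) :
    |∑ j ∈ d.J, ∫ p, d.S ρ r j p ∂(gm κ ρ).prod (cube κ)| ≤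
      1 / (2 * lam) * tm (fun η => W2 d.w d.J d.h (d.y η)) +
      lam / 2 * (Fi d.w * (1 + 1 / (r * ρ * Real.sqrt n0)) * (C1 * ρ ^ 2 * (16 / d.w.om ^ 2)) *
        ∑ j ∈ d.J, tm fun η => d.dd j (d.y η)) +
      ((8 * Real.sqrt l * A / Real.sqrt r + if r < 2 * d.w.et / d.w.om then 4 * l' * A else 0) *
          tm (fun η => Inf d.w d.J d.h (d.y η)) + A * er d l l' / Real.sqrt r) := by
  set α := 8 * Real.sqrt l * A / Real.sqrt r + if r < 2 * d.w.et / d.w.om then 4 * l' * A else 0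
  set β := A * er d l l' / Real.sqrt r
  have b2 : BM fun η => W2 d.w d.J d.h (d.y η) := bm_comp H.bm2 (by fun_prop)
  have bI : BM fun η => Inf d.w d.J d.h (d.y η) := bm_comp H.bmI (by fun_prop)
  have i1 : Integrable (fun p : (κ → ℝ) × (κ → ℝ) => W2 d.w d.J d.h (d.y (p.2 + r • p.1)))
      ((gm κ ρ).prod (cube κ)) := bm_int (bm_comp H.bm2 (by fun_prop)) _
  have i2 : Integrable (fun p => ∑ j ∈ d.J, ∑ j' ∈ d.J.erase j, d.Lg ρ r C2 j j' p)
      ((gm κ ρ).prod (cube κ)) := integrable_finsetSum _ fun j _ => integrable_finsetSum _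
    fun j' hj' => bm_int (H.Lg_bm ρ hr0.le hr1 hC1 hS j (mem_of_mem_erase hj')) _
  have i3 : Integrable (fun p : (κ → ℝ) × (κ → ℝ) => Inf d.w d.J d.h (d.y (p.2 + r • p.1)))
      ((gm κ ρ).prod (cube κ)) := bm_int (bm_comp H.bmI (by fun_prop)) _
  have j1 := i1.const_mul (1 / (2 * lam))
  have j2 := i2.const_mul (lam / 2)
  have j3 := i3.const_mul α
  have j4 : Integrable (fun _ : (κ → ℝ) × (κ → ℝ) => β) ((gm κ ρ).prod (cube κ)) :=
    integrable_const _
  rw [← integral_finsetSum _ fun j _ => bm_int (H.S_bm ρ hr0.le hr1 j) _]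
  have hb := norm_integral_le_of_norm_le (μ := (gm κ ρ).prod (cube κ))
    (f := fun p => ∑ j ∈ d.J, d.S ρ r j p) ((j1.add j2).add (j3.add j4))
    (ae_of_all _ fun p => by
      have e : ∑ j ∈ d.J, d.S ρ r j p =
          (∑ j ∈ d.J, ∑ j' ∈ d.J.erase j, dpr d.w (d.y (p.2 + r • p.1) j') *
            c2 d.w d.h j j' (d.y (p.2 + r • p.1)) * d.M1 ρ r C2 j j' p.2 (ip (d.s j) p.1)) +
          ∑ j ∈ d.J, ∑ j' ∈ d.J.erase j, dpr d.w (d.y (p.2 + r • p.1) j') *
            c2 d.w d.h j j' (d.y (p.2 + r • p.1)) * d.M2 ρ r C2 j j' p.2 (ip (d.s j) p.1) := by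
        simp only [Dt.S, d.X_eq ρ r C2, mul_add, sum_add_distrib]
      rw [Real.norm_eq_abs, e]
      refine (abs_add_le _ _).trans
        (add_le_add ?_ (small_pt H hSm hS2 hB ρ hr0 hr1 hC2 hA hl hl' hA2 p))
      refine (abs_sum_le_sum_abs _ _).trans ?_
      refine (sum_le_sum fun j _ => (abs_sum_le_sum_abs _ _).trans
        (sum_le_sum fun j' _ => H.large_pt ρ hr0.le hr1 C2 hlam j j' p)).trans (le_of_eq ?_)
      simp only [sum_add_distrib, ← mul_sum, Pi.add_apply, W2])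
  rw [Real.norm_eq_abs, integral_add' (j1.add j2) (j3.add j4), integral_add' j1 j2,
    integral_add' j3 j4, integral_const_mul, integral_const_mul, integral_const_mul,
    shift_int H.per_W2 b2 ρ r, shift_int H.per_Inf bI ρ r, integral_const, probReal_univ,
    one_smul] at hb
  refine hb.trans ?_
  have := H.large_sum hG hρ hr0 hr1 hn hC1 hS hT hZ
  gcongr

/-- The bound at time `r` with the final choice of the parameters. -/
lemma N_le [Nonempty κ] (H : Hyp d B) (hG : GaussStmt) (hSm : SmallStmt) (hS2 : Small2Stmt)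
    (hB : 0 ≤ B) {σ W C1 ε l l' lam : ℝ} (hσ : 0 < σ) (hW : 0 < W)
    (hWσ : W ^ 2 = σ ^ 2 * Fintype.card κ) (hC1 : 0 ≤ C1) (hε : 0 ≤ ε) (hl : 1 ≤ l) (hl' : 1 ≤ l')
    (hlam : 0 < lam) (hT : ∀ j, T3 (d.s j))
    (hZ : ZPat d.J d.s) (hS : SplitT d.J d.s (C1 * Fintype.card κ) (ε ^ 2 * Fintype.card κ))
    {r : ℝ} (hr0 : 0 < r) (hr1 : r ≤ 1) :
    |∑ j ∈ d.J, d.N σ j r| ≤
      (Fi d.w * tm (fun η => W2 d.w d.J d.h (d.y η)) / lam +
        lam * ((1 + 6 / W) * (C1 * (8 * W ^ 2 / d.w.om ^ 2))) *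
          (∑ j ∈ d.J, tm fun η => d.dd j (d.y η)) +
        16 * Real.sqrt l * (ε * (W / d.w.om * (16 + 2 * B))) *
          tm (fun η => Inf d.w d.J d.h (d.y η)) +
        2 * (ε * (W / d.w.om * (16 + 2 * B))) * er d l l') * (1 / Real.sqrt r) +
      if r < 2 * d.w.et / d.w.om then 8 * l' * (ε * (W / d.w.om * (16 + 2 * B))) *
        tm (fun η => Inf d.w d.J d.h (d.y η)) else 0 := by
  have h0 := H.om_pos
  have hF : 0 < Fi d.w := zero_lt_one.trans_le H.W.Fi_ge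
  have hM : (0 : ℝ) < Fintype.card κ := Nat.cast_pos.2 Fintype.card_pos
  have hs0 : 0 < Real.sqrt r := Real.sqrt_pos.2 hr0
  have hs1 : Real.sqrt r ≤ 1 := Real.sqrt_le_one.2 hr1
  have hs2 : Real.sqrt r ^ 2 = r := Real.sq_sqrt hr0.le
  set ρ := σ / Real.sqrt 2 with hρdef
  have hρ : 0 < ρ := by positivity
  have hρ2 : σ ^ 2 = 2 * ρ ^ 2 := by
    rw [hρdef, div_pow, Real.sq_sqrt (by norm_num)]; ring
  have hρM : Fintype.card κ * ρ ^ 2 = W ^ 2 / 2 := by rw [hWσ, hρ2]; ring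
  set A := ε * (W / d.w.om * (16 + 2 * B)) with hAdef
  have hA : 0 ≤ A := by positivity
  have hA2 : ε ^ 2 * Fintype.card κ * ρ ^ 2 * (256 / d.w.om ^ 2) * (2 + B / 2) ≤ A ^ 2 := by
    have e1 : ε ^ 2 * Fintype.card κ * ρ ^ 2 * (256 / d.w.om ^ 2) * (2 + B / 2) =
        (ε * (W / d.w.om)) ^ 2 * (256 + 64 * B) := by
      rw [mul_assoc (ε ^ 2), hρM]; ring
    have e2 : A ^ 2 = (ε * (W / d.w.om)) ^ 2 * (16 + 2 * B) ^ 2 := by rw [hAdef]; ring
    rw [e1, e2]
    exact mul_le_mul_of_nonneg_left (by nlinarith [sq_nonneg B]) (sq_nonneg _)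
  have key := S_le H hG hSm hS2 hB hρ hr0 hr1 (n0 := Fintype.card κ / 16) (by positivity)
    (lam := lam * Real.sqrt r / Fi d.w) (mul_nonneg hC1 hM.le) (by positivity) hA hl hl'
    (by positivity) hS hT hZ hA2
  simp_rw [H.N_eq hG hρ2 hr0.le hr1]
  rw [← mul_sum, abs_mul, abs_two]
  refine (mul_le_mul_of_nonneg_left key zero_le_two).trans ?_
  have nD : 0 ≤ ∑ j ∈ d.J, tm fun η => d.dd j (d.y η) :=
    sum_nonneg fun j _ => integral_nonneg fun η => H.dd_nonneg _ _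
  set D := ∑ j ∈ d.J, tm fun η => d.dd j (d.y η)
  set w2 := tm (fun η => W2 d.w d.J d.h (d.y η))
  set I := tm (fun η => Inf d.w d.J d.h (d.y η))
  have hn : W / 6 ≤ ρ * Real.sqrt (Fintype.card κ / 16) := by
    refine abs_le_of_sq_le_sq' ?_ (by positivity) |>.2
    rw [mul_pow, Real.sq_sqrt (by positivity)]
    nlinarith [sq_nonneg W]
  have hg : Real.sqrt r * (1 + 1 / (r * ρ * Real.sqrt (Fintype.card κ / 16))) ≤
      (1 + 6 / W) * (1 / Real.sqrt r) := by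
    have a1 : 1 / (r * ρ * Real.sqrt (Fintype.card κ / 16)) ≤ 1 / (r * (W / 6)) := by
      rw [mul_assoc]; gcongr
    have a2 : Real.sqrt r * (1 / (r * (W / 6))) = 6 / W * (1 / Real.sqrt r) := by
      have : r = Real.sqrt r * Real.sqrt r := (Real.mul_self_sqrt hr0.le).symm
      generalize Real.sqrt r = x at *
      rw [this]; field_simp
    have a3 : Real.sqrt r ≤ 1 / Real.sqrt r := hs1.trans (by rw [le_div_iff₀ hs0]; linarith)
    have a4 := mul_le_mul_of_nonneg_left a1 hs0.le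
    linarith
  have b2 : 2 * (lam * Real.sqrt r / Fi d.w / 2 *
      (Fi d.w * (1 + 1 / (r * ρ * Real.sqrt (Fintype.card κ / 16))) *
        (C1 * Fintype.card κ * ρ ^ 2 * (16 / d.w.om ^ 2)) * D)) ≤
      lam * ((1 + 6 / W) * (C1 * (8 * W ^ 2 / d.w.om ^ 2))) * D * (1 / Real.sqrt r) := by
    rw [mul_assoc C1, hρM]
    calc _ = lam * (C1 * (8 * W ^ 2 / d.w.om ^ 2)) * D *
          (Real.sqrt r * (1 + 1 / (r * ρ * Real.sqrt (Fintype.card κ / 16)))) := by
          field_simp; ring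
      _ ≤ lam * (C1 * (8 * W ^ 2 / d.w.om ^ 2)) * D * ((1 + 6 / W) * (1 / Real.sqrt r)) := by
          gcongr
      _ = _ := by ring
  have b1 : 2 * (1 / (2 * (lam * Real.sqrt r / Fi d.w)) * w2) =
      Fi d.w * w2 / lam * (1 / Real.sqrt r) := by field_simp
  rw [mul_add, mul_add, b1]
  split_ifs <;> linear_combination b2

end Near2

open Near2 C.Near in
theorem near2_proof (hW : WinStmt) (hG : GaussStmt) (hD : DerivStmt) (hS : SmallStmt)
    (hS2 : Small2Stmt) : Near2Stmt := by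
  intro ω W δ C1 B h0 hWp hδ hC1 hB
  set K1 := W / ω * (16 + 2 * B) with hK1
  set K3 := (1 + 6 / W) * (C1 * (8 * W ^ 2 / ω ^ 2)) with hK3
  have pK1 : 0 < K1 := by positivity
  have pK3 : 0 ≤ K3 := by positivity
  set lam := δ / (2 * K3 + 1) with hlam
  have plam : 0 < lam := by positivity
  set K2 := 1 / Real.sqrt ω with hK2
  have pK2 : 0 ≤ K2 := by positivity
  refine ⟨2 / lam + 32 * K1 + 96 * (K1 / ω) + 16 * (K1 * K2), by positivity, ?_⟩
  intro w ok hω ι κ _ _ _ _ Γ J s t h σ ε l l' χ m hΓ hs hh hI hσ hWσ hT hZ hSp hε hl hl' χm χb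
    mb mB
  subst hω
  let d : Dt ι κ := ⟨w, J, s, t, h, χ, m⟩
  have H : Hyp d B := mkHyp hW hD d ok hΓ hs hh hI χm χb mb mB
  obtain ⟨i1, e1⟩ := H.near_eq σ
  have e2 : ∑ j ∈ J, ∫ ξ, (if |ip (s j) ξ| < 1 / 2 then χ j (ip (s j) ξ) else 0) *
      tm (fun η => pq w ((t + lin s η) j) * (c1 w h j (t + lin s η) - m j) *
        psi w ((t + lin s (η + ξ)) j) *
        (c1 w h j (t + lin s η) - c1 w h j (t + lin s (η + ξ)))) ∂gm κ σ =
      -∫ r in Set.Ioc (0 : ℝ) 1, ∑ j ∈ J, d.N σ j r := by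
    rw [integral_finsetSum _ fun j _ => i1 j, ← sum_neg_distrib]
    exact sum_congr rfl fun j _ => e1 j
  have nD : 0 ≤ ∑ j ∈ J, tm fun η => pq w ((t + lin s η) j) * (c1 w h j (t + lin s η) - m j) ^ 2 :=
    sum_nonneg fun j _ => integral_nonneg fun η => H.dd_nonneg _ _
  have n2 : 0 ≤ tm fun η => W2 w J h (t + lin s η) := integral_nonneg fun η => H.W2nn _
  have nI : 0 ≤ tm fun η => Inf w J h (t + lin s η) := integral_nonneg fun η => H.Inn _
  have hF : 0 < Fi w := zero_lt_one.trans_le H.W.Fi_ge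
  have he : 0 < w.et := H.et_pos
  have hl0 : 0 ≤ l' := zero_le_one.trans hl'
  have key := fun r (hr : r ∈ Set.Ioc (0 : ℝ) 1) =>
    N_le H hG hS hS2 hB hσ hWp hWσ hC1 hε hl hl' plam hT hZ hSp hr.1 hr.2
  set D := ∑ j ∈ J, tm fun η => pq w ((t + lin s η) j) * (c1 w h j (t + lin s η) - m j) ^ 2
    with hDdef
  set w2 := tm fun η => W2 w J h (t + lin s η) with hw2
  set I := tm fun η => Inf w J h (t + lin s η) with hIdef
  obtain ⟨i2, e3⟩ := int_bound (Fi w * w2 / lam + lam * K3 * D + 16 * Real.sqrt l * (ε * K1) * I +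
    2 * (ε * K1) * er d l l') (b := 8 * l' * (ε * K1) * I)
    (c := 2 * w.et / w.om) (by positivity) (by positivity)
  have hb := norm_integral_le_of_norm_le (f := fun r => ∑ j ∈ J, d.N σ j r) i2
    ((ae_restrict_mem measurableSet_Ioc).mono key)
  rw [e2, abs_neg]
  refine (le_of_eq (Real.norm_eq_abs _).symm).trans (hb.trans (e3.trans ?_))
  have b1 : 2 * (lam * K3 * D) ≤ δ * D := by
    have : 2 * (lam * K3) ≤ δ := by
      rw [hlam, div_mul_eq_mul_div, ← mul_div_assoc, div_le_iff₀ (by positivity)]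
      nlinarith
    nlinarith
  have q1 : 0 ≤ Fi w * w2 := by positivity
  have q2 : 0 ≤ Real.sqrt l * ε * I := by positivity
  have q3 : 0 ≤ l' * w.et * ε * I := by positivity
  have q4 : 0 ≤ ε * (J.card * Real.exp (-l')) := by positivity
  have q5 : 0 ≤ ε * (Real.sqrt (J.card / w.et) * Real.exp (-l)) := by positivity
  have e4 : er d l l' = 4 * (K2 * Real.sqrt (J.card / w.et)) * Real.exp (-l) +
      J.card * (24 / w.om * Real.exp (-l')) := by
    rw [hK2, one_div, ← Real.sqrt_inv, ← Real.sqrt_mul (inv_pos.2 h0).le, ← div_eq_inv_mul, div_div,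
      mul_comm w.et]
    rfl
  have p1 : 0 ≤ 2 / lam := by positivity
  have p3 : 0 ≤ K1 / w.om := by positivity
  have p4 : 0 ≤ K1 * K2 := by positivity
  have t1 := mul_nonneg p1 (add_nonneg (add_nonneg (add_nonneg q2 q3) q4) q5)
  have t2 := mul_nonneg pK1.le (add_nonneg (add_nonneg (add_nonneg q1 q3) q4) q5)
  have t3 := mul_nonneg p3 (add_nonneg (add_nonneg q1 q2) q5)
  have t4 := mul_nonneg p3 q3
  have t5 := mul_nonneg p4 (add_nonneg (add_nonneg (add_nonneg q1 q2) q3) q4)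
  rw [e4]
  linear_combination b1 + t1 + 32 * t2 + 96 * t3 + 80 * t4 + 16 * t5

end Vale.Agent.P318.E
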