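import Vale.Agent.P318.E.Stmt
import Vale.Agent.P318.C.Param

/-!
Track E: the numerical parameters exist.
-/

namespace Vale.Agent.P318.E

open Finset
open B (cd)
open C C.ParP

namespace ParP

/-- The facts on `n`, `l = log n`, `t` which are used; `s = l ^ (1/100)`. -/
structure BigE (n : ℕ) (l s t C : ℝ) : Prop where
  old : Big n l s C
  t_le : t ≤ s
  lg : 10 * Real.log l ≤ t
  C_le : 10 ^ 7 * C ^ 2 ≤ t

theorem exists_bigE (C : ℝ) (hC : 1 ≤ C) : ∃ l0 : ℝ, ∀ (n : ℕ) (t : ℝ), l0 ≤ Real.log n →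
    Rg (Real.log n) t → ∃ s, BigE n (Real.log n) s t C := by
  obtain ⟨n0, hn0⟩ := exists_big C hC
  refine ⟨max n0 (Real.exp (10 ^ 7 * C ^ 2)), fun n t hn ht => ⟨_, hn0 n ?_, ?_, ?_, ?_⟩⟩
  · exact_mod_cast ((le_max_left _ _).trans hn).trans (Real.log_le_self (Nat.cast_nonneg n))
  all_goals
    have h1 := (le_max_right _ _).trans hn
    have h0 : 0 < Real.log n := (Real.exp_pos _).trans_le h1
    have h2 := (Real.le_log_iff_exp_le h0).2 h1
    have h3 : (10 : ℝ) ^ 7 ≤ Real.log (Real.log n) := by nlinarith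
    have h4 : 10 * Real.log (Real.log n) ≤ Real.log (Real.log n) ^ 3 := by
      have : 10 ≤ Real.log (Real.log n) ^ 2 := by nlinarith
      nlinarith
    have h5 := ht.1
  · have h6 : 0 ≤ t := by linarith
    calc t = (t ^ 100) ^ (1 / 100 : ℝ) := by
          rw [← Real.rpow_natCast, ← Real.rpow_mul h6]
          norm_num
      _ ≤ _ := Real.rpow_le_rpow (by positivity) ht.2 (by norm_num)
  · linarith
  · linarith

variable {n : ℕ} {l s t C : ℝ}

theorem BigE.t_ge (h : BigE n l s t C) : 10 ^ 7 ≤ t := by nlinarith [h.C_le, h.old.C_ge]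

theorem BigE.t1 (h : BigE n l s t C) : 1 ≤ t := by linarith [h.t_ge]

theorem BigE.t0 (h : BigE n l s t C) : 0 < t := by linarith [h.t_ge]

theorem BigE.l1 (h : BigE n l s t C) : 1 ≤ l := h.old.t1.trans h.old.l_ge

theorem BigE.mono (h : BigE n l s t C) {a b : ℕ} (hab : a ≤ b) : t ^ a ≤ t ^ b :=
  pow_le_pow_right₀ h.t1 hab

theorem BigE.monol (h : BigE n l s t C) {a b : ℕ} (hab : a ≤ b) : l ^ a ≤ l ^ b :=
  pow_le_pow_right₀ h.l1 hab

/-- `c * t ^ a ≤ t ^ b` for `a < b` and a moderate constant. -/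
theorem BigE.cm (h : BigE n l s t C) {a b : ℕ} (hab : a < b) {c : ℝ} (hc : c ≤ 10 ^ 7 * C ^ 2) :
    c * t ^ a ≤ t ^ b := by
  have h1 : c * t ^ a ≤ t * t ^ a :=
    mul_le_mul_of_nonneg_right (hc.trans h.C_le) (pow_pos h.t0 _).le
  calc c * t ^ a ≤ t ^ (a + 1) := by rw [pow_succ]; linarith
    _ ≤ _ := h.mono hab

theorem BigE.pw (h : BigE n l s t C) {a : ℕ} (ha : a ≤ 100) : t ^ a ≤ l :=
  (h.mono ha).trans (h.old.pw ▸ pow_le_pow_left₀ h.t0.le h.t_le 100)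

theorem BigE.cl (h : BigE n l s t C) {a : ℕ} (ha : a < 100) {c : ℝ} (hc : c ≤ 10 ^ 7 * C ^ 2) :
    c * t ^ a ≤ l := (h.cm ha hc).trans (h.pw le_rfl)

theorem BigE.big (h : BigE n l s t C) : l ^ 20 ≤ Real.exp (l / 4) := by
  have := h.old.big
  rwa [show 2000 = 100 * 20 from rfl, pow_mul, h.old.pw] at this

theorem BigE.Lm (h : BigE n l s t C) : 1 ≤ l ^ 3 * t ^ 14 ∧ l ^ 3 * t ^ 14 ≤ l ^ 4 :=
  ⟨one_le_mul_of_one_le_of_one_le (one_le_pow₀ h.l1) (one_le_pow₀ h.t1), by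
    rw [pow_succ l 3]
    exact mul_le_mul_of_nonneg_left (h.pw (by norm_num)) (pow_nonneg (by linarith [h.l1]) _)⟩

theorem BigE.fail3 (h : BigE n l s t C) :
    n * (Real.exp (n * (2 * Real.exp (-l ^ 2))) - 1) ≤ 1 / 100 := by
  have h1 := h.old.fail1
  have hn : (1 : ℝ) ≤ n := by
    rw [h.old.n_eq]; exact Real.one_le_exp (by linarith [h.l1])
  have he := Real.exp_pos (-l ^ 2)
  have h2 : (n : ℝ) * (2 * Real.exp (-l ^ 2)) ≤ 1 / 500 := by
    nlinarith [mul_pos h.old.n_pos he]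
  have h3 : (0 : ℝ) ≤ n * (2 * Real.exp (-l ^ 2)) := by positivity
  have h4 := Real.abs_exp_sub_one_le (x := n * (2 * Real.exp (-l ^ 2)))
    (by rw [abs_of_nonneg h3]; linarith)
  rw [abs_of_nonneg h3] at h4
  calc n * (Real.exp (n * (2 * Real.exp (-l ^ 2))) - 1)
      ≤ n * (2 * (n * (2 * Real.exp (-l ^ 2)))) := by
        gcongr
        exact (le_abs_self _).trans h4
    _ = 2 / 5 * ((n : ℝ) ^ 2 * (10 * Real.exp (-l ^ 2))) := by ring
    _ ≤ _ := by linarith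

theorem BigE.c1 (h : BigE n l s t C) :
    Real.log (2 * ((n ^ 8 : ℕ) : ℝ) + 1) + 1 ≤ l ^ 3 * t ^ 14 / (160 * (l ^ 2 * t ^ 12)) := by
  have hl : 10 ^ 7 ≤ l := h.old.t_ge.trans h.old.l_ge
  have hn : (3 : ℝ) ≤ n := by rw [h.old.n_eq]; linarith [Real.add_one_le_exp l]
  have h1 : Real.log (2 * ((n ^ 8 : ℕ) : ℝ) + 1) ≤ 9 * l := by
    rw [h.old.l_eq, show (9 : ℝ) = (9 : ℕ) by norm_num, ← Real.log_pow]
    refine Real.log_le_log (by positivity) ?_
    have : (1 : ℝ) ≤ n ^ 8 := one_le_pow₀ (by linarith)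
    push_cast
    nlinarith
  have ht := h.t0
  have h2 : l ^ 3 * t ^ 14 / (160 * (l ^ 2 * t ^ 12)) = l * t ^ 2 / 160 := by field_simp
  have h3 : l * 1600 ≤ l * t ^ 2 := by gcongr; nlinarith [h.t_ge]
  rw [h2]
  linarith

/-- One class of partitions with `μ = U * 2 ^ κ` blocks. -/
theorem cls1 (h : BigE n l s t C) {U κ : ℕ} (hU : 8 * t ^ 2 ≤ U) (hU' : (U : ℝ) ≤ 9 * t ^ 2)
    (hκ : (2 : ℝ) ^ κ ≤ 4 * Real.sqrt n / (l * Real.sqrt l * t ^ 12)) {μ : ℝ}
    (hμ' : μ = U * 2 ^ κ) :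
    1 ≤ μ ∧ μ * (l * t ^ 4) ≤ Real.sqrt n ∧ (κ : ℝ) ≤ l ∧
      l ^ 10 ≤ n / (3 * (l ^ 3 * t ^ 14) * μ * Real.sqrt μ) := by
  have ht := h.t0
  have ht1 := h.t1
  have hl1 := h.l1
  have hsl : 1 ≤ Real.sqrt l := Real.one_le_sqrt.2 hl1
  have h2κ : (1 : ℝ) ≤ 2 ^ κ := one_le_pow₀ (by norm_num)
  have ht2 : (1 : ℝ) ≤ t ^ 2 := one_le_pow₀ ht1
  have hU1 : (1 : ℝ) ≤ U := by linarith
  have hμ1 : 1 ≤ μ := by rw [hμ']; exact one_le_mul_of_one_le_of_one_le hU1 h2κ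
  have hμs : μ * (l * t ^ 4) ≤ Real.sqrt n := by
    rw [le_div_iff₀ (by positivity)] at hκ
    have e1 := h.cm (a := 6) (b := 12) (by norm_num) (c := 36) (by nlinarith [h.old.C_ge])
    have : 4 * (μ * (l * t ^ 4)) ≤ 2 ^ κ * (l * Real.sqrt l * t ^ 12) := by
      calc 4 * (μ * (l * t ^ 4)) ≤ 4 * (9 * t ^ 2 * 2 ^ κ * (l * t ^ 4)) := by rw [hμ']; gcongr
        _ = 2 ^ κ * (l * 1 * (36 * t ^ 6)) := by ring
        _ ≤ _ := by gcongr
    linarith
  obtain ⟨q, hq⟩ : ∃ q, q = Real.exp (l / 4) := ⟨_, rfl⟩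
  have hq0 : 0 < q := hq ▸ Real.exp_pos _
  have hμq : μ ≤ q ^ 2 := by
    rw [hq, ← h.old.sq]
    refine le_trans ?_ hμs
    exact le_mul_of_one_le_right (by linarith)
      (one_le_mul_of_one_le_of_one_le hl1 (one_le_pow₀ ht1))
  have hsμ : Real.sqrt μ ≤ q := Real.sqrt_le_iff.2 ⟨hq0.le, hμq⟩
  have hsμ1 : 1 ≤ Real.sqrt μ := Real.one_le_sqrt.2 hμ1
  refine ⟨hμ1, hμs, ?_, ?_⟩
  · have e1 : (2 : ℝ) ^ κ ≤ q ^ 2 := by
      refine le_trans ?_ hμq
      rw [hμ']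
      exact le_mul_of_one_le_left (by positivity) hU1
    have e2 := Real.log_le_log (by positivity) e1
    rw [Real.log_pow, Real.log_pow, hq, Real.log_exp] at e2
    have e3 : (κ : ℝ) * (1 / 2) ≤ κ * Real.log 2 := by
      gcongr
      linarith [Real.log_two_gt_d9]
    push_cast at e2
    linarith
  · rw [le_div_iff₀ (by positivity), ← h.old.q4, ← hq]
    have e1 : 3 * l ^ 14 ≤ q := by
      have e2 : 3 * l ^ 14 ≤ l * l ^ 14 := by
        gcongr
        linarith [h.old.t_ge, h.old.l_ge]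
      rw [← pow_succ'] at e2
      exact e2.trans ((h.monol (by norm_num)).trans (hq ▸ h.big))
    calc l ^ 10 * (3 * (l ^ 3 * t ^ 14) * μ * Real.sqrt μ) ≤ l ^ 10 * (3 * l ^ 4 * q ^ 2 * q) := by
          gcongr l ^ 10 * (3 * ?_ * ?_ * ?_)
          exact h.Lm.2
      _ = 3 * l ^ 14 * q ^ 3 := by ring
      _ ≤ q * q ^ 3 := by gcongr
      _ = q ^ 4 := by ring

theorem cls2 (h : BigE n l s t C) {U κ : ℕ} (hU' : (U : ℝ) ≤ 9 * t ^ 2) {μ : ℝ}
    (hμ' : μ = U * 2 ^ κ) (hμ1 : 1 ≤ μ) :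
    1 ≤ Real.log (24 * C * (l ^ 3 * t ^ 14) * Real.sqrt μ) ∧
      Real.log (24 * C * (l ^ 3 * t ^ 14) * Real.sqrt μ) ≤ t * (1 + κ) := by
  have ht := h.t0
  have hC := h.old.C_ge
  have hl1 := h.l1
  have hsμ1 : 1 ≤ Real.sqrt μ := Real.one_le_sqrt.2 hμ1
  have hsμ2 : Real.sqrt μ ≤ μ := by
    nlinarith [Real.mul_self_sqrt (show 0 ≤ μ by linarith)]
  have hin : 0 < 24 * C * (l ^ 3 * t ^ 14) * Real.sqrt μ := by positivity
  constructor
  · rw [Real.le_log_iff_exp_le hin]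
    have : (1 : ℝ) ≤ C * (l ^ 3 * t ^ 14) * Real.sqrt μ :=
      one_le_mul_of_one_le_of_one_le (one_le_mul_of_one_le_of_one_le hC h.Lm.1) hsμ1
    linarith [Real.exp_one_lt_d9]
  · have e1 := h.cl (a := 16) (by norm_num) (c := 216 * C) (by nlinarith)
    have e2 : 24 * C * (l ^ 3 * t ^ 14) * Real.sqrt μ ≤ l ^ 4 * 2 ^ κ := by
      calc 24 * C * (l ^ 3 * t ^ 14) * Real.sqrt μ
          ≤ 24 * C * (l ^ 3 * t ^ 14) * (9 * t ^ 2 * 2 ^ κ) := by
            gcongr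
            refine hsμ2.trans ?_
            rw [hμ']; gcongr
        _ = l ^ 3 * (216 * C * t ^ 16) * 2 ^ κ := by ring
        _ ≤ l ^ 3 * l * 2 ^ κ := by gcongr
        _ = _ := by ring
    have e3 := Real.log_le_log hin e2
    rw [Real.log_mul (x := l ^ 4) (by positivity) (by positivity), Real.log_pow,
      Real.log_pow] at e3
    have e4 := h.lg
    have e5 := Real.log_nonneg hl1
    have e6 : (κ : ℝ) * Real.log 2 ≤ κ * t := by
      gcongr
      linarith [Real.log_two_lt_d9, h.t1]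
    push_cast at e3
    linarith

/-- The error at the dyadic scale `k`. -/
theorem err (h : BigE n l s t C) {U κ k : ℕ} (hU' : (U : ℝ) ≤ 9 * t ^ 2) (hk : 1 ≤ k)
    (hκ : (κ : ℝ) ≤ 6 / 5 * k + 1) {μ x LG ns : ℝ} (hμ : μ = (U * 2 ^ κ : ℕ)) (hμ1 : 1 ≤ μ)
    (hx : x = n / (3 * (l ^ 3 * t ^ 14) * μ * Real.sqrt μ)) (hLG1 : 1 ≤ LG)
    (hLG : LG ≤ t * (1 + κ)) (hns : x / (8 * C * LG) ≤ ns) :
    (1 / 2 : ℝ) ^ k * ((k + 1) * Real.sqrt ((33 * C + 1) / ns)) ≤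
      100 * (l * Real.sqrt l * t ^ 10 / Real.sqrt n) * Real.exp (-(1 / 25) * k) := by
  have ht := h.t0
  have hC := h.old.C_ge
  have hn := h.old.n_pos
  have hl1 := h.l1
  have hk1 : (1 : ℝ) ≤ k := by exact_mod_cast hk
  have hx0 : 0 < x := by rw [hx]; positivity
  have hns0 : 0 < x / (8 * C * LG) := by positivity
  have hl2 := Real.log_two_gt_d9
  have hl2' := Real.log_two_lt_d9
  have e2 : ∀ j : ℕ, (2 : ℝ) ^ j = Real.exp (j * Real.log 2) := fun j => by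
    rw [Real.exp_nat_mul, Real.exp_log (by norm_num)]
  have hE : μ ≤ (3 * t * Real.exp (κ * Real.log 2 / 2)) ^ 2 := by
    rw [mul_pow, ← Real.exp_nat_mul, hμ]
    push_cast
    rw [e2 κ, show (2 : ℝ) * (κ * Real.log 2 / 2) = κ * Real.log 2 by ring]
    gcongr
    linarith
  have hs : Real.sqrt μ ≤ 3 * t * Real.exp (κ * Real.log 2 / 2) :=
    Real.sqrt_le_iff.2 ⟨by positivity, hE⟩
  have hμs : μ * Real.sqrt μ ≤ 27 * t ^ 3 * Real.exp (3 * (κ * Real.log 2 / 2)) := by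
    calc μ * Real.sqrt μ ≤ (3 * t * Real.exp (κ * Real.log 2 / 2)) ^ 2 *
          (3 * t * Real.exp (κ * Real.log 2 / 2)) := by gcongr
      _ = 27 * t ^ 3 * Real.exp (κ * Real.log 2 / 2) ^ 3 := by ring
      _ = _ := by rw [← Real.exp_nat_mul]; norm_num
  have h3 : Real.exp (3 * (κ * Real.log 2 / 2)) ≤ 8 * Real.exp (5 / 4 * k) := by
    have : Real.exp (3 * (κ * Real.log 2 / 2)) ≤ Real.exp ((3 : ℕ) * Real.log 2 + 5 / 4 * k) :=
      Real.exp_le_exp.2 (by push_cast; nlinarith)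
    rw [Real.exp_add, ← e2 3] at this
    linarith
  have h4 : LG ≤ t * (200 * Real.exp (1 / 50 * k)) := by
    refine hLG.trans ?_
    gcongr
    linarith [Real.add_one_le_exp (1 / 50 * (k : ℝ))]
  have h5 : (33 * C + 1) / ns ≤
      (l * Real.sqrt l * t ^ 10 / Real.sqrt n * Real.exp (16 / 25 * k)) ^ 2 := by
    have e1 := h.cm (a := 18) (b := 19) (by norm_num) (c := 10 ^ 7 * C ^ 2) le_rfl
    have e1' := h.cm (a := 19) (b := 20) (by norm_num) (c := 4) (by nlinarith)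
    have e3 : Real.exp (1 / 50 * k) * Real.exp (5 / 4 * k) ≤ Real.exp (16 / 25 * k) ^ 2 := by
      rw [← Real.exp_add, ← Real.exp_nat_mul]
      exact Real.exp_le_exp.2 (by push_cast; nlinarith)
    have e5 : 35251200 * C ^ 2 * t ^ 18 ≤ t ^ 20 := by
      have : 0 ≤ C ^ 2 * t ^ 18 := by positivity
      nlinarith
    calc (33 * C + 1) / ns ≤ (34 * C) / (x / (8 * C * LG)) := by gcongr; linarith
      _ = 34 * C * (8 * C * LG) * (3 * (l ^ 3 * t ^ 14) * (μ * Real.sqrt μ)) / n := by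
          rw [hx]; field_simp
      _ ≤ 34 * C * (8 * C * (t * (200 * Real.exp (1 / 50 * k)))) *
          (3 * (l ^ 3 * t ^ 14) * (27 * t ^ 3 * (8 * Real.exp (5 / 4 * k)))) / n := by
          have e4 : μ * Real.sqrt μ ≤ 27 * t ^ 3 * (8 * Real.exp (5 / 4 * k)) :=
            hμs.trans (by gcongr)
          gcongr 34 * C * (8 * C * ?_) * (3 * (l ^ 3 * t ^ 14) * ?_) / n
      _ = l ^ 3 * (35251200 * C ^ 2 * t ^ 18) *
          (Real.exp (1 / 50 * k) * Real.exp (5 / 4 * k)) / n := by ring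
      _ ≤ l ^ 3 * t ^ 20 * Real.exp (16 / 25 * k) ^ 2 / n := by gcongr
      _ = _ := by
          rw [mul_pow, div_pow, mul_pow, mul_pow, Real.sq_sqrt hn.le,
            Real.sq_sqrt (by linarith : 0 ≤ l)]
          ring
  have h6 := Real.sqrt_le_iff.2 ⟨by positivity, h5⟩
  have h7 : (1 / 2 : ℝ) ^ k * Real.exp (1 / 100 * k) * Real.exp (16 / 25 * k) ≤
      Real.exp (-(1 / 25) * k) := by
    rw [one_div_pow, e2 k, one_div, ← Real.exp_neg, ← Real.exp_add, ← Real.exp_add]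
    exact Real.exp_le_exp.2 (by nlinarith)
  have h8 : (k : ℝ) + 1 ≤ 100 * Real.exp (1 / 100 * k) := by
    linarith [Real.add_one_le_exp (1 / 100 * (k : ℝ))]
  calc (1 / 2 : ℝ) ^ k * ((k + 1) * Real.sqrt ((33 * C + 1) / ns))
      ≤ (1 / 2 : ℝ) ^ k * (100 * Real.exp (1 / 100 * k) *
        (l * Real.sqrt l * t ^ 10 / Real.sqrt n * Real.exp (16 / 25 * k))) := by gcongr
    _ = 100 * (l * Real.sqrt l * t ^ 10 / Real.sqrt n) *
        ((1 / 2 : ℝ) ^ k * Real.exp (1 / 100 * k) * Real.exp (16 / 25 * k)) := by ring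
    _ ≤ _ := by gcongr

theorem cf_le (h : BigE n l s t C) {k : ℕ} (hk : 1 ≤ k) (hkl : (k : ℝ) ≤ l) : cf k ≤ ⌈t⌉₊ := by
  refine Nat.ceil_mono ?_
  have hk1 : (1 : ℝ) ≤ k := by exact_mod_cast hk
  have ha := log_ge
  rw [div_le_iff₀ (by linarith)]
  have h1 := Real.log_le_log (by linarith) hkl
  nlinarith [h.t0, h.lg]

end ParP

set_option maxHeartbeats 1600000 in
set_option maxRecDepth 4000 in
open ParP in
theorem parE_proof : ParEStmt := by
  intro C hC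
  obtain ⟨l0, hl0⟩ := exists_bigE C hC
  refine ⟨l0, fun n t hn hrg => ?_⟩
  obtain ⟨s, h⟩ := hl0 n t hn hrg
  clear hl0 hn hrg
  generalize Real.log n = l at h ⊢
  have ht := h.t0
  have ht1 := h.t1
  have ht7 := h.t_ge
  have hl1 := h.l1
  have hl0 : 0 < l := by linarith
  have htl : t ≤ l := by simpa using h.pw (a := 1) (by norm_num)
  have hn0' := h.old.n_pos
  have hs : 0 < Real.sqrt n := Real.sqrt_pos.2 hn0'
  have hss : Real.sqrt n * Real.sqrt n = n := Real.mul_self_sqrt hn0'.le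
  have hbs : l ^ 20 ≤ Real.sqrt n := by
    rw [h.old.sq]
    have h1 : 1 ≤ Real.exp (l / 4) := (one_le_pow₀ hl1).trans h.big
    nlinarith [h.big]
  have hs1 : 1 ≤ Real.sqrt n := (one_le_pow₀ hl1).trans hbs
  have hsn : Real.sqrt n ≤ n := by nlinarith
  have hC7 : ∀ c : ℝ, c ≤ 10 ^ 7 → c ≤ 10 ^ 7 * C ^ 2 := fun c hc => by nlinarith
  have hsl : 1 ≤ Real.sqrt l := Real.one_le_sqrt.2 hl1
  have hsl' : Real.sqrt l ≤ l := by nlinarith [Real.mul_self_sqrt hl0.le]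
  obtain ⟨hLm1, hLm4⟩ := h.Lm
  have hpn : ∀ a : ℕ, a ≤ 20 → l ^ a ≤ n := fun a ha => (h.monol ha).trans (hbs.trans hsn)
  -- the number of dyadic scales
  obtain ⟨K0, hK1, hK2⟩ := exists_nat_pow_near
    (x := 2 * Real.sqrt n / (l * Real.sqrt l * t ^ 12)) (y := 2) (by
      rw [le_div_iff₀ (by positivity)]
      have e1 : l * Real.sqrt l * t ^ 12 ≤ l * l * l := by
        gcongr
        exact h.pw (by norm_num)
      have e2 := h.monol (a := 3) (b := 20) (by norm_num)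
      nlinarith) (by norm_num)
  obtain ⟨Kn, hKn⟩ : ∃ Kn, Kn = K0 + 1 := ⟨_, rfl⟩
  have hKle : (2 : ℝ) ^ Kn ≤ 4 * Real.sqrt n / (l * Real.sqrt l * t ^ 12) := by
    rw [hKn, pow_succ, show 4 * Real.sqrt n / (l * Real.sqrt l * t ^ 12) =
      2 * Real.sqrt n / (l * Real.sqrt l * t ^ 12) * 2 by ring]
    linarith
  rw [← hKn] at hK2
  obtain ⟨U, hUd⟩ : ∃ U, U = ⌈8 * t ^ 2⌉₊ := ⟨_, rfl⟩
  have ht2 : (1 : ℝ) ≤ t ^ 2 := one_le_pow₀ ht1
  have hU : 8 * t ^ 2 ≤ U := hUd ▸ Nat.le_ceil _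
  have hU' : (U : ℝ) ≤ 9 * t ^ 2 := by
    have := Nat.ceil_lt_add_one (show 0 ≤ 8 * t ^ 2 by positivity)
    rw [hUd]; linarith
  obtain ⟨D, hDd⟩ : ∃ D, D = ⌈100 * (l * t)⌉₊ := ⟨_, rfl⟩
  have hlt : (1 : ℝ) ≤ l * t := one_le_mul_of_one_le_of_one_le hl1 ht1
  have hD : 100 * (l * t) ≤ D := hDd ▸ Nat.le_ceil _
  have hD' : (D : ℝ) ≤ 101 * (l * t) := by
    have := Nat.ceil_lt_add_one (show 0 ≤ 100 * (l * t) by positivity)
    rw [hDd]; linarith
  obtain ⟨R, hRd⟩ : ∃ R, R = ⌈t⌉₊ := ⟨_, rfl⟩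
  have hR' : (R : ℝ) + 1 ≤ 2 * t := by
    have := Nat.ceil_lt_add_one ht.le
    rw [hRd]; linarith
  obtain ⟨κ, hκd⟩ : ∃ κ : ℕ → ℕ, κ = fun c => min Kn ⌈(6 / 5 : ℝ) ^ c⌉₊ := ⟨_, rfl⟩
  have hκ : ∀ c, (2 : ℝ) ^ κ c ≤ 4 * Real.sqrt n / (l * Real.sqrt l * t ^ 12) := fun c =>
    (pow_le_pow_right₀ (by norm_num) (by rw [hκd]; exact min_le_left _ _)).trans hKle
  have hκk : ∀ k, 1 ≤ k → (κ (cf k) : ℝ) ≤ 6 / 5 * k + 1 := fun k h1 => by
    have e2 := Nat.ceil_lt_add_one (show (0 : ℝ) ≤ (6 / 5) ^ cf k by positivity)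
    have e3 : (κ (cf k) : ℝ) ≤ ⌈(6 / 5 : ℝ) ^ cf k⌉₊ := by
      rw [hκd]; exact_mod_cast min_le_right _ _
    linarith [(cf_spec h1).2]
  obtain ⟨μ, hμd⟩ : ∃ μ : ℕ → ℕ, μ = fun c => U * 2 ^ κ c := ⟨_, rfl⟩
  have hμ : ∀ c, (μ c : ℝ) = U * 2 ^ κ c := fun c => by rw [hμd]; push_cast; ring
  obtain ⟨x, hxd⟩ : ∃ x : ℕ → ℝ,
      x = fun c => n / (3 * (l ^ 3 * t ^ 14) * μ c * Real.sqrt (μ c)) := ⟨_, rfl⟩
  obtain ⟨Mc, hMd⟩ : ∃ Mc : ℕ → ℕ, Mc = fun c => ⌊x c⌋₊ := ⟨_, rfl⟩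
  obtain ⟨LG, hLd⟩ : ∃ LG : ℕ → ℝ,
      LG = fun c => Real.log (24 * C * (l ^ 3 * t ^ 14) * Real.sqrt (μ c)) := ⟨_, rfl⟩
  obtain ⟨ns, hnd⟩ : ∃ ns : ℕ → ℕ, ns = fun c => ⌊Mc c / (2 * C * LG c)⌋₊ := ⟨_, rfl⟩
  have H1 := fun c => cls1 h hU hU' (hκ c) (hμ c)
  have H2 : ∀ c, 1 ≤ LG c ∧ LG c ≤ t * (1 + κ c) := fun c => by
    rw [hLd]; exact cls2 h hU' (hμ c) (H1 c).1
  have Hx : ∀ c, l ^ 10 ≤ x c := fun c => by rw [hxd]; exact (H1 c).2.2.2
  have H3 := fun c => cls3 h.old (κ := κ c) (x := x c) (h.old.pw.symm ▸ (H1 c).2.2.1)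
    (by rw [show 1000 = 100 * 10 from rfl, pow_mul, h.old.pw]; exact Hx c) (H2 c).1
    ((H2 c).2.trans (mul_le_mul_of_nonneg_right h.t_le (by positivity))) (M := Mc c) (ns := ns c)
    (by rw [hMd]) (by rw [hnd])
  have hKt : (Kn : ℝ) ≤ l := (cls1 h hU hU' hKle rfl).2.2.1
  have hμM : ∀ c, 3 * (l ^ 3 * t ^ 14) * Mc c * μ c * Real.sqrt (μ c) ≤ n := fun c => by
    have e := (H3 c).2.1
    have e1 := (H1 c).1
    rw [hxd] at e
    simp only at e
    rw [le_div_iff₀ (by positivity)] at e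
    linarith
  have hμM' : ∀ c, l ^ 3 * t ^ 14 * (μ c * Mc c) ≤ n := fun c => by
    have e1 : 1 ≤ Real.sqrt (μ c) := Real.one_le_sqrt.2 (H1 c).1
    have e2 : (0 : ℝ) ≤ l ^ 3 * t ^ 14 * (μ c * Mc c) := by positivity
    nlinarith [hμM c]
  obtain ⟨M0, hM0⟩ : ∃ M0 : ℕ, M0 = ∑ p : Fin (R + 1) × Fin D, μ p.1 * Mc p.1 := ⟨_, rfl⟩
  have hcA : cd (Option (Fin (R + 1) × Fin D)) = (R + 1) * D + 1 := by simp [cd]
  have hcA' : cd (Option (Fin (R + 1) × Fin D)) ≤ 203 * (l * t ^ 2) := by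
    rw [hcA]
    have e2 : ((R : ℝ) + 1) * D ≤ 2 * t * (101 * (l * t)) := by gcongr
    have e3 : (1 : ℝ) ≤ l * t ^ 2 := one_le_mul_of_one_le_of_one_le hl1 ht2
    nlinarith
  have hcA2 : 2 * cd (Option (Fin (R + 1) × Fin D)) ≤ l * t ^ 4 := by
    have e1 := h.cm (a := 2) (b := 4) (by norm_num) (c := 406) (hC7 _ (by norm_num))
    have e2 : l * (406 * t ^ 2) ≤ l * t ^ 4 := by gcongr
    linarith
  have hcA0 : 0 ≤ cd (Option (Fin (R + 1) × Fin D)) := by rw [hcA]; positivity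
  have hcA3 : cd (Option (Fin (R + 1) × Fin D)) ≤ l ^ 2 := by
    have e1 : l * t ^ 4 ≤ l * l := by gcongr; exact h.pw (by norm_num)
    nlinarith
  have hM0le : l ^ 3 * t ^ 14 * M0 ≤ cd (Option (Fin (R + 1) × Fin D)) * n := by
    rw [hM0, hcA]
    push_cast
    rw [Finset.mul_sum]
    refine (Finset.sum_le_card_nsmul _ _ _ fun p _ => hμM' p.1).trans ?_
    simp only [card_univ, Fintype.card_prod, Fintype.card_fin, nsmul_eq_mul]
    push_cast
    nlinarith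
  have hM0ge : l * n ≤ l ^ 3 * t ^ 14 * M0 := by
    have e0 : (D : ℝ) * (μ 0 * Mc 0) ≤ M0 := by
      rw [hM0, Fintype.sum_prod_type]
      push_cast
      refine le_trans (le_of_eq ?_) (Finset.single_le_sum
        (f := fun c : Fin (R + 1) => ∑ _i : Fin D, (μ c : ℝ) * Mc c)
        (fun c _ => by positivity) (mem_univ 0))
      simp
    have e1 : (μ 0 : ℝ) ≤ (5 * t) ^ 2 := by
      have : (2 : ℝ) ^ κ 0 ≤ 2 ^ 1 :=
        pow_le_pow_right₀ (by norm_num) (by rw [hκd]; simp)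
      rw [hμ]
      nlinarith
    have e2 : Real.sqrt (μ 0) ≤ 5 * t := Real.sqrt_le_iff.2 ⟨by positivity, e1⟩
    have e3 := (H3 0).1
    have e4 := (H1 0).1
    rw [hxd] at e3
    simp only at e3
    rw [div_div, div_le_iff₀ (by positivity)] at e3
    calc l * n ≤ l * (Mc 0 * (3 * (l ^ 3 * t ^ 14) * μ 0 * Real.sqrt (μ 0) * 2)) := by gcongr
      _ ≤ l * (Mc 0 * (3 * (l ^ 3 * t ^ 14) * μ 0 * (5 * t) * 2)) := by gcongr
      _ = l ^ 3 * t ^ 14 * (30 * (l * t) * (μ 0 * Mc 0)) := by ring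
      _ ≤ l ^ 3 * t ^ 14 * (D * (μ 0 * Mc 0)) := by gcongr; linarith
      _ ≤ _ := by gcongr
  obtain ⟨nt, hnt⟩ : ∃ nt, nt = ⌈(n : ℝ) / (l ^ 3 * t ^ 19)⌉₊ := ⟨_, rfl⟩
  have hnt1 : (1 : ℝ) ≤ n / (l ^ 3 * t ^ 19) := by
    rw [le_div_iff₀ (by positivity), one_mul]
    refine le_trans ?_ (hpn 4 (by norm_num))
    rw [pow_succ l 3]
    gcongr
    exact h.pw (by norm_num)
  have hnt2 : (n : ℝ) / (l ^ 3 * t ^ 19) ≤ nt := hnt ▸ Nat.le_ceil _
  have hnt3 : (nt : ℝ) ≤ 2 * (n / (l ^ 3 * t ^ 19)) := by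
    have := Nat.ceil_lt_add_one (show 0 ≤ (n : ℝ) / (l ^ 3 * t ^ 19) by positivity)
    rw [hnt]; linarith
  have hcf : ∀ k ∈ Icc 1 Kn, cf k < R + 1 := fun k hk => by
    obtain ⟨h1, h2⟩ := mem_Icc.1 hk
    have := cf_le h h1 ((Nat.cast_le.2 h2).trans hKt)
    omega
  have hlog1 : 1 ≤ Real.log l := by rw [h.old.log_l]; linarith [h.old.log_ge]
  have hlog5 : 5 * Real.log l ≤ t := by linarith [h.lg]
  have hfil : ∀ c : Fin (R + 1), ∀ f : Option (Fin (R + 1) × Fin D) → ℝ,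
      ∑ a ∈ univ.filter fun a : Option (Fin (R + 1) × Fin D) =>
        a.elim (R + 1) (fun p => (p.1 : ℕ)) = c, f a = ∑ i : Fin D, f (some (c, i)) := by
    intro c f
    rw [Finset.sum_filter, Fintype.sum_option, Fintype.sum_prod_type]
    have : ¬ (R + 1 = (c : ℕ)) := by omega
    simp only [Option.elim, this, if_false, zero_add, Fin.val_inj]
    rw [Finset.sum_comm]
    simp
  refine ⟨Option (Fin (R + 1) × Fin D), Fin (Kn + 1) × Fin D, inferInstance, inferInstance,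
    inferInstance, inferInstance, none, fun a => a.elim 1 fun p => μ p.1,
    fun a => a.elim M0 fun p => Mc p.1, fun a => a.elim (R + 1) fun p => p.1,
    fun p => some (⟨min (cf p.1) R, by omega⟩, p.2), fun p => p.1, Kn, cf,
    fun a => a.elim 1 fun p => ns p.1, fun a => a.elim 1 fun p => LG p.1,
    fun k => Real.sqrt ((33 * C + 1) / ns (min (cf k) R)), nt, ?_⟩
  constructor
  · exact h.old.l_eq
  · have : (16 : ℝ) ≤ n := by linarith [hpn 1 (by norm_num), pow_one l]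
    exact_mod_cast this
  · linarith
  · exact ht1
  · rfl
  · rintro (_ | p)
    · exact le_rfl
    · exact_mod_cast (H1 p.1).1
  · exact hcA2
  · exact hcA3.trans (hpn 2 (by norm_num))
  · have e1 : 10000 * l ≤ (l * t ^ 4) ^ 2 := by
      have e2 : l * 1 ≤ l * t ^ 4 := by gcongr; exact one_le_pow₀ ht1
      nlinarith
    rintro (_ | p)
    · simp only [Option.elim, Nat.cast_one]
      nlinarith [hpn 2 (by norm_num)]
    · simp only [Option.elim]
      have e2 := (H1 p.1).2.1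
      calc 10000 * (μ p.1 : ℝ) ^ 2 * l = (μ p.1 : ℝ) ^ 2 * (10000 * l) := by ring
        _ ≤ (μ p.1 : ℝ) ^ 2 * (l * t ^ 4) ^ 2 := by gcongr
        _ = (μ p.1 * (l * t ^ 4)) * (μ p.1 * (l * t ^ 4)) := by ring
        _ ≤ Real.sqrt n * Real.sqrt n := by gcongr
        _ = n := hss
  · rintro (_ | p)
    · simp only [Option.elim, Nat.cast_one]
      have e1 : l ^ 2 * 2 ≤ l ^ 2 * l := by gcongr; linarith
      linarith [hpn 3 (by norm_num), pow_succ l 2]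
    · simp only [Option.elim]
      have e2 := (H1 p.1).2.1
      have e3 : 2 * cd (Option (Fin (R + 1) × Fin D)) * μ p.1 ≤ l * t ^ 4 * μ p.1 := by gcongr
      linarith
  · rintro (_ | p)
    · simp only [Option.elim]
      refine le_of_mul_le_mul_left (le_trans ?_ hM0ge) (by positivity)
      calc l ^ 3 * t ^ 14 * l ^ 2 ≤ l ^ 4 * l ^ 2 := by gcongr
        _ = l * l ^ 5 := by ring
        _ ≤ _ := by gcongr; exact hpn 5 (by norm_num)
    · simp only [Option.elim]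
      have e1 : l ^ 2 * 2 ≤ l ^ 2 * l := by gcongr; linarith
      linarith [(H3 p.1).1, Hx p.1, pow_succ l 2, h.monol (a := 3) (b := 10) (by norm_num)]
  · rintro (_ | p)
    · simp only [Option.elim]
      refine le_of_mul_le_mul_left (hM0le.trans ?_) (by positivity : 0 < l ^ 3 * t ^ 14)
      gcongr
      refine hcA3.trans ((h.monol (by norm_num : 2 ≤ 3)).trans ?_)
      exact le_mul_of_one_le_right (by positivity) (one_le_pow₀ ht1)
    · simp only [Option.elim]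
      have e1 := hμM' p.1
      have e2 := (H1 p.1).1
      have e3 : (Mc p.1 : ℝ) ≤ μ p.1 * Mc p.1 := le_mul_of_one_le_left (by positivity) e2
      have e4 : (μ p.1 : ℝ) * Mc p.1 ≤ l ^ 3 * t ^ 14 * (μ p.1 * Mc p.1) :=
        le_mul_of_one_le_left (by positivity) hLm1
      linarith
  · have e := Finset.add_sum_erase (univ : Finset (Option (Fin (R + 1) × Fin D)))
      (fun a => (a.elim 1 fun p => μ p.1) * a.elim M0 fun p => Mc p.1) (mem_univ none)
    rw [Fintype.sum_option] at e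
    simp only [Option.elim] at e ⊢
    rw [← hM0] at e
    omega
  · rintro (_ | p) ha
    · exact absurd rfl ha
    · exact hμM p.1
  · exact hM0le
  · nlinarith [h.C_le]
  · rw [sq]
    gcongr
    nlinarith [h.C_le]
  · have e1 := h.cm (a := 8) (b := 14) (by norm_num) (c := 2 * C ^ 2) (by nlinarith)
    calc C * C * (l + 1) * cd (Option (Fin (R + 1) × Fin D)) ^ 2
        ≤ C * C * (l + l) * (l * t ^ 4) ^ 2 := by gcongr; linarith
      _ = l ^ 3 * (2 * C ^ 2 * t ^ 8) := by ring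
      _ ≤ _ := by gcongr
  · rw [div_le_div_iff₀ (by positivity) (by positivity)]
    calc 2 * cd (Option (Fin (R + 1) × Fin D)) * (l ^ 2 * t ^ 10)
        ≤ l * t ^ 4 * (l ^ 2 * t ^ 10) := by gcongr
      _ = _ := by ring
  · linarith
  · exact hlog5
  · rw [Real.exp_neg, show (5 : ℝ) = (5 : ℕ) by norm_num, Real.exp_nat_mul, Real.exp_log hl0,
      one_div]
  · exact h.old.fail1
  · exact h.old.fail2
  · exact h.fail3
  · exact h.c1
  · omega
  · exact fun _ => Option.some_ne_none _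
  · intro k hk f
    have hk' := hcf k hk
    obtain ⟨-, h2⟩ := mem_Icc.1 hk
    rw [show cf k = ((⟨cf k, hk'⟩ : Fin (R + 1)) : ℕ) from rfl, hfil, Finset.sum_filter,
      Fintype.sum_prod_type, Finset.sum_eq_single (⟨k, by omega⟩ : Fin (Kn + 1))]
    · simp only [if_true]
      refine Finset.sum_congr rfl fun i _ => ?_
      exact congrArg (fun z => f (some (z, i))) (Fin.ext (min_eq_left (by omega)))
    · intro b _ hb
      refine Finset.sum_eq_zero fun i _ => if_neg fun hh => hb (Fin.ext hh)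
    · simp
  · intro k hk
    have e := hfil ⟨cf k, hcf k hk⟩ fun _ => 1
    simp only [sum_const, nsmul_eq_mul, mul_one, card_univ, Fintype.card_fin] at e
    rw [e, one_div, inv_mul_eq_div, le_div_iff₀ ht, mul_assoc]
    exact hD
  · rintro k hk (_ | p) ha
    · have := hcf k hk
      simp only [Option.elim] at ha
      omega
    · simp only [Option.elim] at ha ⊢
      obtain ⟨h1, h2⟩ := mem_Icc.1 hk
      have e1 : k ≤ κ p.1 := by
        rw [hκd, ha]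
        refine le_min h2 ?_
        exact_mod_cast (cf_spec h1).1.trans (Nat.le_ceil _)
      have e2 : (2 : ℝ) ^ k ≤ 2 ^ κ p.1 := pow_le_pow_right₀ (by norm_num) e1
      rw [hμ, one_div, inv_mul_eq_div, le_div_iff₀ ht]
      calc 8 * (t * 2 ^ k) * t = 8 * t ^ 2 * 2 ^ k := by ring
        _ ≤ _ := by gcongr
  · intro p hp
    have hk' := hcf _ hp
    obtain ⟨h1, -⟩ := mem_Icc.1 hp
    simp only [Option.elim] at h1 ⊢
    rw [min_eq_left (by omega), hμ]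
    have e1 : κ (cf p.1) ≤ 2 * p.1 + 1 := by
      have e := hκk _ h1
      have : (κ (cf p.1) : ℝ) ≤ 2 * (p.1 : ℕ) + 1 := by linarith [(p.1 : ℕ).cast_nonneg (α := ℝ)]
      exact_mod_cast this
    have e2 : (2 : ℝ) ^ κ (cf p.1) ≤ 2 ^ (2 * (p.1 : ℕ) + 1) := pow_le_pow_right₀ (by norm_num) e1
    have e3 := h.cl (a := 2) (by norm_num) (c := 36) (hC7 _ (by norm_num))
    rw [pow_succ, pow_mul] at e2
    calc 2 * ((U : ℝ) * 2 ^ κ (cf p.1)) ≤ 2 * (9 * t ^ 2 * ((2 ^ 2) ^ (p.1 : ℕ) * 2)) := by gcongr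
      _ = 36 * t ^ 2 * 4 ^ (p.1 : ℕ) := by norm_num; ring
      _ ≤ _ := by gcongr
  · rintro (_ | p)
    · exact le_rfl
    · have : (1 : ℝ) ≤ ns p.1 := by linarith [(H3 p.1).2.2.2.1]
      exact_mod_cast this
  · rintro (_ | p)
    · exact le_rfl
    · exact (H2 p.1).1
  · rintro (_ | p) ha
    · exact absurd rfl ha
    · simp only [Option.elim]
      have e1 := (H1 p.1).1
      have e2 : C * (Real.exp (-LG p.1) * (2 * n / μ p.1)) = x p.1 / 4 := by
        rw [hLd, hxd]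
        simp only
        rw [Real.exp_neg, Real.exp_log (by positivity)]
        field_simp
        ring
      linarith [(H3 p.1).1, (H3 p.1).2.2.2.2]
  · exact fun k => Real.sqrt_nonneg _
  · intro p _
    simp only [Option.elim]
    rw [Real.sq_sqrt (by positivity)]
  · have e1 : ∑ k ∈ Icc 1 Kn, (1 / 2 : ℝ) ^ k *
        ((k + 1) * Real.sqrt ((33 * C + 1) / ns (min (cf k) R))) ≤
        100 * (l * Real.sqrt l * t ^ 10 / Real.sqrt n) * 25 := by
      refine le_trans ?_ (mul_le_mul_of_nonneg_left (geo_sum Kn) (by positivity))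
      rw [Finset.mul_sum]
      refine Finset.sum_le_sum fun k hk => ?_
      have hk' := hcf k hk
      obtain ⟨h1, -⟩ := mem_Icc.1 hk
      rw [min_eq_left (by omega)]
      exact err h (κ := κ (cf k)) hU' h1 (hκk k h1) (by rw [hμd]) (H1 _).1 (by rw [hxd]) (H2 _).1
        (H2 _).2 (H3 _).2.2.1
    have e2 : (1 : ℝ) / 2 ^ Kn ≤ l * Real.sqrt l * t ^ 12 / Real.sqrt n / 2 := by
      rw [div_lt_iff₀ (by positivity)] at hK2
      rw [div_div, div_le_div_iff₀ (by positivity) (by positivity)]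
      linarith
    have e3 : 100 * (l * Real.sqrt l * t ^ 10 / Real.sqrt n) * 25 ≤
        l * Real.sqrt l * t ^ 12 / Real.sqrt n / 2 := by
      have := h.cm (a := 10) (b := 12) (by norm_num) (c := 5000) (hC7 _ (by norm_num))
      calc 100 * (l * Real.sqrt l * t ^ 10 / Real.sqrt n) * 25
          = l * Real.sqrt l * (5000 * t ^ 10) / Real.sqrt n / 2 := by ring
        _ ≤ _ := by gcongr
    linarith
  · have : (1 : ℝ) ≤ nt := hnt1.trans hnt2
    exact_mod_cast this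
  · simp only [Option.elim]
    have e1 := h.cm (a := 0) (b := 2) (by norm_num) (c := 406) (hC7 _ (by norm_num))
    have e0 : 0 ≤ 5 * Real.log l := by linarith
    refine le_of_mul_le_mul_left (le_trans ?_ hM0ge) (by positivity)
    calc l ^ 3 * t ^ 14 * (cd (Option (Fin (R + 1) × Fin D)) * (5 * Real.log l) * nt)
        ≤ l ^ 3 * t ^ 14 * (203 * (l * t ^ 2) * t * (2 * (n / (l ^ 3 * t ^ 19)))) := by gcongr
      _ = 406 * t ^ 0 / t ^ 2 * (l * n) := by field_simp; ring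
      _ ≤ 1 * (l * n) := by gcongr; rw [div_le_one (by positivity)]; exact e1
      _ = _ := one_mul _
  · simp only [Option.elim]
    refine le_of_mul_le_mul_left (le_trans ?_ hM0ge) (by positivity)
    calc l ^ 3 * t ^ 14 * (cd (Option (Fin (R + 1) × Fin D)) * (1 / l ^ 5 * n))
        ≤ l ^ 4 * (l ^ 2 * (1 / l ^ 5 * n)) := by gcongr
      _ = _ := by field_simp
  · nlinarith [h.C_le]
  · rw [div_le_iff₀ (by positivity)] at hnt2
    calc 40000 * C * n ≤ t * (nt * (l ^ 3 * t ^ 19)) := by gcongr; nlinarith [h.C_le]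
      _ = _ := by ring

end Vale.Agent.P318.E
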