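import Vale.Agent.P318.C.DetStmt

/-!
Track E: statements for the exponent `3 / 2 + ε`.
Every part is a `Prop`; a part is proved as `theorem x_proof (h1 : AStmt) ... : XStmt`.
All notions without a new definition are those of `Vale.Agent.P318.C`.
-/

namespace Vale.Agent.P318.E

open Finset MeasureTheory ProbabilityTheory
open M (ind Eb pt zz U01 tm BM ip nsq gm Dual Lat lin Inv Ksh perp vv)
open B (cf nd cd av Op IsProj rr Nice Red Kt tc res Pat pS pJ pD pw zone Bk bk sb)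
open C

noncomputable section

/-- The range of the second parameter `t`; `l` plays the role of `log (card ι)`. -/
def Rg (l t : ℝ) : Prop := Real.log l ^ 3 ≤ t ∧ t ^ 100 ≤ l

/-! ### The isoperimetric part -/

/-- The first item of `SmallStmt` with a better error term. -/
def Small2Stmt : Prop :=
  ∀ (ι : Type) [Fintype ι] [DecidableEq ι] (w : Wn) (J : Finset ι) (h : (ι → ℤ) → ℝ) (y : ι → ℝ)
    (a : ι → ι → ℝ) (A l : ℝ), w.Ok → U01 h → 0 ≤ A → 1 ≤ l →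
    (∀ j j', pq w (y j) = 0 → a j j' = 0) →
    (∀ j', ∑ j ∈ J, (a j j' / pq w (y j)) ^ 2 ≤ A ^ 2) →
      |∑ j ∈ J, ∑ j' ∈ J.erase j, dpr w (y j') * c2 w h j j' y * a j j'| ≤
        8 * Real.sqrt l * A * Inf w J h y +
          4 * A * Real.sqrt (J.card / (w.om * w.et)) * Real.exp (-l)

/-- `NearStmt` with two parameters `l`, `l'`. -/
def Near2Stmt : Prop :=
  ∀ ω W δ C1 B : ℝ, 0 < ω → 0 < W → 0 < δ → 0 ≤ C1 → 0 ≤ B →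
    ∃ C : ℝ, 0 < C ∧ ∀ w : Wn, w.Ok → w.om = ω →
      ∀ (ι κ : Type) [Fintype ι] [DecidableEq ι] [Fintype κ] [Nonempty κ]
      (Γ : AddSubgroup (κ → ℝ)) (J : Finset ι) (s : ι → κ → ℤ) (t : ι → ℝ) (h : (ι → ℤ) → ℝ)
      (σ ε l l' : ℝ) (χ : ι → ℝ → ℝ) (m : ι → ℝ),
      (∀ n : κ → ℤ, (fun k => (n k : ℝ)) ∈ Γ) → (∀ j, j ∉ J → s j = 0) → U01 h → Inv Γ s h →
      0 < σ → W ^ 2 = σ ^ 2 * Fintype.card κ → (∀ j, T3 (s j)) → ZPat J s →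
      SplitT J s (C1 * Fintype.card κ) (ε ^ 2 * Fintype.card κ) → 0 ≤ ε → 1 ≤ l → 1 ≤ l' →
      (∀ j, Measurable (χ j)) → (∀ j u, |χ j u| ≤ 1) → (∀ j, |m j| ≤ 1) → ∑ j ∈ J, m j ^ 2 ≤ B →
      |∑ j ∈ J, ∫ ξ, (if |ip (s j) ξ| < 1 / 2 then χ j (ip (s j) ξ) else 0) *
          tm (fun η => pq w ((t + lin s η) j) * (c1 w h j (t + lin s η) - m j) *
            psi w ((t + lin s (η + ξ)) j) *
            (c1 w h j (t + lin s η) - c1 w h j (t + lin s (η + ξ)))) ∂gm κ σ| ≤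
        δ * (∑ j ∈ J, tm fun η => pq w ((t + lin s η) j) * (c1 w h j (t + lin s η) - m j) ^ 2) +
          C * (Fi w * tm (fun η => W2 w J h (t + lin s η)) +
            (Real.sqrt l + l' * w.et) * ε * tm (fun η => Inf w J h (t + lin s η)) +
            ε * (Real.sqrt (J.card / w.et) * Real.exp (-l) + J.card * Real.exp (-l')))

/-- The block lemma. -/
def BlockEStmt : Prop :=
  ∀ c0 : ℝ, 0 < c0 → ∃ ω0 : ℝ, 0 < ω0 ∧ ∀ ω C1 : ℝ, 0 < ω → ω ≤ ω0 → 0 ≤ C1 →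
    ∃ C : ℝ, 1 ≤ C ∧ ∀ w : Wn, w.Ok → w.om = ω →
      ∀ (ι κ : Type) [Fintype ι] [DecidableEq ι] [Fintype κ] [Nonempty κ]
      (Γ : AddSubgroup (κ → ℝ)) (J : Finset ι) (s : ι → κ → ℤ) (ε l l' : ℝ),
      Lat Γ (c0 * Fintype.card κ) → (∀ j, Dual Γ (s j)) → (∀ j, T3 (s j)) →
      (∀ j ∈ J, (Fintype.card κ : ℝ) / 4 ≤ ∑ k, (s j k : ℝ) ^ 2) → (∀ j, j ∉ J → s j = 0) →
      ZPat J s → SplitT J s (C1 * Fintype.card κ) (ε ^ 2 * Fintype.card κ) → Ksh J s (ε ^ 2) →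
      0 ≤ ε → 1 ≤ l → 1 ≤ l' →
      BlockAt w (C * Fi w ^ 2) (C * Fi w * (Real.sqrt l + l' * w.et) * ε)
        (C * Fi w * (ε * (Real.sqrt (J.card / w.et) * Real.exp (-l) + J.card * Real.exp (-l'))))
        Γ J s

/-- `Poin2Stmt` with an error term proportional to the size of the block. -/
def Poin3Stmt : Prop :=
  ∃ C : ℝ, 0 < C ∧ ∀ (ι B A : Type) [Fintype ι] [DecidableEq ι] [Fintype B] [DecidableEq B]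
    [Fintype A] [DecidableEq A] (M : B → ℕ) (blk : B → Finset ι)
    (s : (J : B) → ι → Fin (M J) → ℤ) (Γ : (J : B) → AddSubgroup (Fin (M J) → ℝ))
    (P : A → ι → B) (sc : A → ℕ) (Kn : ℕ) (Γt : AddSubgroup (Kt M → ℝ))
    (c : ι → ℝ) (f : (ι → ℤ) → ℝ) (w : Wn) (E1 : ℕ → ℝ) (L θ X Y sh C1 C2 : ℝ), w.Ok →
    (∀ k, 0 ≤ E1 k) → 0 ≤ Y → 1 ≤ L → 0 ≤ θ → θ * (1 + 2 * L) ≤ 1 / 2 → 2 ≤ X →
    200 * L * X * Real.exp (-X) ≤ 1 → 1 ≤ Kn →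
    (∀ k ∈ Icc 1 Kn, (univ.filter fun a => sc a = k).Nonempty ∧
      ∀ T : Finset ι, (T.card : ℝ) ≤ X * 2 ^ k →
        ∑ a ∈ univ.filter fun a => sc a = k, (coll (P a) T : ℝ) ≤
          θ * T.card * (univ.filter fun a => sc a = k).card) →
    (∀ J j, j ∉ blk J → s J j = 0) → (∀ a i j, j ∈ blk (P a i) ↔ P a j = P a i) →
    (∀ a i, sc a ∈ Icc 1 Kn →
      BlockAt w L (E1 (sc a)) (E1 (sc a) * (Y * (blk (P a i)).card / cd ι))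
        (Γ (P a i)) (blk (P a i)) (s (P a i))) →
    0 < sh → 0 < C1 → 0 ≤ C2 → Lat Γt sh → (∀ j, Dual Γt (tc s j)) → (∀ j, T3 (tc s j)) →
    SplitT univ (tc s) C1 C2 → U01 f → Inv ⊤ (tc s) f →
    tm (fun β => Ey w (fun x => f x ^ 2) (c + lin (tc s) β)) -
        tm (fun β => Ey w f (c + lin (tc s) β)) ^ 2 ≤
      C * ((1 + Fi w * (C1 / sh)) *
          (((∑ k ∈ Icc 1 Kn, (1 / 2 : ℝ) ^ k * E1 k) + 1 / 2 ^ Kn) *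
            (tm (fun β => Inf w univ f (c + lin (tc s) β)) + Y)) +
        Real.sqrt (C2 / sh) * tm (fun β => Inf w univ f (c + lin (tc s) β)))

/-- All hypotheses of the isoperimetric part. -/
structure IAllE {ι B A : Type} [Fintype ι] [DecidableEq ι] [Fintype B] [DecidableEq B]
    [Fintype A] [DecidableEq A] {M : B → ℕ}
    (blk : B → Finset ι) (s : (J : B) → ι → Fin (M J) → ℤ)
    (Γ : (J : B) → AddSubgroup (Fin (M J) → ℝ)) (P : A → ι → B) (sc : A → ℕ) (Kn : ℕ)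
    (e : ℕ → ℝ) (Γt : AddSubgroup (Kt M → ℝ)) (l t c0 C1 sh C1t C2t : ℝ) : Prop where
  l_eq : l = Real.log (cd ι)
  zero : ∀ J j, j ∉ blk J → s J j = 0
  t3 : ∀ J j, T3 (s J j)
  dim_pos : ∀ J, 1 ≤ M J
  part : ∀ a i j, j ∈ blk (P a i) ↔ P a j = P a i
  one_le : 1 ≤ Kn
  coll : ∀ k ∈ Icc 1 Kn, (univ.filter fun a => sc a = k).Nonempty ∧
    ∀ T : Finset ι, (T.card : ℝ) ≤ t * 2 ^ k →
      ∑ a ∈ univ.filter fun a => sc a = k, (coll (P a) T : ℝ) ≤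
        1 / t * T.card * (univ.filter fun a => sc a = k).card
  block : ∀ a i, sc a ∈ Icc 1 Kn →
    BlkOK (Γ (P a i)) (blk (P a i)) (s (P a i)) c0 C1 (e (sc a))
  big : ∀ a i, sc a ∈ Icc 1 Kn → cd ι ≤ l * 4 ^ sc a * (blk (P a i)).card
  e_nonneg : ∀ k, 0 ≤ e k
  e_sum : (∑ k ∈ Icc 1 Kn, (1 / 2 : ℝ) ^ k * ((k + 1) * e k)) + 1 / 2 ^ Kn ≤
    l * Real.sqrt l * t ^ 12 / Real.sqrt (cd ι)
  lat : Lat Γt sh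
  dual : ∀ j, Dual Γt (tc s j)
  split : SplitT univ (tc s) C1t C2t
  sh_pos : 0 < sh
  C1t_pos : 0 < C1t
  C1t_le : C1t ≤ t * sh
  C2t_nonneg : 0 ≤ C2t
  C2t_le : C2t ≤ l ^ 3 * t ^ 20 / cd ι * sh

/-- The isoperimetric inequality with numbers. -/
def IsoEStmt : Prop :=
  ∀ c0 C1 : ℝ, 0 < c0 → 0 ≤ C1 → ∃ ω0 : ℝ, 0 < ω0 ∧ ∀ ω : ℝ, 0 < ω → ω ≤ ω0 → ∃ l0 : ℝ,
    ∀ (ι B A : Type) [Fintype ι] [DecidableEq ι] [Fintype B] [DecidableEq B]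
      [Fintype A] [DecidableEq A] (M : B → ℕ) (blk : B → Finset ι)
      (s : (J : B) → ι → Fin (M J) → ℤ) (Γ : (J : B) → AddSubgroup (Fin (M J) → ℝ))
      (P : A → ι → B) (sc : A → ℕ) (Kn : ℕ) (e : ℕ → ℝ) (Γt : AddSubgroup (Kt M → ℝ))
      (l t sh C1t C2t : ℝ), l0 ≤ l → Rg l t → IAllE blk s Γ P sc Kn e Γt l t c0 C1 sh C1t C2t →
      ∀ (c : ι → ℝ) (f : (ι → ℤ) → ℝ), (∀ x, f x = 0 ∨ f x = 1) → Inv ⊤ (tc s) f →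
        tm (fun β => Ey ⟨ω, 1 / (l * t)⟩ f (c + lin (tc s) β)) *
            (1 - tm fun β => Ey ⟨ω, 1 / (l * t)⟩ f (c + lin (tc s) β)) ≤
          l * Real.sqrt l * t ^ 15 / Real.sqrt (cd ι) *
            tm (fun β => Inf ⟨ω, 1 / (l * t)⟩ univ f (c + lin (tc s) β)) + 1 / 100

/-! ### The geometry -/

/-- `x` if the coordinate is active (`η ≤ max |ϑ| |ϑ'|`), else `0`. -/
def za (η ϑ ϑ' x : ℝ) : ℝ := if η ≤ max |ϑ| |ϑ'| then x else 0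

/-- The test which pays for a violation of the box at an active coordinate. -/
def Vt (ω η ϑ ϑ' t : ℝ) : ℝ :=
  if η ≤ max |ϑ| |ϑ'| then rp (-(1 / 2 + ω + η)) η (sg ϑ * t) else 0

/-- The seven tests of the second estimate. -/
def tg (ω η ϑ ϑ' t : ℝ) : Fin 7 → ℝ :=
  ![R1 ω η (za η ϑ ϑ' ϑ) (za η ϑ ϑ' ϑ') t, R2 ω η (za η ϑ ϑ' ϑ) (za η ϑ ϑ' ϑ') t,
    R3 ω η (za η ϑ ϑ' ϑ) (za η ϑ ϑ' ϑ') t, ϑ * t, ϑ' * t, sg ϑ * t, Vt ω η ϑ ϑ' t]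

section System

variable {ι B : Type} [Fintype ι] [DecidableEq ι] [Fintype B] [DecidableEq B] {M : B → ℕ}

def T7 (ω η : ℝ) (ϑ ϑ' u : ι → ℝ) (i : Fin 7) : ℝ := ∑ j, tg ω η (ϑ j) (ϑ' j) (u j) i

/-- The seven tests at the resolution `η` are close to their means. -/
def Tst (w : Wn) (η Le : ℝ) (blk : B → Finset ι) (s : (J : B) → ι → Fin (M J) → ℤ)
    (Sp : (ι → ℝ) →ₗ[ℝ] (Kt M → ℝ)) (g : ℕ) (u : ι → ℝ) : Prop :=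
  ∀ π π' : Pat M g, pS π = pS π' → ∀ i,
    |T7 w.om η (th1 s π) (th2 s π π') u i -
      zE w fun z => T7 w.om η (th1 s π) (th2 s π π') (perp (tc s) Sp z) i| ≤
    12 / η * Real.sqrt ((zone blk (pS π)).card * ent Le π)

/-- Good vertices. -/
def GoodE (w : Wn) (η0 Le : ℝ) (Ni : ℕ) (blk : B → Finset ι) (s : (J : B) → ι → Fin (M J) → ℤ)
    (Sp : (ι → ℝ) →ₗ[ℝ] (Kt M → ℝ)) (g : ℕ) (u : ι → ℝ) : Prop :=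
  GoodC w (w.om / 10) Le blk s Sp g u ∧
    ∀ i : Fin Ni, Tst w (η0 * Real.sqrt ((i : ℕ) + 1)) Le blk s Sp g u

/-- The mean of the last test. -/
def VOK (w : Wn) (η p : ℝ) (s : (J : B) → ι → Fin (M J) → ℤ)
    (Sp : (ι → ℝ) →ₗ[ℝ] (Kt M → ℝ)) : Prop :=
  ∀ ϑ ϑ' : ι → ℝ, zE w (fun z => T7 w.om η ϑ ϑ' (perp (tc s) Sp z) 6) ≤
    p * (univ.filter fun j => η ≤ max |ϑ j| |ϑ' j|).card

/-- The points which lie in at least `N` blocks of `S`. -/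
def zn (blk : B → Finset ι) (S : Finset B) (N : ℕ) : Finset ι :=
  univ.filter fun j => N ≤ (S.filter fun J => j ∈ blk J).card

/-- `C1c` for points which lie in at least `N` marked blocks. -/
def C1n (blk : B → Finset ι) (s : (J : B) → ι → Fin (M J) → ℤ)
    (Γ : (J : B) → AddSubgroup (Fin (M J) → ℝ)) (J0 : B) (wt : B → ℝ) (g : ℕ) (Υ : ℝ) : Prop :=
  ∀ (π : Pat M g) (η : ℝ) (N : ℕ), 0 < η → 1 ≤ N → N * η ^ 2 ≤ 1 / 4 → J0 ∉ pJ π →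
    ∑ J ∈ pS π, wt J ≤ Υ * (zn blk (pJ π) N).card →
    (∀ J ∈ pJ π, ∀ γ ∈ Γ J, η ^ 2 ≤ nsq (res (pD π) J - γ)) →
    nsq (res (pD π) J0) ≤ 16 * (N * η ^ 2) →
    ((zn blk (pJ π) N).card : ℝ) / 40 ≤
      (((zn blk (pJ π) N).filter fun i => Real.sqrt N * η / 10 ≤ nd (pw s π i)).card : ℝ)

end System

/-- Decoding. -/
def DecEStmt : Prop :=
  ∀ (ι B : Type) [Fintype ι] [DecidableEq ι] [Fintype B] [DecidableEq B] (M : B → ℕ)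
    (blk : B → Finset ι) (s : (J : B) → ι → Fin (M J) → ℤ)
    (Γ : (J : B) → AddSubgroup (Fin (M J) → ℝ)) (J0 : B) (wt : B → ℝ)
    (F Lm Cn φ K LG εR Υ δ1 : ℝ) (g k0 p : ℕ),
    CSys blk s Γ J0 wt F Lm Cn φ → (∀ J, J ≠ J0 → wt J ≤ (blk J).card) → RipS blk s K LG εR →
    C1c blk s Γ J0 wt g Υ → C1n blk s Γ J0 wt g Υ →
    1 ≤ K → 1 ≤ LG → 0 ≤ εR → 0 < δ1 → δ1 ≤ 1 / 4 → 1 ≤ k0 → F * cd ι ≤ 2 ^ k0 → 1 ≤ p →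
    F ≤ 2 ^ p → 10 ^ 7 * p * F ^ 2 * K * LG ≤ Υ → 320 * Cn ^ 2 * 2 ^ k0 ≤ g →
    10 ^ 7 * k0 * p * F * K * (1 / Lm + εR) ≤ δ1 →
    Dec s wt (10 ^ 7 * p * F ^ 2 * K * LG / δ1) δ1

/-- The inequalities in one coordinate (wide box). -/
def CoreEStmt : Prop :=
  ∀ (ω η y y' y'' ϑ ϑ' d e e' : ℝ) (k k' : ℤ), 0 < ω → ω ≤ 1 / 16 → 0 < η → η ≤ ω / 8 →
    |y| ≤ 1 / 2 + ω + ω / 8 → |y'| ≤ 1 / 2 + ω + ω / 8 → |y''| ≤ 1 / 2 + ω + ω / 8 →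
    |ϑ| ≤ 1 / 2 → |ϑ' - ϑ| ≤ 1 / 2 → |d| ≤ η ^ 2 →
    y - y' = (1 - d) * (k - ϑ) - e → y'' - y' = (1 - d) * (k' - ϑ') - e' →
    (R1 ω η (za η ϑ ϑ' ϑ) (za η ϑ ϑ' ϑ') y' - R2 ω η (za η ϑ ϑ' ϑ) (za η ϑ ϑ' ϑ') y -
        R3 ω η (za η ϑ ϑ' ϑ) (za η ϑ ϑ' ϑ') y'' - mu ω η (za η ϑ ϑ' ϑ) (za η ϑ ϑ' ϑ') -
        ϑ * (y'' - y') - ϑ' * (y - y') + 14 * η / ω * (sg ϑ * (y - y')) -
        84 * η / ω * (k - ϑ) ^ 2 - 3 / η * (|e| + |e'|) - |k - ϑ| * |e'| -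
        20 * (e ^ 2 + e' ^ 2) / η ^ 2 - 2 * Vt ω η ϑ ϑ' y - 2 * Vt ω η ϑ ϑ' y'' ≤
      (k - ϑ) * (y'' - y')) ∧
    (ϑ = 0 → ϑ' = 0 →
      -(|(k : ℝ)| * |e'|) - 20 * (e ^ 2 + e' ^ 2) / η ^ 2 ≤ k * (y'' - y'))

/-- Second estimate, summation over the coordinates. -/
def SumEStmt : Prop :=
  ∀ (ι : Type) [Fintype ι] [DecidableEq ι] (ω η E p : ℝ) (u u' u'' ϑ ϑ' d e e' : ι → ℝ)
    (k k' : ι → ℤ) (I W : Finset ι) (m : Fin 7 → ℝ),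
    0 < ω → ω ≤ 1 / 16 → 0 < η → η ≤ ω / 8 → 0 ≤ p → W ⊆ I →
    (∀ j, |u j| ≤ 1 / 2 + ω + ω / 8 ∧ |u' j| ≤ 1 / 2 + ω + ω / 8 ∧ |u'' j| ≤ 1 / 2 + ω + ω / 8) →
    (∀ j, |ϑ j| ≤ 1 / 2 ∧ |ϑ' j - ϑ j| ≤ 1 / 2 ∧ |d j| ≤ η ^ 2) →
    (∀ j, j ∉ W → ϑ j = 0 ∧ ϑ' j = 0) → (∀ j, j ∉ I → k j = 0) →
    (∀ j ∈ I, u j - u' j = (1 - d j) * (k j - ϑ j) - e j ∧
      u'' j - u' j = (1 - d j) * (k' j - ϑ' j) - e' j) →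
    (∀ i, |T7 ω η ϑ ϑ' u i - m i| ≤ E ∧ |T7 ω η ϑ ϑ' u' i - m i| ≤ E ∧
      |T7 ω η ϑ ϑ' u'' i - m i| ≤ E) →
    ∑ j, mu ω η (za η (ϑ j) (ϑ' j) (ϑ j)) (za η (ϑ j) (ϑ' j) (ϑ' j)) ≤ m 0 - m 1 - m 2 →
    m 6 ≤ p * (univ.filter fun j => η ≤ max |ϑ j| |ϑ' j|).card →
    -(∑ j, (k j - ϑ j) * (u'' j - u' j)) ≤
      84 * η / ω * ∑ j, (k j - ϑ j) ^ 2 + 15 * E +
        3 / η * Real.sqrt W.card * (Real.sqrt (∑ j ∈ W, e j ^ 2) + Real.sqrt (∑ j ∈ W, e' j ^ 2)) +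
        Real.sqrt (∑ j, (k j - ϑ j) ^ 2) * Real.sqrt (∑ j ∈ I, e' j ^ 2) +
        20 * (∑ j ∈ I, e j ^ 2 + ∑ j ∈ I, e' j ^ 2) / η ^ 2 +
        4 * p / η ^ 2 * (∑ j, (k j - ϑ j) ^ 2 + ∑ j, (k' j - ϑ' j) ^ 2)

/-- The mean of the last test. -/
def VMeanStmt : Prop :=
  ∀ (ι B : Type) [Fintype ι] [DecidableEq ι] [Fintype B] [DecidableEq B] (M : B → ℕ)
    (s : (J : B) → ι → Fin (M J) → ℤ) (Sp : (ι → ℝ) →ₗ[ℝ] (Kt M → ℝ)) (w : Wn) (η Pm : ℝ),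
    w.Ok → 0 < η → IsProj (tc s) Sp → 0 < Pm →
    (∀ i, ∑ j, lin (tc s) (Sp (Pi.single j 1)) i ^ 2 ≤ Pm) →
    VOK w η (2 * Real.exp (-η ^ 2 / (16 * Pm))) s Sp

/-- There is an offset for which almost all samples are nice. -/
def TypEStmt : Prop :=
  ∀ (ι B : Type) [Fintype ι] [DecidableEq ι] [Fintype B] [DecidableEq B] (M : B → ℕ)
    (blk : B → Finset ι) (s : (J : B) → ι → Fin (M J) → ℤ) (Sp : (ι → ℝ) →ₗ[ℝ] (Kt M → ℝ))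
    (w : Wn) (η0 Le Pm x : ℝ) (g Ni : ℕ),
    w.Ok → w.om ≤ 1 / 16 → 0 < η0 → η0 * Real.sqrt Ni ≤ 1 → 0 < Pm → 0 ≤ Le → IsProj (tc s) Sp →
    (∀ J j, j ∉ blk J → s J j = 0) → (∀ J, (blk J).Nonempty) →
    (∀ i, ∑ j, lin (tc s) (Sp (Pi.single j 1)) i ^ 2 ≤ Pm) →
    ∑ J, 2 * (2 * g + 1 : ℝ) ^ M J * Real.exp (-(Le * M J)) ≤ x → x ≤ 1 / 2 →
    BM (fun y : ι → ℝ => Eb (py w y) fun b =>
      ind (¬ Nice (tc s) Sp (GoodE w η0 Le Ni blk s Sp g) (zz y b))) ∧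
    ∃ c : ι → ℝ, tm (fun β => Eb (py w (c + lin (tc s) β)) fun b =>
        ind (¬ Nice (tc s) Sp (GoodE w η0 Le Ni blk s Sp g) (zz (c + lin (tc s) β) b))) ≤
      2 * cd ι * Real.exp (-(w.om / 10) ^ 2 / (16 * Pm)) + 100 * (Ni + 1) * x

/-- Second estimate at the resolution `η`. -/
def G2EStmt : Prop :=
  ∀ (ι B : Type) [Fintype ι] [DecidableEq ι] [Fintype B] [DecidableEq B] (M : B → ℕ)
    (blk : B → Finset ι) (s : (J : B) → ι → Fin (M J) → ℤ)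
    (Γ : (J : B) → AddSubgroup (Fin (M J) → ℝ)) (J0 : B) (wt : B → ℝ)
    (Sp : (ι → ℝ) →ₗ[ℝ] (Kt M → ℝ)) (c : ι → ℝ) (w : Wn) (F Lm Cn φ η p Le Υ1 δ1 Y : ℝ) (g : ℕ),
    CSys blk s Γ J0 wt F Lm Cn φ → Dec s wt Υ1 δ1 → RP blk s (1 / Y ^ 15) (η ^ 2) (Y ^ 5) →
    IsProj (tc s) Sp → MeanOK w η s Sp → VOK w η p s Sp →
    0 < w.om → w.om ≤ 1 / 16 → 0 < η → η ≤ w.om / 8 → 0 ≤ p → 0 ≤ Le → 0 ≤ δ1 → δ1 ≤ 1 / 4 →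
    1 ≤ g → cd ι * Cn ≤ g → 1000 ≤ Y → F ≤ Y → Υ1 + 6 ≤ Y → Le ≤ Y → 1 / η ≤ Y →
    ∀ x x' x'' : ι → ℤ,
      (∀ j, |vv (tc s) Sp c x j| ≤ 1 / 2 + w.om + w.om / 8 ∧
        |vv (tc s) Sp c x' j| ≤ 1 / 2 + w.om + w.om / 8 ∧
        |vv (tc s) Sp c x'' j| ≤ 1 / 2 + w.om + w.om / 8) →
      Tst w η Le blk s Sp g (vv (tc s) Sp c x) → Tst w η Le blk s Sp g (vv (tc s) Sp c x') →
      Tst w η Le blk s Sp g (vv (tc s) Sp c x'') →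
      rr (tc s) Sp c x x' ≤ rr (tc s) Sp c x' x'' →
      Y ^ 128 * (rr (tc s) Sp c x' x'' + 1) ≤ cd ι →
      rr (tc s) Sp c x x'' ≤ rr (tc s) Sp c x x' + rr (tc s) Sp c x' x'' +
        4000 * η / w.om * (rr (tc s) Sp c x x' + 1) +
        128 * p / η ^ 2 * (rr (tc s) Sp c x' x'' + 1) +
        Y ^ 11 * (rr (tc s) Sp c x' x'' + 1) *
          ((rr (tc s) Sp c x' x'' + 1) / cd ι) ^ (1 / 32 : ℝ)

/-- The concave profile; the defect may grow like the logarithm of the ratio of the sides. -/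
def ProfEStmt : Prop :=
  ∃ C : ℝ, 1 ≤ C ∧ ∀ n K ε Z : ℝ, 16 ≤ n → 0 ≤ K → C * K ≤ 1 → 0 < ε → C * ε ≤ 1 → 2 ≤ Z →
    1 / ε ≤ Z →
    ∃ (ψ : ℝ → ℝ) (Λ : ℝ), Bern ψ ∧ (∀ v, 0 ≤ v → v ≤ ψ v ∧ ψ v ≤ Λ * v) ∧
      Λ ≤ Real.exp (C * (K * (Real.log Z + Real.log (Real.log n)) + ε * Real.log n)) ∧
      ∀ a b c : ℝ, 0 ≤ a → a ≤ b → b ≤ 4 * n → 0 ≤ c → c ≤ a + b + K * (a + 1) →
        (∀ i : ℕ, (2 : ℝ) ^ i ≤ 16 * n → b + 1 ≤ 2 ^ i * (a + 1) → Z * (b + 1) ≤ n →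
          c ≤ a + b + ε * (i + 1) * (a + 1) + Z * (b + 1) * ((b + 1) / n) ^ (1 / 32 : ℝ)) →
        ψ c ≤ ψ a + ψ b + Λ

/-- All hypotheses of the geometry. -/
structure GAllE {ι B : Type} [Fintype ι] [DecidableEq ι] [Fintype B] [DecidableEq B] {M : B → ℕ}
    (blk : B → Finset ι) (s : (J : B) → ι → Fin (M J) → ℤ)
    (Γ : (J : B) → AddSubgroup (Fin (M J) → ℝ)) (J0 : B) (wt : B → ℝ)
    (l t F K LG cG φ : ℝ) : Prop where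
  sys : CSys blk s Γ J0 wt F (l ^ 3 * t ^ 14) (cd ι ^ 2) φ
  wt_le : ∀ J, J ≠ J0 → wt J ≤ (blk J).card
  l_eq : l = Real.log (cd ι)
  cardB : cd B ≤ cd ι ^ 2
  rip1 : RipS blk s K (l + 1) 0
  rip2 : RipS blk s K LG (1 / l ^ 5)
  low : LowG blk s cG
  c1 : C1c blk s Γ J0 wt (Fintype.card ι ^ 8) (l ^ 2 * t ^ 12)
  c1n : C1n blk s Γ J0 wt (Fintype.card ι ^ 8) (l ^ 2 * t ^ 12)
  lo : LeaveOut blk s (2 / cG) (l ^ 2)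
  one_le_K : 1 ≤ K
  one_le_LG : 1 ≤ LG
  cG_pos : 0 < cG
  F_le : F ≤ l * t ^ 4
  K_le : K ≤ t
  LG_le : LG ≤ t
  cG_ge : 1 / cG ≤ t
  phi_pos : 0 < φ
  phi_le : φ ≤ 1 / (l ^ 2 * t ^ 10)

/-- The geometry. -/
def GeoEStmt : Prop :=
  ∀ p : ℝ, 0 < p → ∃ ω0 : ℝ, 0 < ω0 ∧ ∀ ω : ℝ, 0 < ω → ω ≤ ω0 → ∃ l0 : ℝ,
    ∀ (ι B : Type) [Fintype ι] [DecidableEq ι] [Fintype B] [DecidableEq B] (M : B → ℕ)
      (blk : B → Finset ι) (s : (J : B) → ι → Fin (M J) → ℤ)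
      (Γ : (J : B) → AddSubgroup (Fin (M J) → ℝ)) (J0 : B) (wt : B → ℝ) (l t F K LG cG φ : ℝ),
      l0 ≤ l → Rg l t → GAllE blk s Γ J0 wt l t F K LG cG φ →
      ∃ (c : ι → ℝ) (dd : (ι → ℤ) → (ι → ℤ) → ℝ),
        MetricAt ⟨ω, 1 / (l * t)⟩ (l ^ p * cd ι) (cd ι / 51200) (tc s) c dd

/-! ### Existence -/

/-- Small ball property for several blocks at once. -/
def Msb {ι A : Type} [Fintype A] [DecidableEq A] {Mf : A → ℕ} {Ω : A → Type} [∀ a, Fintype (Ω a)]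
    (a0 : A) (ρ : ι → ((a : A) → Ω a) → (a : A) → Fin (Mf a) → ℤ)
    (Γ : (a : A) → AddSubgroup (Fin (Mf a) → ℝ)) : Prop :=
  ∀ (j : ι) (T : Finset A) (Δ : (a : A) → Fin (Mf a) → ℝ) (η : ℝ), a0 ∉ T → T.Nonempty → 0 < η →
    T.card * η ^ 2 ≤ 1 / 4 → (∀ a ∈ T, ∀ γ ∈ Γ a, η ^ 2 ≤ nsq (Δ a - γ)) →
    nsq (Δ a0) ≤ 16 * (T.card * η ^ 2) →
    1 / 20 ≤ av fun ω : (a : A) → Ω a =>
      ind (Real.sqrt T.card * η / 10 ≤ nd (∑ a, ip (ρ j ω a) (Δ a)))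

/-- `LawExStmt` with `Msb`. -/
def LawEx2Stmt : Prop :=
  ∃ C : ℝ, 1 ≤ C ∧ ∀ (ι A : Type) [Fintype ι] [DecidableEq ι] [Fintype A] [DecidableEq A] (a0 : A)
    (m Mf : A → ℕ) (π : (a : A) → ι → Fin (m a)) (L : ℝ), m a0 = 1 → 1 ≤ L → cd A ≤ Real.exp L →
    cd ι ≤ Real.exp L →
    (∀ a, C * L ≤ Mf a) → (∀ a, (Mf a : ℝ) ≤ Real.exp L) →
    ∑ a ∈ univ.erase a0, m a * Mf a ≤ Mf a0 →
    ∃ (Ω : A → Type) (_ : ∀ a, Fintype (Ω a)) (ρ : ι → ((a : A) → Ω a) → (a : A) → Fin (Mf a) → ℤ)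
      (Γ : (a : A) → AddSubgroup (Fin (Mf a) → ℝ)) (τ0 : ℝ)
      (Γt : AddSubgroup (Kt (fun J : Bk m => Mf J.1) → ℝ)),
      Law a0 ρ Γ τ0 ∧ Glue a0 π ρ Γ Γt ∧ Msb a0 ρ Γ

/-- The property `C1n`. -/
def C1nStmt : Prop :=
  ∀ (ι A : Type) [Fintype ι] [DecidableEq ι] [Fintype A] [DecidableEq A] (a0 : A)
    (m Mf : A → ℕ) (Ω : A → Type) [∀ a, Fintype (Ω a)] (π : (a : A) → ι → Fin (m a))
    (ρ : ι → ((a : A) → Ω a) → (a : A) → Fin (Mf a) → ℤ)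
    (Γ : (a : A) → AddSubgroup (Fin (Mf a) → ℝ)) (τ0 Υ : ℝ) (v0 : Fin (m a0)) (wt : Bk m → ℝ)
    (g : ℕ), Law a0 ρ Γ τ0 → Msb a0 ρ Γ → m a0 = 1 → 0 < Υ →
    av (fun x : ι → (a : A) → Ω a =>
        ind (¬ C1n (M := fun J : Bk m => Mf J.1) (bk π) (smp π ρ x) (fun J => Γ J.1) ⟨a0, v0⟩
          wt g Υ)) ≤
      cd A * (Real.exp (∑ J : Bk m,
        2 * (2 * g + 1 : ℝ) ^ Mf J.1 * Real.exp (-(wt J / (160 * Υ)))) - 1)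

/-- `LowGStmt` with `cd A ^ 2`. -/
def LowGEStmt : Prop :=
  ∃ C : ℝ, 1 ≤ C ∧ ∀ (ι A : Type) [Fintype ι] [DecidableEq ι] [Fintype A] [DecidableEq A] (a0 : A)
    (m Mf : A → ℕ) (Ω : A → Type) [∀ a, Fintype (Ω a)] (π : (a : A) → ι → Fin (m a))
    (ρ : ι → ((a : A) → Ω a) → (a : A) → Fin (Mf a) → ℤ)
    (Γ : (a : A) → AddSubgroup (Fin (Mf a) → ℝ)) (τ0 K Lg Lam : ℝ), Law a0 ρ Γ τ0 → Parts a0 m π →
    1 ≤ K → 1 ≤ Lg → (∀ a, 1 ≤ Mf a) →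
    (∀ a, a ≠ a0 → Lam * Mf a * m a * Real.sqrt (m a) ≤ cd ι) → Lam * Mf a0 ≤ cd A * cd ι →
    C * K * Lg * cd A ^ 2 ≤ Lam →
    av (fun x : ι → (a : A) → Ω a =>
        ind (RipS (M := fun J : Bk m => Mf J.1) (bk π) (smp π ρ x) K Lg 0 ∧
          ¬ LowG (M := fun J : Bk m => Mf J.1) (bk π) (smp π ρ x) (1 / C))) ≤
      cd A * ∑ J : Bk m, 10 * Real.exp (-(Mf J.1 : ℝ))

/-- The parameters (as `Par`). -/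
structure ParE (n : ℕ) (l t C : ℝ) {A A' : Type} [Fintype A] [DecidableEq A] [Fintype A']
    [DecidableEq A'] (a0 : A) (m Mf : A → ℕ) (cl : A → ℕ) (ph : A' → A) (sc : A' → ℕ) (Kn : ℕ)
    (c : ℕ → ℕ) (ns : A → ℕ) (LGa : A → ℝ) (e : ℕ → ℝ) (nt : ℕ) : Prop where
  l_eq : l = Real.log n
  n_ge : 16 ≤ n
  l_ge : 100 ≤ l
  t_ge : 1 ≤ t
  top : m a0 = 1
  pos : ∀ a, 1 ≤ m a
  cardA : 2 * cd A ≤ l * t ^ 4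
  cardA_le : cd A ≤ n
  msq : ∀ a, 10000 * (m a : ℝ) ^ 2 * l ≤ n
  mA : ∀ a, 2 * cd A * m a ≤ n
  M_ge : ∀ a, l ^ 2 ≤ Mf a
  M_le : ∀ a, (Mf a : ℝ) ≤ n
  sum_le : ∑ a ∈ univ.erase a0, m a * Mf a ≤ Mf a0
  dim : ∀ a, a ≠ a0 → 3 * (l ^ 3 * t ^ 14) * Mf a * m a * Real.sqrt (m a) ≤ n
  dim0 : l ^ 3 * t ^ 14 * Mf a0 ≤ cd A * n
  C_le : C ≤ t
  C_le' : C * l ≤ l ^ 2
  lowg : C * C * (l + 1) * cd A ^ 2 ≤ l ^ 3 * t ^ 14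
  phi : 2 * cd A / (l ^ 3 * t ^ 14) ≤ 1 / (l ^ 2 * t ^ 10)
  LG_ge : 1 ≤ 5 * Real.log l
  LG_le : 5 * Real.log l ≤ t
  LG_exp : Real.exp (-(5 * Real.log l)) ≤ 1 / l ^ 5
  fail1 : (n : ℝ) ^ 2 * (10 * Real.exp (-l ^ 2)) ≤ 1 / 100
  fail2 : (n : ℝ) * (C * (n + 1) ^ 2 * Real.exp (-(l ^ 2 / C))) ≤ 1 / 100
  fail3 : n * (Real.exp (n * (2 * Real.exp (-l ^ 2))) - 1) ≤ 1 / 100
  c1 : Real.log (2 * ((n ^ 8 : ℕ) : ℝ) + 1) + 1 ≤ l ^ 3 * t ^ 14 / (160 * (l ^ 2 * t ^ 12))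
  Kn_pos : 1 ≤ Kn
  ph_ne : ∀ a', ph a' ≠ a0
  bij : ∀ k ∈ Icc 1 Kn, ∀ f : A → ℝ, ∑ a' ∈ univ.filter fun a' => sc a' = k, f (ph a') =
    ∑ a ∈ univ.filter fun a => cl a = c k, f a
  cls : ∀ k ∈ Icc 1 Kn, 100 * l ≤ 1 / t * (univ.filter fun a => cl a = c k).card
  m_ge : ∀ k ∈ Icc 1 Kn, ∀ a, cl a = c k → 8 * (t * 2 ^ k) ≤ 1 / t * m a
  big : ∀ a', sc a' ∈ Icc 1 Kn → 2 * (m (ph a') : ℝ) ≤ l * 4 ^ sc a'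
  ns_pos : ∀ a, 1 ≤ ns a
  LGa_ge : ∀ a, 1 ≤ LGa a
  row : ∀ a, a ≠ a0 → C * (ns a * LGa a + Real.exp (-LGa a) * (2 * n / m a)) ≤ Mf a
  e_nonneg : ∀ k, 0 ≤ e k
  e_ge : ∀ a', sc a' ∈ Icc 1 Kn → (33 * C + 1) / ns (ph a') ≤ e (sc a') ^ 2
  e_sum : (∑ k ∈ Icc 1 Kn, (1 / 2 : ℝ) ^ k * ((k + 1) * e k)) + 1 / 2 ^ Kn ≤
    l * Real.sqrt l * t ^ 12 / Real.sqrt n
  nt_pos : 1 ≤ nt
  nt_le : cd A * (5 * Real.log l) * nt ≤ Mf a0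
  eps_le : cd A * (1 / l ^ 5 * n) ≤ Mf a0
  C1t : 40000 * C ≤ t
  C2t : 40000 * C * n ≤ l ^ 3 * t ^ 20 * nt

def ParEStmt : Prop :=
  ∀ C : ℝ, 1 ≤ C → ∃ l0 : ℝ, ∀ (n : ℕ) (t : ℝ), l0 ≤ Real.log n → Rg (Real.log n) t →
    ∃ (A A' : Type) (_ : Fintype A) (_ : DecidableEq A) (_ : Fintype A') (_ : DecidableEq A')
      (a0 : A) (m Mf : A → ℕ) (cl : A → ℕ) (ph : A' → A) (sc : A' → ℕ) (Kn : ℕ) (c : ℕ → ℕ)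
      (ns : A → ℕ) (LGa : A → ℝ) (e : ℕ → ℝ) (nt : ℕ),
      ParE n (Real.log n) t C a0 m Mf cl ph sc Kn c ns LGa e nt

/-- The weights of the blocks. -/
def wtE {n : ℕ} {A : Type} [DecidableEq A] {m : A → ℕ} (a0 : A) (Mf : A → ℕ)
    (π : (a : A) → Fin n → Fin (m a)) (L : ℝ) (J : Bk m) : ℝ :=
  if J.1 = a0 then max (n : ℝ) (L * Mf a0) else (bk π J).card

/-- A sample with all properties gives the system. -/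
def DetEStmt : Prop :=
  ∀ (n : ℕ) (l t C K C1 CG : ℝ) (A A' : Type) [Fintype A] [DecidableEq A] [Fintype A']
    [DecidableEq A'] (a0 : A) (m Mf cl : A → ℕ) (ph : A' → A) (sc : A' → ℕ) (Kn : ℕ) (c : ℕ → ℕ)
    (ns : A → ℕ) (LGa : A → ℝ) (e : ℕ → ℝ) (nt : ℕ) (Ω : A → Type) [∀ a, Fintype (Ω a)]
    (π : (a : A) → Fin n → Fin (m a))
    (ρ : Fin n → ((a : A) → Ω a) → (a : A) → Fin (Mf a) → ℤ)
    (Γ : (a : A) → AddSubgroup (Fin (Mf a) → ℝ)) (τ0 : ℝ)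
    (Γt : AddSubgroup (Kt (fun J : Bk m => Mf J.1) → ℝ)) (v0 : Fin (m a0))
    (x : Fin n → (a : A) → Ω a),
    ParE n l t C a0 m Mf cl ph sc Kn c ns LGa e nt → Parts a0 m π →
    (∀ (c : ℕ) (r : ℝ), 100 * Real.log (cd (Fin n)) ≤
        1 / t * (univ.filter fun a => cl a = c).card →
      (∀ a, cl a = c → 8 * r ≤ 1 / t * m a) → ∀ T : Finset (Fin n),
        (T.card : ℝ) ≤ r → ∑ a ∈ univ.filter fun a => cl a = c, (coll (π a) T : ℝ) ≤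
          1 / t * T.card * (univ.filter fun a => cl a = c).card) →
    Law a0 ρ Γ τ0 → Glue a0 π ρ Γ Γt →
    1 ≤ K → K ≤ C → 1 ≤ C1 → C1 ≤ C → 1 ≤ CG → CG ≤ C →
    RipS (M := fun J : Bk m => Mf J.1) (bk π) (smp π ρ x) K (l + 1) 0 →
    RipS (M := fun J : Bk m => Mf J.1) (bk π) (smp π ρ x) K (5 * Real.log l) (1 / l ^ 5) →
    (∀ J : Bk m, J.1 ≠ a0 → (∀ j ∈ bk π J,
        (Mf J.1 : ℝ) / 4 ≤ ∑ k, (smp π ρ x J j k : ℝ) ^ 2) ∧ ZPat (bk π J) (smp π ρ x J) ∧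
        RipUL (bk π J) (smp π ρ x J) (ns J.1) (C1 * Mf J.1) (Mf J.1 / 8)) →
    LowG (M := fun J : Bk m => Mf J.1) (bk π) (smp π ρ x) (1 / CG) →
    C1c (M := fun J : Bk m => Mf J.1) (bk π) (smp π ρ x) (fun J => Γ J.1) ⟨a0, v0⟩
      (wtE a0 Mf π (l ^ 3 * t ^ 14)) (n ^ 8) (l ^ 2 * t ^ 12) →
    C1n (M := fun J : Bk m => Mf J.1) (bk π) (smp π ρ x) (fun J => Γ J.1) ⟨a0, v0⟩
      (wtE a0 Mf π (l ^ 3 * t ^ 14)) (n ^ 8) (l ^ 2 * t ^ 12) →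
    LeaveOut (M := fun J : Bk m => Mf J.1) (bk π) (smp π ρ x) (2 / (1 / CG)) (l ^ 2) →
    GAllE (M := fun J : Bk m => Mf J.1) (bk π) (smp π ρ x) (fun J => Γ J.1) ⟨a0, v0⟩
        (wtE a0 Mf π (l ^ 3 * t ^ 14)) l t (2 * cd A) K (5 * Real.log l) (1 / CG)
        (2 * cd A / (l ^ 3 * t ^ 14)) ∧
      IAllE (M := fun J : Bk m => Mf J.1) (bk π) (smp π ρ x) (fun J => Γ J.1)
        (fun a' j => ⟨ph a', π (ph a') j⟩) sc Kn e Γt l t (1 / 10000) C1 (Mf a0 / 10000)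
        (4 * K * Mf a0) (4 * K * Mf a0 / nt)

/-- Existence of the system. -/
def ExistEStmt : Prop :=
  ∃ c0 C1 : ℝ, 0 < c0 ∧ 0 ≤ C1 ∧ ∃ l0 : ℝ, ∀ (n : ℕ) (t : ℝ), l0 ≤ Real.log n →
    Rg (Real.log n) t →
    ∃ (B A : Type) (_ : Fintype B) (_ : DecidableEq B) (_ : Fintype A) (_ : DecidableEq A)
      (M : B → ℕ) (blk : B → Finset (Fin n)) (s : (J : B) → Fin n → Fin (M J) → ℤ)
      (Γ Γ' : (J : B) → AddSubgroup (Fin (M J) → ℝ)) (J0 : B) (wt : B → ℝ) (F K LG cG φ : ℝ)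
      (P : A → Fin n → B) (sc : A → ℕ) (Kn : ℕ) (e : ℕ → ℝ) (Γt : AddSubgroup (Kt M → ℝ))
      (sh C1t C2t : ℝ),
      GAllE blk s Γ J0 wt (Real.log n) t F K LG cG φ ∧
        IAllE blk s Γ' P sc Kn e Γt (Real.log n) t c0 C1 sh C1t C2t

/-- The instance: `n` coordinates, at most `exp (3 n)` vertices. -/
def InstEStmt : Prop :=
  ∀ ε : ℝ, 0 < ε → ∃ c : ℝ, 0 < c ∧ ∃ n0 : ℕ, ∀ n : ℕ, n0 ≤ n → ∀ N : ℕ, Real.exp (3 * n) ≤ N →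
    c * Real.sqrt n / Real.log n ^ (3 / 2 + ε) ≤ gap N

def FinalEStmt : Prop :=
  ∀ ε : ℝ, 0 < ε → ∃ c : ℝ, 0 < c ∧ ∃ N0 : ℕ, ∀ N : ℕ, N0 ≤ N →
    c * Real.sqrt (Real.log N) / Real.log (Real.log N) ^ (3 / 2 + ε) ≤ gap N

end

end Vale.Agent.P318.E
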