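import Vale.Agent.P318.C.Prof
import Vale.Agent.P318.E.Stmt

/-!
Track E: the concave profile with a logarithmic defect.
-/

namespace Vale.Agent.P318.E

open Finset C

namespace ProfE

open C.Prof

/-- The scales between `a` and `2 b`. -/
theorem scales {a b : ℝ} (ha1 : 1 ≤ a) (hab : a ≤ b) {m i : ℕ} (hm2 : 2 * b < 2 ^ (m + 1))
    (hi : ∀ j < i, 2 ^ j * (a + 1) < b + 1) :
    ∃ S : Finset ℕ, (∀ k ∈ S, k ≤ m ∧ a ≤ 2 ^ k) ∧ (i : ℝ) + 2 ≤ 4 * S.card := by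
  rcases i with _ | i
  · refine ⟨{m}, fun k hk => ?_, by norm_num⟩
    rw [mem_singleton.1 hk]
    rw [pow_succ] at hm2
    exact ⟨le_rfl, by linarith⟩
  have h1 := hi i i.lt_succ_self
  have h2 : (1 : ℝ) ≤ 2 ^ i := one_le_pow₀ one_le_two
  have h3 : (2 : ℝ) ^ i ≤ 2 ^ i * a := le_mul_of_one_le_right (by positivity) ha1
  have h4 : i < m := by
    refine (pow_lt_pow_iff_right₀ (a := (2 : ℝ)) one_lt_two).1 ?_
    rw [pow_succ] at hm2
    linarith
  refine ⟨Ico (m - i) (m + 1), fun k hk => ?_, ?_⟩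
  · obtain ⟨hk1, hk2⟩ := mem_Ico.1 hk
    refine ⟨by omega, ?_⟩
    have e1 : (2 : ℝ) ^ m ≤ 2 ^ (i + k) := pow_le_pow_right₀ one_le_two (by omega)
    rw [pow_add] at e1
    rw [pow_succ] at hm2
    exact le_of_mul_le_mul_left (show 2 ^ i * a ≤ 2 ^ i * 2 ^ k by linarith) (by positivity)
  · rw [Nat.card_Ico, show m + 1 - (m - i) = i + 1 by omega]
    have : (0 : ℝ) ≤ i := Nat.cast_nonneg i
    push_cast
    linarith

/-- The defect is small with respect to the weights of the levels between `a` and `2 b`. -/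
theorem defect {n K ε Z : ℝ} (hn : 16 ≤ n) (hK : 0 ≤ K) (hε : 0 < ε) (hZ : 2 ≤ Z)
    (hZε : 1 / ε ≤ Z) {N p m : ℕ} (hN1 : 2 ^ N ≤ 16 * n) (hp2 : Z ^ 2 < 2 ^ (p + 1))
    {a b c : ℝ} (ha1 : 1 ≤ a) (hab : a ≤ b) (hm2 : 2 * b < 2 ^ (m + 1))
    (hc1 : c ≤ a + b + K * (a + 1))
    (hc2 : ∀ i : ℕ, (2 : ℝ) ^ i ≤ 16 * n → b + 1 ≤ 2 ^ i * (a + 1) → Z * (b + 1) ≤ n →
      c ≤ a + b + ε * (i + 1) * (a + 1) + Z * (b + 1) * ((b + 1) / n) ^ (1 / 32 : ℝ)) :
    ∃ (S : Finset ℕ) (x : ℝ), (∀ k ∈ S, k ≤ m ∧ a ≤ 2 ^ k) ∧ 0 ≤ x ∧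
      26 * x ≤ a * ∑ k ∈ S, bt (2 * ε) K (64 * (p + 1) + 5) N k ∧ c ≤ a + b + x := by
  have ha : 0 ≤ a := by linarith
  rw [pow_succ (2 : ℝ)] at hm2
  have hSm : ∀ k ∈ ({m} : Finset ℕ), k ≤ m ∧ a ≤ 2 ^ k := fun k hk => by
    rw [mem_singleton.1 hk]
    exact ⟨le_rfl, by linarith⟩
  have hKa : 0 ≤ K * a := mul_nonneg hK ha
  have hKa' : K ≤ K * a := le_mul_of_one_le_right hK ha1
  rcases le_or_gt (N - m) (64 * (p + 1) + 5) with hj | hj
  · refine ⟨{m}, K * (a + 1), hSm, by positivity, ?_, hc1⟩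
    rw [sum_singleton]
    have e1 : 1 ≤ tau (64 * (p + 1) + 5) (N + 1 - 1 - m) := by
      rw [tau, if_pos (by omega)]
      exact le_add_of_nonneg_right (by positivity)
    have e2 := mul_le_mul_of_nonneg_left e1 hKa
    have e4 : 0 ≤ a * ε := by positivity
    unfold bt
    linarith
  obtain ⟨J, hJ1, hJ2⟩ : ∃ J : ℕ, 64 * J + 5 ≤ N - m ∧ N - m ≤ 64 * J + 68 :=
    ⟨(N - m - 5) / 64, by omega, by omega⟩
  have hJp : p + 1 ≤ J := by omega
  have hQ0 : (0 : ℝ) < 2 ^ J := by positivity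
  have hQZ : Z ^ 2 ≤ 2 ^ J := hp2.le.trans (pow_le_pow_right₀ one_le_two hJp)
  have hr : (b + 1) * (2 ^ J) ^ 64 ≤ n := by
    have e1 : (2 : ℝ) ^ (m + (64 * J + 5)) ≤ 2 ^ N := pow_le_pow_right₀ one_le_two (by omega)
    have e2 : (2 : ℝ) ^ (m + (64 * J + 5)) = 2 ^ m * 32 * (2 ^ J) ^ 64 := by
      rw [← pow_mul, pow_add, pow_add, mul_comm J 64]; ring
    have e3 : (0 : ℝ) < (2 ^ J) ^ 64 := by positivity
    have e4 : (b + 1) * 16 ≤ 2 ^ m * 32 := by linarith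
    have e5 := mul_le_mul_of_nonneg_right e4 e3.le
    generalize ((2 : ℝ) ^ J) ^ 64 = Y at *
    linarith
  rcases le_or_gt (b + 1) ((a + 1) * 2 ^ J) with hq | hq
  · obtain ⟨e1, e3⟩ := small (by linarith) hε hZ hZε (ha.trans hab) hQZ hr hq
    have hex : ∃ i : ℕ, b + 1 ≤ 2 ^ i * (a + 1) := ⟨J, by linarith⟩
    have hiJ : Nat.find hex ≤ J := Nat.find_min' hex (by linarith)
    have e2 : (2 : ℝ) ^ Nat.find hex ≤ 16 * n := by
      have e4 : (2 : ℝ) ^ Nat.find hex ≤ 2 ^ J := pow_le_pow_right₀ one_le_two hiJ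
      have e5 : (2 : ℝ) ^ J ≤ (2 ^ J) ^ 64 := le_self_pow₀ (one_le_pow₀ one_le_two) (by norm_num)
      have e6 : ((2 : ℝ) ^ J) ^ 64 ≤ (b + 1) * (2 ^ J) ^ 64 :=
        le_mul_of_one_le_left (by positivity) (by linarith)
      linarith
    obtain ⟨S, hS, hcard⟩ := scales ha1 hab (by rwa [pow_succ]) (i := Nat.find hex)
      fun j hj => not_le.1 (Nat.find_min hex hj)
    refine ⟨S, ε * (Nat.find hex + 2) * (a + 1), hS, by positivity, ?_,
      by linarith [hc2 _ e2 (Nat.find_spec hex) e1]⟩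
    have e4 := card_nsmul_le_sum S (bt (2 * ε) K (64 * (p + 1) + 5) N) (208 * ε) fun k _ => by
      have := mul_nonneg hK (tau_nonneg (64 * (p + 1) + 5) (N + 1 - 1 - k))
      unfold bt
      linarith
    rw [nsmul_eq_mul] at e4
    have e5 := mul_le_mul_of_nonneg_left e4 ha
    have e6 := mul_le_mul_of_nonneg_left hcard (show 0 ≤ 52 * ε * a by positivity)
    have e7 : ε * (Nat.find hex + 2) * (a + 1) ≤ ε * (Nat.find hex + 2) * (2 * a) :=
      mul_le_mul_of_nonneg_left (by linarith) (by positivity)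
    linarith
  · have haQ : 0 ≤ a * 2 ^ J := by positivity
    have hJm : J ≤ m + 1 := by
      refine (pow_le_pow_iff_right₀ (a := (2 : ℝ)) one_lt_two).1 ?_
      rw [pow_succ]
      linarith
    refine ⟨Ico (m + 1 - J) (m + 1), K * (a + 1), fun k hk => ?_, by positivity, ?_, hc1⟩
    · obtain ⟨hk1, hk2⟩ := mem_Ico.1 hk
      refine ⟨by omega, ?_⟩
      have e1 : (2 : ℝ) ^ (m + 1) ≤ 2 ^ (k + J) := pow_le_pow_right₀ one_le_two (by omega)
      rw [pow_succ, pow_add] at e1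
      have e2 : a * 2 ^ J ≤ 2 ^ k * 2 ^ J := by linarith
      exact le_of_mul_le_mul_right e2 hQ0
    · have e4 := mul_le_mul_of_nonneg_left
        (many (ε := 2 * ε) (by positivity) hK (64 * (p + 1) + 5) (N := N) (by omega) hJm hJ2) ha
      linarith

end ProfE

open C.Prof ProfE in
theorem profE_proof : ProfEStmt := by
  refine ⟨120000, by norm_num, fun n K ε Z hn hK hK1 hε hε1 hZ hZε => ?_⟩
  have hε2 : 0 < 2 * ε := by positivity
  obtain ⟨N, hN1, hN2⟩ := exists_nat_pow_near (x := 16 * n) (y := 2) (by linarith) one_lt_two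
  obtain ⟨p, hp1, hp2⟩ := exists_nat_pow_near (x := Z ^ 2) (y := 2)
    (one_le_pow₀ (by linarith)) one_lt_two
  have h0 := bt_nonneg hε2 hK (64 * (p + 1) + 5) N
  have h1 := bt_le (ε := 2 * ε) hK (by linarith) (by linarith) (64 * (p + 1) + 5) N
  have hΛ := gg_pos (N := N + 1) h0 0
  refine ⟨prf (bt (2 * ε) K (64 * (p + 1) + 5) N) (N + 1), gg (bt (2 * ε) K (64 * (p + 1) + 5) N) (N + 1) 0,
    bern h0, fun v hv => ⟨le_prf h0 hv, ?_⟩, ?_, ?_⟩
  · have := prf_step (N := N + 1) h0 le_rfl hv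
    rwa [zero_add, prf_zero, zero_add] at this
  · refine (Real.prod_one_add_le_exp_sum _ h0).trans (Real.exp_le_exp.2 ?_)
    rw [← range_eq_Ico]
    have e1 := sum_bt hn hK hε2 hZ hN1 hp1
    have e2 : 1 ≤ Real.log n := (Real.le_log_iff_exp_le (by linarith)).2
      (Real.exp_one_lt_d9.le.trans (by linarith))
    have e3 := mul_nonneg hK (add_nonneg (Real.log_nonneg (show 1 ≤ Z by linarith))
      (Real.log_nonneg e2))
    linarith
  · intro a b c ha hab hb hc hc1 hc2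
    rcases lt_or_ge a 1 with ha1 | ha1
    · have e0 := mul_le_mul_of_nonneg_left ha1.le hK
      have e1 : c ≤ a + b + 1 := by linarith
      have e2 := prf_mono (N := N + 1) h0 hc e1
      have e3 := prf_step (N := N + 1) h0 (v := a + b) (by linarith) zero_le_one
      have e4 := prf_sub (N := N + 1) h0 ha (ha.trans hab)
      linarith
    obtain ⟨m, hm1, hm2⟩ := exists_nat_pow_near (x := 2 * b) (y := 2) (by linarith) one_lt_two
    have hmN : m < N := by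
      refine (pow_lt_pow_iff_right₀ (a := (2 : ℝ)) one_lt_two).1 ?_
      rw [pow_succ] at hN2
      linarith
    obtain ⟨S, x, hS, hx0, hx, hcx⟩ := ProfE.defect hn hK hε hZ hZε hN1 hp2 ha1 hab hm2 hc1 hc2
    have e1 := key (N := N + 1) h0 h1 (by linarith) hab (by omega) hm1 S hS hx0 hx
    have e2 := prf_mono (N := N + 1) h0 hc hcx
    linarith

end Vale.Agent.P318.E
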