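import Vale.Agent.P318.E.Stmt
import Vale.Agent.P318.C.Small
import Vale.Agent.P318.M.Fourier

/-! Track E: the pairing with the small entries, with a square root in the error term. -/

namespace Vale.Agent.P318.E

open Finset
open M (bit Eb Dd pt U01 coef ind)
open C M.Bit

noncomputable section

namespace Small2P

variable {ι : Type} [Fintype ι] [DecidableEq ι] {p : ι → ℝ}

def wS (p : ι → ℝ) (S : Finset ι) : ℝ := ∏ i ∈ S, p i * (1 - p i)

omit [Fintype ι] [DecidableEq ι] in
theorem wS_nonneg (hp : ∀ i, 0 ≤ p i ∧ p i ≤ 1) (S : Finset ι) : 0 ≤ wS p S :=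
  prod_nonneg fun i _ => mul_nonneg (hp i).1 (sub_nonneg.2 (hp i).2)

theorem coef_add (p : ι → ℝ) (F G : (ι → Bool) → ℝ) (S : Finset ι) (c : ℝ) :
    coef p (fun b => F b + c * G b) S = coef p F S + c * coef p G S := by
  simp only [coef, add_mul, sum_add_distrib, mul_sum, mul_assoc]

theorem bil (p : ι → ℝ) (F G : (ι → Bool) → ℝ) :
    Eb p (fun b => F b * G b) = ∑ S, wS p S * (coef p F S * coef p G S) := by
  have h1 := M.FourierP.parseval p fun b => F b + 1 * G b
  have h2 := M.FourierP.parseval p fun b => F b + (-1) * G b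
  have h3 : Eb p (fun b => (F b + 1 * G b) ^ 2) - Eb p (fun b => (F b + (-1) * G b) ^ 2) =
      4 * Eb p fun b => F b * G b := by
    rw [← Eb_sub, ← Eb_const_mul]
    congr 1
    funext b
    ring
  rw [h1, h2, ← sum_sub_distrib] at h3
  refine mul_left_cancel₀ (four_ne_zero (α := ℝ)) ?_
  rw [← h3, mul_sum]
  refine sum_congr rfl fun S _ => ?_
  rw [coef_add, coef_add, wS]
  ring

theorem coef_empty (p : ι → ℝ) (F : (ι → Bool) → ℝ) : coef p F ∅ = Eb p F := by
  rw [M.FourierP.coef_eq, M.FourierP.ck_empty]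
  rfl

theorem coef_Dd (p : ι → ℝ) (F : (ι → Bool) → ℝ) (j : ι) (U : Finset ι) :
    coef p (Dd j F) U = if j ∈ U then 0 else coef p F (insert j U) := by
  split_ifs with h
  · rw [M.FourierP.coef_eq, ← insert_erase h, ← M.FourierP.T_Dd p (notMem_erase j U)]
    have : Dd j (Dd j F) = fun _ => 0 := by
      funext b
      simp only [Dd, Function.update_idem, sub_self]
    rw [this]
    simp [M.FourierP.T]
  · rw [M.FourierP.coef_eq, M.FourierP.coef_eq, M.FourierP.T_Dd p h]

theorem reindex (j : ι) (φ : Finset ι → ℝ) :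
    ∑ U : Finset ι, (if j ∈ U then 0 else φ (insert j U)) =
      ∑ V : Finset ι, if j ∈ V then φ V else 0 := by
  have e : ∀ U : Finset ι, (if j ∈ U then 0 else φ (insert j U)) =
      if j ∉ U then φ (insert j U) else 0 := fun U => by by_cases h : j ∈ U <;> simp [h]
  simp only [e]
  rw [← sum_filter, ← sum_filter]
  refine sum_nbij' (insert j) (fun V => V.erase j) ?_ ?_ ?_ ?_ fun _ _ => rfl
  · intro U _
    simp
  · intro V _
    simp
  · intro U hU
    exact erase_insert (by simpa using hU)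
  · intro V hV
    exact insert_erase (by simpa using hV)

/-- The dual norm of the derivatives. -/
theorem hminus (hp : ∀ i, 0 ≤ p i ∧ p i ≤ 1) (F : (ι → Bool) → ℝ) (hF : ∀ b, F b ^ 2 ≤ 1)
    (J : Finset ι) :
    ∑ j ∈ J, p j * (1 - p j) * ∑ U, wS p U * coef p (Dd j F) U ^ 2 / U.card ≤ 2 := by
  have e : ∀ j, p j * (1 - p j) * ∑ U, wS p U * coef p (Dd j F) U ^ 2 / U.card =
      ∑ V : Finset ι, if j ∈ V then wS p V * coef p F V ^ 2 / ((V.card : ℝ) - 1) else 0 := by
    intro j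
    rw [← reindex, mul_sum]
    refine sum_congr rfl fun U _ => ?_
    rw [coef_Dd]
    split_ifs with h
    · simp
    · rw [card_insert_of_notMem h, wS, wS, prod_insert h]
      push_cast
      ring
  simp only [e]
  rw [sum_comm]
  have h1 : Eb p (fun b => F b ^ 2) ≤ 1 := (Eb_mono hp hF).trans_eq (Eb_const p 1)
  rw [M.FourierP.parseval] at h1
  refine le_trans ?_ (show 2 * _ ≤ (2 : ℝ) from (mul_le_mul_of_nonneg_left h1 zero_le_two).trans_eq
    (mul_one 2))
  rw [mul_sum]
  refine sum_le_sum fun V _ => ?_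
  have h0 : 0 ≤ wS p V * coef p F V ^ 2 := mul_nonneg (wS_nonneg hp V) (sq_nonneg _)
  rw [sum_ite_mem, sum_const, nsmul_eq_mul]
  have h2 : ((J ∩ V).card : ℝ) ≤ V.card := by exact_mod_cast card_le_card inter_subset_right
  change _ ≤ 2 * (wS p V * coef p F V ^ 2)
  rcases Nat.lt_or_ge V.card 2 with h | h
  · have h3 : V.card = 0 ∨ V.card = 1 := by omega
    rcases h3 with h3 | h3
    · have h4 : ((J ∩ V).card : ℝ) = 0 := le_antisymm (by simpa [h3] using h2) (Nat.cast_nonneg _)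
      rw [h4, zero_mul]
      positivity
    · rw [h3]
      simp only [Nat.cast_one, sub_self, div_zero, mul_zero]
      positivity
  · have h3 : (2 : ℝ) ≤ V.card := by exact_mod_cast h
    rw [← mul_div_assoc, div_le_iff₀ (by linarith)]
    nlinarith

theorem hplus (p : ι → ℝ) (X : (ι → Bool) → ℝ) :
    ∑ U, (U.card : ℝ) * (wS p U * coef p X U ^ 2) =
      ∑ i, p i * (1 - p i) * Eb p fun b => Dd i X b ^ 2 := by
  simp only [M.FourierP.Dd_sq]
  rw [sum_comm]
  refine sum_congr rfl fun U _ => ?_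
  rw [sum_ite_mem_eq, sum_const, nsmul_eq_mul]
  rfl

theorem cov_le (hp : ∀ i, 0 ≤ p i ∧ p i ≤ 1) (G X : (ι → Bool) → ℝ) {d q k lam : ℝ}
    (hq : 0 ≤ q) (hk : 0 ≤ k) (hd : k * q = d ^ 2) (hl : 0 < lam) :
    |d * (Eb p (fun b => G b * X b) - Eb p G * Eb p X)| ≤
      lam / 2 * (q * ∑ U, wS p U * coef p G U ^ 2 / U.card) +
        k / (2 * lam) * ∑ i, p i * (1 - p i) * Eb p fun b => Dd i X b ^ 2 := by
  rw [← hplus, bil, ← coef_empty, ← coef_empty, ← add_sum_erase _ _ (mem_univ ∅)]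
  have e : wS p ∅ = 1 := prod_empty
  rw [e, one_mul, add_sub_cancel_left, mul_sum, mul_sum, mul_sum, mul_sum, ← sum_add_distrib]
  refine (abs_sum_le_sum_abs _ _).trans ((sum_le_sum fun U hU => ?_).trans
    (sum_le_sum_of_subset_of_nonneg (erase_subset ∅ univ) fun U _ _ => ?_))
  · have hc : (0 : ℝ) < U.card := by
      exact_mod_cast card_pos.2 (nonempty_iff_ne_empty.2 (ne_of_mem_erase hU))
    have hw := wS_nonneg hp U
    generalize coef p G U = g
    generalize coef p X U = x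
    generalize (U.card : ℝ) = c at hc
    have h1 : 0 ≤ lam / 2 * (q * (g ^ 2 / c)) := by positivity
    have h2 : 0 ≤ k / (2 * lam) * (c * x ^ 2) := by positivity
    have h3 : |d * (g * x)| ≤ lam / 2 * (q * (g ^ 2 / c)) + k / (2 * lam) * (c * x ^ 2) := by
      refine abs_le_of_sq_le_sq' ?_ (add_nonneg h1 h2) |> abs_le.2
      have h4 : (d * (g * x)) ^ 2 =
          4 * (lam / 2 * (q * (g ^ 2 / c))) * (k / (2 * lam) * (c * x ^ 2)) := by
        rw [mul_pow, ← hd]
        field_simp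
        ring
      rw [h4]
      nlinarith [sq_nonneg (lam / 2 * (q * (g ^ 2 / c)) - k / (2 * lam) * (c * x ^ 2))]
    calc |d * (wS p U * (g * x))| = wS p U * |d * (g * x)| := by
          rw [mul_left_comm, abs_mul, abs_of_nonneg hw]
      _ ≤ wS p U * (lam / 2 * (q * (g ^ 2 / c)) + k / (2 * lam) * (c * x ^ 2)) :=
          mul_le_mul_of_nonneg_left h3 hw
      _ = _ := by ring
  · have hw := wS_nonneg hp U
    positivity

def cl (T z : ℝ) : ℝ := max (min z T) (-T)

theorem abs_cl {T : ℝ} (hT : 0 ≤ T) (z : ℝ) : |cl T z| ≤ T :=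
  abs_le.2 ⟨le_max_right _ _, max_le (min_le_right _ _) (by linarith)⟩

theorem cl_eq {T z : ℝ} (h : |z| ≤ T) : cl T z = z := by
  rw [cl, min_eq_left (abs_le.1 h).2, max_eq_left (abs_le.1 h).1]

theorem ex_lip (T z z' : ℝ) : |(z - cl T z) - (z' - cl T z')| ≤ |z - z'| := by
  wlog h : z' ≤ z generalizing z z'
  · rw [abs_sub_comm, abs_sub_comm z]
    exact this z' z (le_of_not_ge h)
  have h1 : cl T z' ≤ cl T z := max_le_max (min_le_min h le_rfl) le_rfl
  have h2 : cl T z ≤ cl T z' + (z - z') := by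
    unfold cl
    rw [← max_add_add_right, ← min_add_add_right]
    exact max_le_max (min_le_min (by linarith) (by linarith)) (by linarith)
  rw [abs_of_nonneg (sub_nonneg.2 h), abs_le]
  constructor <;> linarith

theorem tailP (hH : HoefStmt) (hp : ∀ i, 0 ≤ p i ∧ p i ≤ 1) (a : ι → ℝ) {A l : ℝ} (hA : 0 ≤ A)
    (hl : 1 ≤ l) (ha : ∑ j, a j ^ 2 ≤ A ^ 2) :
    A * Eb p (fun b => ind ((Real.sqrt l + 1) * A < |∑ j, a j * (bit (b j) - p j)|)) ≤
      A * Real.exp (-l) := by
  classical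
  set Z : (ι → Bool) → ℝ := fun b => ∑ j, a j * (bit (b j) - p j) with hZ
  set s := (Real.sqrt l + 1) * A with hs
  have e1 : ∀ b, |ind (s < |Z b|) * (if 0 ≤ Z b then (1 : ℝ) else -1)| = ind (s < |Z b|) := by
    intro b
    unfold ind
    split_ifs <;> simp
  have h1 := hH ι p hp (fun b => ind (s < |Z b|) * (if 0 ≤ Z b then (1 : ℝ) else -1)) a A l
    (fun b => by rw [e1]; unfold ind; split_ifs <;> simp) hA hl ha
  simp only [e1] at h1
  have h2 : Eb p (fun b => s * ind (s < |Z b|)) ≤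
      Eb p fun b => ind (s < |Z b|) * (if 0 ≤ Z b then (1 : ℝ) else -1) * Z b := by
    refine Eb_mono hp fun b => ?_
    unfold ind
    split_ifs with h h'
    · rw [abs_of_nonneg h'] at h
      linarith
    · rw [abs_of_neg (not_le.1 h')] at h
      linarith
    · simp
    · simp
  rw [Eb_const_mul] at h2
  have h3 := h2.trans ((le_abs_self _).trans h1)
  rw [hs] at h3
  linarith

omit [DecidableEq ι] in
theorem abs_a {a : ι → ℝ} {A : ℝ} (hA : 0 ≤ A) (ha : ∑ j, a j ^ 2 ≤ A ^ 2) (i : ι) : |a i| ≤ A :=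
  abs_le.2 (abs_le_of_sq_le_sq' ((single_le_sum (f := fun j => a j ^ 2)
    (fun _ _ => sq_nonneg _) (mem_univ i)).trans ha) hA)

theorem energy (hH : HoefStmt) (hp : ∀ i, 0 ≤ p i ∧ p i ≤ 1) (a : ι → ℝ) {A l : ℝ} (hA : 0 ≤ A)
    (hl : 1 ≤ l) (ha : ∑ j, a j ^ 2 ≤ A ^ 2) :
    ∑ i, p i * (1 - p i) * Eb p (fun b => Dd i (fun b => ∑ j, a j * (bit (b j) - p j) -
      cl ((Real.sqrt l + 2) * A) (∑ j, a j * (bit (b j) - p j))) b ^ 2) ≤
      A ^ 2 / 4 * Real.exp (-l) := by
  classical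
  have h0 := tailP hH hp a hA hl ha
  set Z : (ι → Bool) → ℝ := fun b => ∑ j, a j * (bit (b j) - p j) with hZ
  set P := Eb p (fun b => ind ((Real.sqrt l + 1) * A < |Z b|)) with hP
  have hD : ∀ i b, Z (Function.update b i true) - Z (Function.update b i false) = a i :=
    fun i b => congrFun (Dd_lin p a i) b
  have h1 : ∀ i b, Dd i (fun b => Z b - cl ((Real.sqrt l + 2) * A) (Z b)) b ^ 2 ≤
      a i ^ 2 * ind ((Real.sqrt l + 1) * A < |Z b|) := by
    intro i b
    unfold ind
    split_ifs with h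
    · rw [mul_one, sq_le_sq, ← hD i b]
      exact ex_lip _ _ _
    · have h2 := abs_a hA ha i
      have h3 := hD i b
      have h4 := not_lt.1 h
      have k : ∀ t, |Z (Function.update b i t)| ≤ (Real.sqrt l + 2) * A := by
        intro t
        rw [abs_le] at h2 h4 ⊢
        have e : Z (Function.update b i (b i)) = Z b := by rw [Function.update_eq_self]
        cases t <;> cases hb : b i <;> rw [hb] at e <;> constructor <;> linarith
      rw [Dd, cl_eq (k true), cl_eq (k false)]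
      simp
  have hP0 : 0 ≤ P := Eb_nonneg hp fun b => by unfold ind; split_ifs <;> simp
  calc _ ≤ ∑ i, 1 / 4 * (a i ^ 2 * P) := by
        refine sum_le_sum fun i _ => mul_le_mul (by nlinarith [sq_nonneg (2 * p i - 1)]) ?_
          (Eb_nonneg hp fun b => sq_nonneg _) (by norm_num)
        rw [hP, ← Eb_const_mul]
        exact Eb_mono hp (h1 i)
    _ = 1 / 4 * ((∑ i, a i ^ 2) * P) := by rw [← mul_sum, sum_mul]
    _ ≤ 1 / 4 * (A ^ 2 * P) := by gcongr
    _ ≤ _ := by nlinarith [mul_le_mul_of_nonneg_left h0 hA]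

theorem one (hH : HoefStmt) (hp : ∀ i, 0 ≤ p i ∧ p i ≤ 1) (G : (ι → Bool) → ℝ) (a : ι → ℝ)
    {A l d q k lam : ℝ} (hA : 0 ≤ A) (hl : 1 ≤ l) (ha : ∑ j, a j ^ 2 ≤ A ^ 2) (hd0 : 0 ≤ d)
    (hq : 0 ≤ q) (hk : 0 ≤ k) (hd : k * q = d ^ 2) (hlam : 0 < lam) :
    |d * Eb p fun b => G b * ∑ j, a j * (bit (b j) - p j)| ≤
      2 * ((Real.sqrt l + 2) * A) * (d * Eb p fun b => |G b|) +
        lam / 2 * (q * ∑ U, wS p U * coef p G U ^ 2 / U.card) +
        k / (2 * lam) * (A ^ 2 / 4 * Real.exp (-l)) := by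
  have h0 := energy hH hp a hA hl ha
  have hm : Eb p (fun b => ∑ j, a j * (bit (b j) - p j)) = 0 := by
    have := cov_sum p (fun _ => 1) a
    simp only [one_mul] at this
    rw [this]
    refine sum_eq_zero fun j _ => ?_
    have e : Dd j (fun _ : ι → Bool => (1 : ℝ)) = fun _ => 0 := by
      funext b
      simp [Dd]
    rw [e, Eb_const]
    simp
  set Z : (ι → Bool) → ℝ := fun b => ∑ j, a j * (bit (b j) - p j) with hZ
  set T := (Real.sqrt l + 2) * A with hT
  have T0 : 0 ≤ T := by positivity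
  have h1 := cov_le hp G (fun b => Z b - cl T (Z b)) hq hk hd hlam
  have h2 : |Eb p fun b => G b * cl T (Z b)| ≤ T * Eb p fun b => |G b| := by
    rw [← Eb_const_mul]
    refine (abs_Eb_le hp _).trans (Eb_mono hp fun b => ?_)
    rw [abs_mul, mul_comm]
    exact mul_le_mul_of_nonneg_right (abs_cl T0 _) (abs_nonneg _)
  have h3 : |Eb p fun b => Z b - cl T (Z b)| ≤ T := by
    rw [Eb_sub, hm, zero_sub, abs_neg]
    exact (abs_Eb_le hp _).trans ((Eb_mono hp fun b => abs_cl T0 _).trans_eq (Eb_const p T))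
  have h4 : |Eb p G * Eb p fun b => Z b - cl T (Z b)| ≤ T * Eb p fun b => |G b| := by
    rw [abs_mul, mul_comm]
    exact mul_le_mul h3 (abs_Eb_le hp _) (abs_nonneg _) T0
  have e : Eb p (fun b => G b * Z b) = Eb p (fun b => G b * cl T (Z b)) +
      Eb p fun b => G b * (Z b - cl T (Z b)) := by
    rw [← Eb_add]
    congr 1
    funext b
    ring
  have h5 := mul_le_mul_of_nonneg_left h0 (show 0 ≤ k / (2 * lam) by positivity)
  have h6 := mul_le_mul_of_nonneg_left h2 hd0
  have h7 := mul_le_mul_of_nonneg_left h4 hd0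
  rw [← abs_of_nonneg hd0, ← abs_mul, abs_of_nonneg hd0] at h6 h7
  change |d * Eb p fun b => G b * Z b| ≤ _
  rw [e]
  rw [abs_le] at h1 h6 h7 ⊢
  constructor <;> linarith [h1.1, h1.2, h6.1, h6.2, h7.1, h7.2]

theorem opt {x y B : ℝ} (hB : 0 ≤ B) (h : ∀ lam, 0 < lam → x ≤ y + lam + B ^ 2 / (2 * lam)) :
    x ≤ y + 4 * B := by
  rcases hB.eq_or_lt with rfl | hB
  · refine le_of_forall_pos_le_add fun e he => ?_
    simpa using h e he
  · have h1 := h B hB
    have h2 : B ^ 2 / (2 * B) = B / 2 := by field_simp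
    linarith

end Small2P

open Small2P

theorem small2_proof (hW : WinStmt) (hH : HoefStmt) : Small2Stmt := by
  intro ι _ _ w J h y a A l hw hh hA hl h0 h1
  have W := hW w hw
  have hp : ∀ i, 0 ≤ py w y i ∧ py w y i ≤ 1 := fun i => ⟨W.pr_nonneg _, W.pr_le _⟩
  have ho := hw.1
  have he := hw.2.2.1
  rw [sum_comm' (t' := J) (s' := fun j' => J.erase j') (by
    intro j j'
    simp only [mem_erase]
    tauto)]
  have e : ∀ j', ∑ j ∈ J.erase j', dpr w (y j') * c2 w h j j' y * a j j' =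
      dpr w (y j') * Eb (py w y) fun b => Dd j' (fun b' => h (pt y b')) b *
        ∑ j, (if j ∈ J.erase j' then a j j' / pq w (y j) else 0) * (bit (b j) - py w y j) := by
    intro j'
    rw [M.Bit.cov_sum]
    simp only [ite_mul, zero_mul, sum_ite_mem, univ_inter, mul_sum]
    refine sum_congr rfl fun j hj => ?_
    rw [c2, M.Bit.Dd_comm (ne_of_mem_erase hj)]
    change _ = _ * (_ * (pq w (y j) * _))
    by_cases e : pq w (y j) = 0
    · simp [h0 j j' e]
    · field_simp
  simp only [e]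
  have hI : 0 ≤ Inf w J h y := sum_nonneg fun j _ =>
    mul_nonneg (W.dpr_nonneg _) (Eb_nonneg hp fun b => abs_nonneg _)
  have s1 : 1 ≤ Real.sqrt l := Real.one_le_sqrt.2 hl
  have s2 : Real.sqrt (2 * l) ≤ 2 * Real.sqrt l := by
    rw [Real.sqrt_le_left (by positivity), mul_pow, Real.sq_sqrt (by linarith)]
    linarith
  have s3 : 2 * ((Real.sqrt (2 * l) + 2) * A) * Inf w J h y ≤ 8 * Real.sqrt l * A * Inf w J h y := by
    refine mul_le_mul_of_nonneg_right ?_ hI
    nlinarith
  have hB : 0 ≤ A * Real.sqrt (J.card / (w.om * w.et)) * Real.exp (-l) := by positivity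
  refine (opt (y := 2 * ((Real.sqrt (2 * l) + 2) * A) * Inf w J h y) hB fun lam hlam => ?_).trans
    (by linarith)
  have hm := hminus hp (fun b' => h (pt y b')) (fun b => pow_le_one₀ (hh _).1 (hh _).2) J
  have k : ∀ j' ∈ J, |dpr w (y j') * Eb (py w y) fun b => Dd j' (fun b' => h (pt y b')) b *
        ∑ j, (if j ∈ J.erase j' then a j j' / pq w (y j) else 0) * (bit (b j) - py w y j)| ≤
      2 * ((Real.sqrt (2 * l) + 2) * A) * (dpr w (y j') * inf1 w h j' y) +
        lam / 2 * (py w y j' * (1 - py w y j') * ∑ U, wS (py w y) U *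
          coef (py w y) (Dd j' fun b' => h (pt y b')) U ^ 2 / U.card) +
        4 / (w.om * w.et) / (2 * lam) * (A ^ 2 / 4 * Real.exp (-(2 * l))) := by
    intro j' _
    refine (one hH hp _ _ hA (show 1 ≤ 2 * l by linarith) (le_trans ?_ (h1 j')) (W.dpr_nonneg _)
      (W.pq_nonneg (y j')) (W.kp2_nonneg (y j')) (W.kp2_mul _) hlam).trans ?_
    · simp only [ite_pow, ne_eq, OfNat.ofNat_ne_zero, not_false_eq_true, zero_pow, sum_ite_mem,
        univ_inter]
      exact sum_le_sum_of_subset_of_nonneg (erase_subset _ _) fun _ _ _ => sq_nonneg _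
    · refine add_le_add le_rfl ?_
      have := W.kp2_le (y j')
      gcongr
  refine (abs_sum_le_sum_abs _ _).trans ((sum_le_sum k).trans ?_)
  rw [sum_add_distrib, sum_add_distrib, ← mul_sum, ← mul_sum, sum_const, nsmul_eq_mul]
  have e2 : (A * Real.sqrt (J.card / (w.om * w.et)) * Real.exp (-l)) ^ 2 / (2 * lam) =
      J.card * (4 / (w.om * w.et) / (2 * lam) * (A ^ 2 / 4 * Real.exp (-(2 * l)))) := by
    rw [mul_pow, mul_pow, Real.sq_sqrt (by positivity), ← Real.exp_nat_mul]
    push_cast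
    rw [mul_neg]
    field_simp
  rw [e2]
  have h2 := mul_le_mul_of_nonneg_left hm (show 0 ≤ lam / 2 by positivity)
  change 2 * _ * Inf w J h y + _ + _ ≤ _
  linarith

end

end Vale.Agent.P318.E
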