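import Vale.Agent.P318.E.Stmt
import Vale.Agent.P318.C.Mean

/-!
Track E: the mean of the last test.
-/

namespace Vale.Agent.P318.E

open Finset
open M (ind lin perp)
open B (tc)
open C C.Mean

namespace VMean

theorem rp_le_one (c ρ x : ℝ) : rp c ρ x ≤ 1 := max_le (min_le_right _ _) zero_le_one

theorem rp_le_ind {ω η ϑ z u : ℝ} (hη : 0 < η) (hz : |z| ≤ 1 / 2 + ω) :
    rp (-(1 / 2 + ω + η)) η (sg ϑ * (z - u)) ≤ ind (η < |u|) := by
  unfold ind
  split_ifs with h
  · exact rp_le_one _ _ _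
  · have h1 : |sg ϑ| ≤ 1 := by
      unfold sg
      split_ifs <;> simp
    have h2 : |sg ϑ * (z - u)| ≤ 1 / 2 + ω + η := by
      rw [abs_mul]
      refine (mul_le_of_le_one_left (abs_nonneg _) h1).trans ((abs_sub _ _).trans ?_)
      linarith [not_lt.1 h]
    exact (rp_zero hη (abs_le.1 h2).1).le

end VMean

open VMean in
theorem vmean_proof (_hW : WinStmt) (hL : LawStmt) (hC : ConcStmt) (hP : B.ProjStmt) :
    VMeanStmt := by
  intro ι B _ _ _ _ M s Sp w η Pm ho hη hp P0 hs ϑ ϑ'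
  have e : ∀ z j, perp (tc s) Sp z j = z j - ∑ i, lin (tc s) (Sp (Pi.single i 1)) j * z i :=
    fun z j => by rw [perp, ((hP.1 ι _ (tc s)).2 Sp hp).2.2.2.2.2 z j]
  have rc := rp_cont (-(1 / 2 + w.om + η)) η
  have c : ∀ j, Continuous fun z => Vt w.om η (ϑ j) (ϑ' j) (perp (tc s) Sp z j) := fun j => by
    simp only [e, Vt]
    split_ifs <;> fun_prop
  obtain ⟨l1, l2, l3, -⟩ := (hL w ho).2 ι
  refine (zE_sum hL ho univ c).trans_le ?_
  rw [card_filter, Nat.cast_sum, mul_sum]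
  refine sum_le_sum fun j _ => ?_
  have cj := c j
  unfold Vt at cj ⊢
  split_ifs at cj ⊢ with h
  · rw [Nat.cast_one, mul_one]
    refine le_trans (((l2 _ (l1 _ cj)).2.2.2.2 _ ⟨Measurable.ite
      (measurableSet_lt measurable_const (by fun_prop)) measurable_const measurable_const, 1,
      fun z _ => ?_⟩).2 fun z hz => ?_) (tail hL hC ho hη P0 (hs j))
    · split_ifs <;> simp
    · rw [e]
      exact rp_le_ind hη (hz j)
  · rw [l3, Nat.cast_zero, mul_zero]

end Vale.Agent.P318.E
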