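import Vale.Agent.P318.C.All
import Vale.Agent.P318.E.Block
import Vale.Agent.P318.E.C1n
import Vale.Agent.P318.E.Core
import Vale.Agent.P318.E.Dec
import Vale.Agent.P318.E.Det
import Vale.Agent.P318.E.Exist
import Vale.Agent.P318.E.G2
import Vale.Agent.P318.E.Geo
import Vale.Agent.P318.E.Inst
import Vale.Agent.P318.E.Iso
import Vale.Agent.P318.E.LawEx2
import Vale.Agent.P318.E.LowG
import Vale.Agent.P318.E.Near2
import Vale.Agent.P318.E.Param
import Vale.Agent.P318.E.Poin3
import Vale.Agent.P318.E.Prof
import Vale.Agent.P318.E.Small2
import Vale.Agent.P318.E.Typ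
import Vale.Agent.P318.E.VMean

/-! Assembly of track E. -/

namespace Vale.Agent.P318.E

open C

theorem finalE : FinalEStmt := by
  have hW := win_proof
  have hD := deriv_proof hW
  have hF := fourier_proof hW
  have hTV := tv_proof hW gauss_proof hD
  have hP := poin3_proof hW hD hF hTV (noised_proof hW hD hF) fibre_proof
  have hN := near2_proof hW gauss_proof hD (small_proof hW hoef_proof) (small2_proof hW hoef_proof)
  have hI := isoE_proof hW (blockE_proof hW line_proof hD hN) hP
  have hL := law_proof hW
  have hC := conc_proof hW hL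
  have hG := geoE_proof B.proj_proof lev_proof (decE_proof lev_proof B.pat_proof)
    (rp_proof lev_proof) (mean_proof hW hL hC B.proj_proof) (vmean_proof hW hL hC B.proj_proof)
    (typE_proof hW hL hC B.pat_proof B.proj_proof)
    (g1_proof lev_proof core_proof B.pat_proof B.proj_proof)
    (g2E_proof lev_proof (sumE_proof coreE_proof) B.pat_proof B.proj_proof) profE_proof
    (metricC_proof hW B.proj_proof)
  have hE := existE_proof parE_proof (detE_proof rip_proof) part_proof lawEx2_proof ripS_proof
    rowI_proof lowGE_proof (c1c_proof B.pat_proof) (c1n_proof B.pat_proof) leave_proof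
  exact finalE_proof (instE_proof hE hI hG (model_proof hW hD))

end Vale.Agent.P318.E
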