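import Vale.Agent.P318.E.Stmt
import Vale.Agent.P318.C.Typ

/-!
Track E: there is an offset for which almost all samples are nice.
-/

namespace Vale.Agent.P318.E

open Finset MeasureTheory
open M (ind Eb pt zz tm BM ip nsq Dual lin Inv CND perp vv cube)
open B (cf nd cd av Op IsProj rr Nice Red Kt tc res Pat pS pJ pD pw zone)
open C C.TypC

namespace TypE

lemma abs_za (η ϑ ϑ' x : ℝ) : |za η ϑ ϑ' x| ≤ |x| := by
  unfold za
  split_ifs <;> simp

lemma za_zero (η ϑ ϑ' : ℝ) : za η ϑ ϑ' 0 = 0 := by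
  unfold za
  split_ifs <;> rfl

lemma DC_tg {a η ϑ ϑ' : ℝ} (ω : ℝ) (hη : 0 < η) (h1 : η ≤ 1) (ha : 0 ≤ a) (h2 : |ϑ| ≤ 1)
    (h3 : |ϑ'| ≤ 1) (h : 1 / η ≤ a ∨ ϑ = 0 ∧ ϑ' = 0) (i : Fin 7) :
    DC a fun t => tg ω η ϑ ϑ' t i := by
  have k1 := DC_tf ω hη h1 ha ((abs_za η ϑ ϑ' ϑ).trans h2) ((abs_za η ϑ ϑ' ϑ').trans h3)
    (h.imp id fun h6 => by simp [h6.1, h6.2, za_zero])
  have k2 := DC_tf ω hη h1 ha h2 h3 h
  fin_cases i
  · exact k1 0
  · exact k1 1
  · exact k1 2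
  · exact k2 3
  · exact k2 4
  · exact k2 5
  · have k3 := DC_rp (η ≤ max |ϑ| |ϑ'|) (-(1 / 2 + ω + η)) 0 ϑ hη ha fun h5 =>
      h.elim id fun h6 => by
        simp only [h6.1, h6.2, abs_zero, max_self] at h5
        linarith
    simp only [add_zero] at k3
    exact k3

lemma tg_zero (ω : ℝ) {η : ℝ} (hη : 0 < η) (t : ℝ) (i : Fin 7) : tg ω η 0 0 t i = 0 := by
  fin_cases i <;> simp [tg, R1, R2, R3, sg, za_zero, Vt, hη]

lemma tf_zero (ω η t : ℝ) (i : Fin 6) : tf ω η 0 0 t i = 0 := by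
  fin_cases i <;> simp [tf, R1, R2, R3, sg]

variable {ι B : Type} [Fintype ι] [DecidableEq ι] [Fintype B] [DecidableEq B] {M : B → ℕ}
  {w : Wn}

lemma Pr_mono (hL : LawStmt) (hw : w.Ok) {P Q : (ι → ℝ) → Prop} (hP : Measurable P)
    (hQ : Measurable Q) (h : ∀ z, P z → Q z) : Pr w P ≤ Pr w Q := by
  have h1 := Pr_or hL hw hP hQ (R := fun _ => False) measurable_const fun z _ hz => .inl (h z hz)
  rwa [Pr_false hL hw (P := fun _ => False) fun _ h => h, add_zero] at h1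

/-- A family of tests is close to its mean. -/
def Fam (w : Wn) (η Le : ℝ) (blk : B → Finset ι) (s : (J : B) → ι → Fin (M J) → ℤ)
    (Sp : (ι → ℝ) →ₗ[ℝ] (Kt M → ℝ)) (g : ℕ) {n : ℕ} (f : ℝ → ℝ → ℝ → Fin n → ℝ)
    (u : ι → ℝ) : Prop :=
  ∀ π π' : Pat M g, pS π = pS π' → ∀ i,
    |∑ j, f (th1 s π j) (th2 s π π' j) (u j) i -
      zE w fun z => ∑ j, f (th1 s π j) (th2 s π π' j) (perp (tc s) Sp z j) i| ≤
    12 / η * Real.sqrt ((zone blk (pS π)).card * ent Le π)

/-- The weight of a pattern. -/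
noncomputable def wp (Le : ℝ) {g : ℕ} (π : Pat M g) : ℝ :=
  if pS π = ∅ then 0 else Real.exp (-ent Le π)

lemma wp_nonneg (Le : ℝ) {g : ℕ} (π : Pat M g) : 0 ≤ wp Le π := by
  unfold wp
  split_ifs <;> positivity

omit [DecidableEq ι] in
lemma meas_le {F : (ι → ℝ) → ℝ} (a : ℝ) (hF : Continuous F) : Measurable fun z => |F z| ≤ a :=
  measurableSet_setOfPred.1 (measurableSet_le hF.abs.measurable measurable_const)

lemma fam (hL : LawStmt) (hC : ConcStmt) (hP : P318.B.ProjStmt) (hw : w.Ok) {blk : B → Finset ι}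
    {s : (J : B) → ι → Fin (M J) → ℤ} {Sp : (ι → ℝ) →ₗ[ℝ] (Kt M → ℝ)} {η Le : ℝ} (g : ℕ)
    {n : ℕ} {f : ℝ → ℝ → ℝ → Fin n → ℝ} (h0 : 0 < η) (hLe : 0 ≤ Le) (hp : IsProj (tc s) Sp)
    (hz : ∀ J j, j ∉ blk J → s J j = 0) (hne : ∀ J, (blk J).Nonempty)
    (hf : ∀ a ϑ ϑ' : ℝ, 0 ≤ a → |ϑ| ≤ 1 → |ϑ'| ≤ 1 → (1 / η ≤ a ∨ ϑ = 0 ∧ ϑ' = 0) →
      ∀ i, DC a fun t => f ϑ ϑ' t i)
    (hf0 : ∀ t i, f 0 0 t i = 0) :
    Measurable (fun z => Fam w η Le blk s Sp g f (perp (tc s) Sp z)) ∧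
      Pr w (fun z => ¬ Fam w η Le blk s Sp g f (perp (tc s) Sp z)) ≤
        4 * n * (∑ π : Pat M g, wp Le π) ^ 2 := by
  obtain ⟨hLB, hE, hconst, -⟩ := (hL w hw).2 ι
  have ent0 : ∀ π : Pat M g, 0 ≤ ent Le π := fun π => by unfold ent; positivity
  have e0 : ∀ π : Pat M g, 0 ≤ wp Le π := wp_nonneg Le
  have hth : ∀ (π π' : Pat M g) j, |th1 s π j| ≤ 1 ∧ |th2 s π π' j| ≤ 1 := fun π π' j => by
    have h2 : |th1 s π j| ≤ 1 / 2 := abs_sub_round _
    have h3 : |cf (pw s π' j - th1 s π j)| ≤ 1 / 2 := abs_sub_round _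
    exact ⟨by linarith, (abs_add_le _ _).trans (by linarith)⟩
  have c3 : ∀ (π π' : Pat M g) (i : Fin n), ∃ G : Bool → (ι → ℝ) → ℝ,
      (pS π = pS π' → ∀ z, ∑ j, f (th1 s π j) (th2 s π π' j) (perp (tc s) Sp z j) i =
        G true z - G false z) ∧
      ∀ b, CV (Real.sqrt (zone blk (pS π)).card / η) (G b) := fun π π' i => by
    by_cases hS : pS π = pS π'
    swap
    · refine ⟨fun _ z => ∑ j, 0 * z j, fun h => absurd h hS, fun _ => CV_lin _ ?_⟩
      simp only [ne_eq, OfNat.ofNat_ne_zero, not_false_eq_true, zero_pow, sum_const_zero,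
        Real.sqrt_zero]
      positivity
    choose G hG hG' using fun j => hf (if j ∈ zone blk (pS π) then 1 / η else 0) _ _
      (by split_ifs <;> positivity) (hth π π' j).1 (hth π π' j).2 (by
        split_ifs with hj
        exacts [.inl le_rfl, .inr (th_zero hz hS hj)]) i
    refine ⟨fun b z => ∑ j, G j b (perp (tc s) Sp z j), fun _ z => ?_, fun b =>
      (CV_sum hP hp fun j => hG' j b).mono (le_of_eq ?_)⟩
    · simp only [hG, sum_sub_distrib]
    · simp [Real.sqrt_sq h0.le, div_eq_mul_inv]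
  choose G hG hG' using c3
  let Q3 := fun a : Pat M g × Pat M g × Fin n × Bool => Dev w (pS a.1 ≠ ∅ ∧ pS a.1 = pS a.2.1)
    (G a.1 a.2.1 a.2.2.1 a.2.2.2)
    (6 * (Real.sqrt (zone blk (pS a.1)).card / η) * Real.sqrt (ent Le a.1))
  have m3 : ∀ a, Measurable (Q3 a) := fun a => meas_Dev _ (hG' _ _ _ _).cont _
  have p3 := Pr_ex hL hw m3 (δ := fun a => 2 * (wp Le a.1 * wp Le a.2.1)) fun a =>
    Pr_Dev hL hC hw (hG' _ _ _ _) (ent0 _) (by have := e0 a.1; have := e0 a.2.1; positivity)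
      fun h => ⟨by
        obtain ⟨J, hJ⟩ := nonempty_iff_ne_empty.2 h.1
        obtain ⟨j, hj⟩ := hne J
        have : 0 < (zone blk (pS a.1)).card := card_pos.2 ⟨j, mem_biUnion.2 ⟨J, hJ, hj⟩⟩
        positivity, by
        have h2 : ent Le a.2.1 = ent Le a.1 := by unfold ent; rw [h.2]
        simp only [wp, if_neg h.1, if_neg (h.2 ▸ h.1), h2, ← Real.exp_add]
        exact le_of_eq (by congr 2; ring)⟩
  have mP : Measurable fun z => Fam w η Le blk s Sp g f (perp (tc s) Sp z) := by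
    refine .forall fun π => .forall fun π' => ?_
    by_cases hS : pS π = pS π'
    · simp only [hG π π' _ hS]
      exact measurable_const.imp (.forall fun i => meas_le _
        (((hG' π π' i _).cont.sub (hG' π π' i _).cont).sub continuous_const))
    · simp [hS]
  refine ⟨mP, (Pr_mono hL hw mP.not (.exists m3) fun z hn => ?_).trans (p3.trans (le_of_eq ?_))⟩
  · by_contra hq
    simp only [not_exists, Q3, Dev, not_and, not_lt, Prod.forall, and_imp] at hq
    refine hn fun π π' hS i => ?_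
    by_cases h : pS π = ∅
    · have h2 := fun j => th_zero hz hS (j := j) (by simp [h, zone])
      have h3 : ∀ u : ι → ℝ, ∑ j, f (th1 s π j) (th2 s π π' j) (u j) i = 0 := fun u => by
        refine sum_eq_zero fun j _ => ?_
        rw [(h2 j).1, (h2 j).2, hf0]
      simp [h3, hconst, h, zone]
    have h2 := ((hE (fun z => G π π' i true z - G π π' i false z) (hLB _
      ((hG' π π' i true).cont.sub (hG' π π' i false).cont))).2.2.2.2 _
      (hLB _ (hG' π π' i false).cont)).1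
    simp only [sub_add_cancel] at h2
    have h3 := abs_le.1 (hq π π' i true h hS)
    have h4 := abs_le.1 (hq π π' i false h hS)
    have h5 : 12 / η * Real.sqrt ((zone blk (pS π)).card * ent Le π) =
        2 * (6 * (Real.sqrt (zone blk (pS π)).card / η) * Real.sqrt (ent Le π)) := by
      rw [Real.sqrt_mul (Nat.cast_nonneg _)]
      ring
    simp only [hG π π' i hS, h5, abs_le]
    constructor <;> linarith [h3.1, h3.2, h4.1, h4.2]
  · simp only [Fintype.sum_prod_type, sum_const, card_univ, Fintype.card_fin, Fintype.card_bool,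
      Fintype.card_prod, nsmul_eq_mul, ← mul_sum, ← sum_mul]
    push_cast
    ring

end TypE

open TypE in
theorem typE_proof (_hW : WinStmt) (hL : LawStmt) (hC : ConcStmt) (hPat : B.PatStmt)
    (hP : B.ProjStmt) : TypEStmt := by
  intro ι B _ _ _ _ M blk s Sp w η0 Le Pm x g Ni hw hom hη0 hNi hPm hLe hp hz hne hlev hx hx1
  obtain ⟨η, hη⟩ : ∃ η, η = w.om / 10 := ⟨_, rfl⟩
  have h0 : 0 < η := by rw [hη]; linarith [hw.1]
  have h1 : η ≤ 1 / 160 := by rw [hη]; linarith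
  obtain ⟨-, -, hconst, hlin0⟩ := (hL w hw).2 ι
  obtain ⟨a, hlin, ha⟩ : ∃ a : ι → ι → ℝ, (∀ z i, lin (tc s) (Sp z) i = ∑ j, a i j * z j) ∧
    ∀ i, ∑ j, a i j ^ 2 ≤ Pm := ⟨_, ((hP.1 ι _ (tc s)).2 Sp hp).2.2.2.2.2, hlev⟩
  have ent0 : ∀ π : Pat M g, 0 ≤ ent Le π := fun π => by unfold ent; positivity
  have e0 : ∀ π : Pat M g, 0 ≤ wp Le π := wp_nonneg Le
  have hx0 : 0 ≤ x := le_trans (by positivity) hx
  have he : ∑ π : Pat M g, wp Le π ≤ 2 * x := by
    have h2 := (hPat B M g).2.2 fun J => Le * M J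
    have h3 := Real.abs_exp_sub_one_le (x := x) (by rw [abs_of_nonneg hx0]; linarith)
    rw [abs_of_nonneg hx0] at h3
    simp only [wp, ent, mul_sum]
    linarith [Real.exp_le_exp.2 hx, le_abs_self (Real.exp x - 1)]
  have he2 : (∑ π : Pat M g, wp Le π) ^ 2 ≤ 2 * x := by
    have h2 : 0 ≤ ∑ π : Pat M g, wp Le π := sum_nonneg fun π _ => e0 π
    nlinarith
  -- the tests
  have c1 : ∀ i, CV (Real.sqrt Pm) fun z => lin (tc s) (Sp z) i := fun i => by
    simp only [hlin]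
    exact CV_lin _ (Real.sqrt_le_sqrt (ha i))
  have c2 := fun π : Pat M g => CV_T1 hP hp w.om η (th1 s π)
  obtain ⟨m3, p3⟩ := fam hL hC hP hw g (f := tf w.om η) h0 hLe hp hz hne
    (fun a ϑ ϑ' k1 k2 k3 k4 => DC_tf w.om h0 (by linarith) k1 k2 k3 k4) (tf_zero w.om η)
  have hi : ∀ i : Fin Ni, 0 < η0 * Real.sqrt ((i : ℕ) + 1) ∧
      η0 * Real.sqrt ((i : ℕ) + 1) ≤ 1 := fun i => by
    refine ⟨by positivity, le_trans ?_ hNi⟩
    have : ((i : ℕ) : ℝ) + 1 ≤ Ni := by exact_mod_cast i.2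
    gcongr
  have f4 := fun i : Fin Ni => fam hL hC hP hw g (f := tg w.om (η0 * Real.sqrt ((i : ℕ) + 1)))
    (hi i).1 hLe hp hz hne
    (fun a ϑ ϑ' k1 k2 k3 k4 => DC_tg w.om (hi i).1 (hi i).2 k1 k2 k3 k4) (tg_zero w.om (hi i).1)
  let Q1 := fun i => Dev w True (fun z => lin (tc s) (Sp z) i) η
  let Q2 := fun π : Pat M g => Dev w (pS π ≠ ∅)
    (fun z => T1 w.om η (th1 s π) (perp (tc s) Sp z))
    (6 * Lip1 (tc s) Sp w.om (th1 s π) * Real.sqrt (ent Le π))
  have m1 : ∀ i, Measurable (Q1 i) := fun i => meas_Dev _ (c1 i).cont _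
  have m2 : ∀ π, Measurable (Q2 π) := fun π => meas_Dev _ (c2 π).cont _
  have m4 := fun i : Fin Ni => (f4 i).1.not
  have p1 := Pr_ex hL hw m1 (δ := fun _ => 2 * Real.exp (-η ^ 2 / (16 * Pm))) fun i => by
    have := hC ι w _ _ η hw (Real.sqrt_pos.2 hPm) h0.le (c1 i).1 (c1 i).2
    rw [Real.sq_sqrt hPm.le] at this
    simpa only [Pr, Q1, Dev, true_and] using this
  have p2 := Pr_ex hL hw m2 (δ := fun π => 2 * wp Le π) fun π =>
    Pr_Dev hL hC hw (c2 π) (ent0 π) (by linarith [e0 π]) fun h => ⟨by unfold Lip1; positivity, by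
      simp only [wp, if_neg h]
      gcongr
      linarith [ent0 π]⟩
  have p4 := Pr_ex hL hw m4 fun i => (f4 i).2
  have hperp : Continuous (perp (tc s) Sp) := by
    have := Sp.continuous_of_finiteDimensional
    unfold perp lin ip
    fun_prop
  have mP : Measurable fun z => ¬ Nice (tc s) Sp (GoodE w η0 Le Ni blk s Sp g) z := by
    unfold Nice GoodE GoodC
    rw [← hη]
    exact (Measurable.and (.and (.and (.forall fun i => meas_le _ (by fun_prop)) (.and
      (.forall fun π => meas_le _ ((c2 π).cont.sub continuous_const)) m3))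
      (.forall fun i => (f4 i).1)) (.forall fun i => meas_le _ (by fun_prop))).not
  obtain ⟨k1, c, k2⟩ := exists_offset hL hw (tc s) mP
  have m34 := m3.not.or (Measurable.exists m4)
  have m234 := (Measurable.exists m2).or m34
  refine ⟨k1, c, k2.trans ((Pr_or hL hw mP (.exists m1) m234
    fun z hz1 hn => ?_).trans ((add_le_add p1 ((Pr_or hL hw m234 (.exists m2) m34
      fun _ _ h => h).trans (add_le_add p2 ((Pr_or hL hw m34 m3.not (.exists m4)
        fun _ _ h => h).trans (add_le_add p3 p4))))).trans ?_))⟩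
  · by_contra hq
    simp only [not_or, not_exists, Q1, Q2, Dev, not_and, not_lt, forall_const, not_not] at hq
    obtain ⟨q1, q2, q3, q4⟩ := hq
    have hu : ∀ i, |perp (tc s) Sp z i - z i| ≤ η := fun i => by
      have h2 := q1 i
      simp only [hlin, hlin0, sub_zero] at h2
      rwa [perp, sub_sub_cancel_left, abs_neg, hlin]
    refine hn ⟨⟨?_, q4⟩, fun i => (hu i).trans h1⟩
    rw [← hη]
    refine ⟨fun i => ?_, fun π => ?_, q3⟩
    · have := abs_add_le (perp (tc s) Sp z i - z i) (z i)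
      rw [sub_add_cancel] at this
      linarith [hu i, hz1 i]
    · by_cases h : pS π = ∅
      · have h2 : ∀ j, th1 s π j = 0 := fun j => (th_zero hz rfl (by simp [h, zone])).1
        have h3 : ¬ 4 * w.om < 0 := by linarith [hw.1]
        simp [T1, hg, h2, h3, hconst, ent, h]
      · exact q2 π h
  · rw [← hη]
    simp only [sum_const, card_univ, Fintype.card_fin, nsmul_eq_mul, ← mul_sum, cd]
    push_cast
    have h2 : (0 : ℝ) ≤ Ni := Nat.cast_nonneg _
    nlinarith [mul_le_mul_of_nonneg_left he2 h2, mul_nonneg h2 hx0]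

end Vale.Agent.P318.E
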